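import Crest.Agent.Lib.PolyTime.List

/-!
# `Poly` for binary arithmetic on `ℕ`, and unary quantities (`PB`-bounded numbers)
-/

namespace Crest.Agent.Lib.PolyTime

/-- The number with the given little-endian bits. -/
def ofBits (l : List Bool) : ℕ := l.foldr Nat.bit 0

@[simp] theorem ofBits_nil : ofBits [] = 0 := rfl
@[simp] theorem ofBits_cons (b : Bool) (l : List Bool) : ofBits (b :: l) = Nat.bit b (ofBits l) :=
  rfl

@[simp] theorem ofBits_bits (k : ℕ) : ofBits k.bits = k := by
  induction k using Nat.binaryRec' with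
  | zero => simp
  | bit b n h ih => rw [Nat.bits_append_bit n b h]; simp [ih]

theorem ofBits_append (l m : List Bool) : ofBits (l ++ m) = ofBits l + 2 ^ l.length * ofBits m := by
  induction l with
  | nil => simp
  | cons b l ih => simp [ih, Nat.bit_val, pow_succ]; ring

theorem ofBits_lt (l : List Bool) : ofBits l < 2 ^ l.length := by
  induction l with
  | nil => simp
  | cons b l ih => cases b <;> simp [Nat.bit_val, pow_succ] <;> omega

theorem sz_nat_le (n : ℕ) : sz n ≤ 4 * n.size + 1 := by
  rw [sz_nat, ← Nat.size_eq_bits_len]; exact sz_listBool_le _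

theorem size_lt_sz (n : ℕ) : n.size < sz n := by
  rw [sz_nat, ← Nat.size_eq_bits_len]; exact length_lt_sz _

theorem lt_two_pow_sz (n : ℕ) : n < 2 ^ sz n :=
  (Nat.lt_size_self n).trans_le (Nat.pow_le_pow_right (by norm_num) (size_lt_sz n).le)

theorem sz_le_of_lt_two_pow {n k : ℕ} (h : n < 2 ^ k) : sz n ≤ 4 * k + 1 :=
  (sz_nat_le n).trans (by have := Nat.size_le.2 h; omega)

theorem sz_le_of_le {m n : ℕ} (h : m ≤ n) : sz m ≤ 4 * sz n := by
  have h1 := sz_nat_le m
  have h2 := Nat.size_le_size h
  have h3 := size_lt_sz n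
  omega

theorem sz_le_self (n : ℕ) : sz n ≤ 4 * n + 1 := sz_le_of_lt_two_pow Nat.lt_two_pow_self

theorem sz_bit_le (b : Bool) (n : ℕ) : sz (Nat.bit b n) ≤ sz n + 4 := by
  by_cases h : n = 0 → b = true
  · rw [sz_nat, Nat.bits_append_bit n b h, sz_cons, ← sz_nat]
    have := sz_bool_le b
    omega
  · push Not at h
    obtain ⟨rfl, hb⟩ := h
    cases b <;> simp_all

theorem sz_div2_le (n : ℕ) : sz n.div2 ≤ sz n := by
  rw [sz_nat, sz_nat, Nat.div2_bits_eq_tail]
  exact sz_le_of_sublist (List.tail_sublist _)

theorem size_mul_le (m n : ℕ) : (m * n).size ≤ m.size + n.size := by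
  rw [Nat.size_le, pow_add]
  exact Nat.mul_lt_mul'' (Nat.lt_size_self m) (Nat.lt_size_self n)

theorem size_add_le (m n : ℕ) : (m + n).size ≤ m.size + n.size + 1 := by
  rw [Nat.size_le]
  have h1 := (Nat.lt_size_self m).trans_le
    (Nat.pow_le_pow_right (show 0 < 2 by norm_num) (Nat.le_add_right m.size n.size))
  have h2 := (Nat.lt_size_self n).trans_le
    (Nat.pow_le_pow_right (show 0 < 2 by norm_num) (Nat.le_add_left n.size m.size))
  rw [pow_succ]; omega

namespace PB
variable {α : Type*} [PEnc α]

/-- A polynomially bounded number has polynomially bounded code. -/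
theorem sz_of_pb {n : α → ℕ} (h : PB n) : PB fun a => sz (n a) :=
  (((PB.const 4).mul h).add (PB.const 1)).mono fun _ => sz_le_self _

theorem sz_of_lt_two_pow {n k : α → ℕ} (hk : PB k) (h : ∀ a, n a < 2 ^ k a) :
    PB fun a => sz (n a) :=
  (((PB.const 4).mul hk).add (PB.const 1)).mono fun a => sz_le_of_lt_two_pow (h a)

@[fun_prop] theorem size {n : α → ℕ} (h : Poly n) : PB fun a => (n a).size :=
  h.pb_sz.mono fun _ => (size_lt_sz _).le

@[fun_prop] theorem log2 {n : α → ℕ} (h : Poly n) : PB fun a => (n a).log2 :=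
  h.pb_sz.mono fun a => by
    rcases Nat.eq_zero_or_pos (n a) with h0 | h0
    · simp [h0]
    · exact ((Nat.log2_lt h0.ne').2 (lt_two_pow_sz _)).le

@[fun_prop] theorem log {n : α → ℕ} (b : α → ℕ) (h : Poly n) : PB fun a => Nat.log (b a) (n a) :=
  h.pb_sz.mono fun a => by
    rcases Nat.lt_or_ge 1 (b a) with hb | hb
    · rcases Nat.eq_zero_or_pos (n a) with h0 | h0
      · simp [h0]
      · exact (Nat.log_anti_left (by norm_num) hb).trans
          (Nat.log_lt_of_lt_pow h0.ne' (lt_two_pow_sz _)).le
    · simp [Nat.log_of_left_le_one hb]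

end PB

namespace Poly
variable {α β γ δ σ : Type*} [PEnc α] [PEnc β] [PEnc γ] [PEnc δ] [PEnc σ]

@[fun_prop] theorem bits {n : α → ℕ} (h : Poly n) : Poly fun a => (n a).bits :=
  h.of_enc fun _ => rfl

@[fun_prop] theorem div2 {n : α → ℕ} (h : Poly n) : Poly fun a => (n a).div2 :=
  h.bits.tail.of_enc fun a => by rw [enc_nat, Nat.div2_bits_eq_tail]

@[fun_prop] theorem bodd {n : α → ℕ} (h : Poly n) : Poly fun a => (n a).bodd :=
  (h.bits.headD (const false)).congr fun a => by
    rw [Nat.bodd_eq_bits_head]; cases (n a).bits <;> rfl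

@[fun_prop] theorem bit {b : α → Bool} {n : α → ℕ} (hb : Poly b) (hn : Poly n) :
    Poly fun a => Nat.bit (b a) (n a) := by
  have h : Poly fun a => if (decide (n a = 0) && !b a) = true then [] else b a :: (n a).bits := by
    fun_prop
  refine h.of_enc fun a => ?_
  by_cases h : n a = 0 → b a = true
  · rw [enc_nat, Nat.bits_append_bit _ _ h, if_neg]
    by_cases h0 : n a = 0
    · simp [h h0]
    · simp [h0]
  · push Not at h
    obtain ⟨h0, hb⟩ := h
    simp only [ne_eq, Bool.not_eq_true] at hb
    simp [h0, hb, enc_nat]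

@[fun_prop] theorem ofBits {l : α → List Bool} (h : Poly l) : Poly fun a => ofBits (l a) :=
  foldr_add (h := fun _ => Nat.bit) h (const 0) (by fun_prop) (fun _ _ => 4) (PB.const 4)
    fun _ b n => sz_bit_le b n

/-- One round of a ripple-carry circuit with carry function `cy` and output `x xor y xor c`. -/
def ripple (cy : Bool → Bool → Bool → Bool) (s : ℕ × ℕ × Bool × List Bool) :
    ℕ × ℕ × Bool × List Bool :=
  (s.1.div2, s.2.1.div2, cy s.1.bodd s.2.1.bodd s.2.2.1,
    Bool.xor (Bool.xor s.1.bodd s.2.1.bodd) s.2.2.1 :: s.2.2.2)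

theorem ripple_iter (cy : Bool → Bool → Bool → Bool) :
    Poly fun p : ℕ × ℕ =>
      (ripple cy)^[(p.1.bits ++ p.2.bits).length] (p.1, p.2, false, []) := by
  have hcy : Poly fun q : Bool × Bool × Bool => cy q.1 q.2.1 q.2.2 := of_finite _
  have hr : Poly (ripple cy) := by
    unfold ripple
    have : Poly fun s : ℕ × ℕ × Bool × List Bool => cy s.1.bodd s.2.1.bodd s.2.2.1 :=
      comp hcy (g := fun s : ℕ × ℕ × Bool × List Bool => (s.1.bodd, s.2.1.bodd, s.2.2.1))
        (by fun_prop)
    fun_prop
  have hb : ∀ (i : ℕ) (s : ℕ × ℕ × Bool × List Bool), sz ((ripple cy)^[i] s) ≤ sz s + 6 * i := by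
    intro i
    induction i with
    | zero => simp
    | succ i ih =>
      rintro ⟨x, y, c, acc⟩
      rw [Function.iterate_succ_apply]
      refine (ih _).trans ?_
      have h1 := sz_div2_le x
      have h2 := sz_div2_le y
      have h3 := sz_bool_le (cy x.bodd y.bodd c)
      have h4 := sz_bool_le (Bool.xor (Bool.xor x.bodd y.bodd) c)
      have h5 := one_le_sz c
      simp only [ripple, sz_pair, sz_cons]
      omega
  exact iterate_len (h := fun _ => ripple cy) (by fun_prop) (by fun_prop) (hr.comp (by fun_prop))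
    (B := fun p : ℕ × ℕ => sz (p.1, p.2, false, ([] : List Bool)) +
      6 * (p.1.bits ++ p.2.bits).length) (by fun_prop)
    fun p i hi => (hb i _).trans (by omega)

theorem ripple_fst (cy : Bool → Bool → Bool → Bool) (i : ℕ) (s : ℕ × ℕ × Bool × List Bool) :
    ((ripple cy)^[i] s).1 = s.1 / 2 ^ i ∧ ((ripple cy)^[i] s).2.1 = s.2.1 / 2 ^ i ∧
      ((ripple cy)^[i] s).2.2.2.length = s.2.2.2.length + i := by
  induction i with
  | zero => simp
  | succ i ih =>
    rw [Function.iterate_succ_apply']
    obtain ⟨h1, h2, h3⟩ := ih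
    simp only [ripple, Nat.div2_val, h1, h2, h3, List.length_cons, pow_succ, Nat.div_div_eq_div_mul]
    simp [Nat.add_assoc]

theorem lt_two_pow_len (m n : ℕ) :
    m < 2 ^ (m.bits ++ n.bits).length ∧ n < 2 ^ (m.bits ++ n.bits).length := by
  simp only [List.length_append, Nat.size_eq_bits_len]
  exact ⟨(Nat.lt_size_self m).trans_le (Nat.pow_le_pow_right (by norm_num) (by omega)),
    (Nat.lt_size_self n).trans_le (Nat.pow_le_pow_right (by norm_num) (by omega))⟩

theorem ripple_add (m n i : ℕ) :
    let s := (ripple fun x y c => (x && y) || (c && (x || y)))^[i] (m, n, false, [])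
    m + n = PolyTime.ofBits s.2.2.2.reverse + 2 ^ i * (s.1 + s.2.1 + s.2.2.1.toNat) := by
  induction i with
  | zero => simp
  | succ i ih =>
    have hl := (ripple_fst (fun x y c => (x && y) || (c && (x || y))) i (m, n, false, [])).2.2
    simp only [Function.iterate_succ_apply'] at ih ⊢
    generalize (ripple fun x y c => (x && y) || (c && (x || y)))^[i] (m, n, false, []) = s at *
    obtain ⟨x, y, c, acc⟩ := s
    simp only [List.length_nil, Nat.zero_add] at hl ih
    simp only [ripple, List.reverse_cons, ofBits_append, List.length_reverse, hl, ih,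
      Nat.add_assoc, pow_succ, Nat.mul_assoc, ← Nat.mul_add]
    congr 2
    have hx := Nat.bodd_add_div2 x
    have hy := Nat.bodd_add_div2 y
    revert hx hy
    cases x.bodd <;> cases y.bodd <;> cases c <;> simp [Nat.bit_val] <;> omega

theorem ripple_sub (m n i : ℕ) :
    let s := (ripple fun x y c => (!x && (y || c)) || (y && c))^[i] (m, n, false, [])
    m + 2 ^ i * (s.2.1 + s.2.2.1.toNat) = n + PolyTime.ofBits s.2.2.2.reverse + 2 ^ i * s.1 := by
  induction i with
  | zero => simp [Nat.add_comm]
  | succ i ih =>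
    have hl := (ripple_fst (fun x y c => (!x && (y || c)) || (y && c)) i (m, n, false, [])).2.2
    simp only [Function.iterate_succ_apply'] at ih ⊢
    generalize (ripple fun x y c => (!x && (y || c)) || (y && c))^[i] (m, n, false, []) = s at *
    obtain ⟨x, y, c, acc⟩ := s
    simp only [List.length_nil, Nat.zero_add] at hl ih
    simp only [ripple, List.reverse_cons, ofBits_append, List.length_reverse, hl, pow_succ]
    have hx := Nat.bodd_add_div2 x
    have hy := Nat.bodd_add_div2 y
    generalize x.div2 = x' at *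
    generalize y.div2 = y' at *
    generalize 2 ^ i = P at *
    generalize PolyTime.ofBits acc.reverse = Q at *
    revert hx hy ih
    cases x.bodd <;> cases y.bodd <;> cases c <;> simp [Nat.bit_val] <;> intro hx hy ih <;>
      subst hx hy <;> nlinarith

@[fun_prop] theorem add {m n : α → ℕ} (hm : Poly m) (hn : Poly n) : Poly fun a => m a + n a := by
  refine comp (f := fun p : ℕ × ℕ => p.1 + p.2) ?_ (hm.pair hn)
  have h := ripple_iter fun x y c => (x && y) || (c && (x || y))
  refine ((h.snd.snd.fst.cons h.snd.snd.snd).reverse.ofBits).congr fun p => ?_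
  obtain ⟨m, n⟩ := p
  have h1 := ripple_add m n (m.bits ++ n.bits).length
  obtain ⟨h2, h3, h4⟩ := ripple_fst (fun x y c => (x && y) || (c && (x || y)))
    (m.bits ++ n.bits).length (m, n, false, [])
  obtain ⟨h5, h6⟩ := lt_two_pow_len m n
  simp only [Nat.div_eq_of_lt h5, Nat.div_eq_of_lt h6, List.length_nil, Nat.zero_add] at h2 h3 h4
  simp only [h2, h3] at h1
  rw [List.reverse_cons, ofBits_append, List.length_reverse, h4, h1]
  simp [Nat.bit_val]

theorem ripple_sub_final (m n : ℕ) :
    let s := (ripple fun x y c => (!x && (y || c)) || (y && c))^[(m.bits ++ n.bits).length]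
      (m, n, false, [])
    s.2.2.1 = decide (m < n) ∧ (s.2.2.1 = false → PolyTime.ofBits s.2.2.2.reverse = m - n) := by
  have h1 := ripple_sub m n (m.bits ++ n.bits).length
  obtain ⟨h2, h3, h4⟩ := ripple_fst (fun x y c => (!x && (y || c)) || (y && c))
    (m.bits ++ n.bits).length (m, n, false, [])
  obtain ⟨h5, h6⟩ := lt_two_pow_len m n
  simp only [Nat.div_eq_of_lt h5, Nat.div_eq_of_lt h6, List.length_nil, Nat.zero_add] at h2 h3 h4
  simp only [h2, h3] at h1
  intro s
  have h7 := ofBits_lt s.2.2.2.reverse
  rw [List.length_reverse, h4] at h7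
  change m + _ * (0 + s.2.2.1.toNat) = n + PolyTime.ofBits s.2.2.2.reverse + _ at h1
  generalize 2 ^ (m.bits ++ n.bits).length = P at h1 h5 h6 h7
  revert h1
  cases s.2.2.1 <;> simp <;> omega

@[fun_prop] theorem decide_lt {m n : α → ℕ} (hm : Poly m) (hn : Poly n)
    [inst : ∀ a, Decidable (m a < n a)] : Poly fun a => decide (m a < n a) := by
  refine (comp (f := fun p : ℕ × ℕ => decide (p.1 < p.2)) ?_ (hm.pair hn)).congr fun a => by simp
  exact (ripple_iter _).snd.snd.fst.congr fun p => (ripple_sub_final p.1 p.2).1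

@[fun_prop] theorem decide_le {m n : α → ℕ} (hm : Poly m) (hn : Poly n)
    [inst : ∀ a, Decidable (m a ≤ n a)] : Poly fun a => decide (m a ≤ n a) :=
  (decide_lt hn hm).not.congr fun a => by by_cases h : m a ≤ n a <;> simp [h]; omega

@[fun_prop] theorem sub {m n : α → ℕ} (hm : Poly m) (hn : Poly n) : Poly fun a => m a - n a := by
  refine comp (f := fun p : ℕ × ℕ => p.1 - p.2) ?_ (hm.pair hn)
  have h := ripple_iter fun x y c => (!x && (y || c)) || (y && c)
  refine (h.snd.snd.fst.cond (const 0) h.snd.snd.snd.reverse.ofBits).congr fun p => ?_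
  obtain ⟨h1, h2⟩ := ripple_sub_final p.1 p.2
  cases hc : ((ripple fun x y c => (!x && (y || c)) || (y && c))^[(p.1.bits ++ p.2.bits).length]
      (p.1, p.2, false, [])).2.2.1
  · exact h2 hc
  · rw [hc] at h1
    have : p.1 < p.2 := by simpa using h1
    simp; omega

@[fun_prop] theorem succ {n : α → ℕ} (hn : Poly n) : Poly fun a => (n a).succ := hn.add (const 1)

@[fun_prop] theorem pred {n : α → ℕ} (hn : Poly n) : Poly fun a => (n a).pred := hn.sub (const 1)

@[fun_prop] theorem natMin {m n : α → ℕ} (hm : Poly m) (hn : Poly n) :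
    Poly fun a => min (m a) (n a) :=
  (ite (decide_le hm hn) hm hn).congr fun a => by split_ifs <;> omega

@[fun_prop] theorem natMax {m n : α → ℕ} (hm : Poly m) (hn : Poly n) :
    Poly fun a => max (m a) (n a) :=
  (ite (decide_le hm hn) hn hm).congr fun a => by split_ifs <;> omega

@[fun_prop] theorem boolToNat {b : α → Bool} (hb : Poly b) : Poly fun a => (b a).toNat :=
  (of_finite Bool.toNat).comp hb

@[fun_prop] theorem mul {m n : α → ℕ} (hm : Poly m) (hn : Poly n) : Poly fun a => m a * n a := by
  refine comp (f := fun p : ℕ × ℕ => p.1 * p.2) ?_ (hm.pair hn)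
  have key : ∀ (n : ℕ) (l : List Bool),
      l.foldr (fun b s => Nat.bit false s + bif b then n else 0) 0 = PolyTime.ofBits l * n := by
    intro n l
    induction l with
    | nil => simp
    | cons b l ih => rw [List.foldr_cons, ih]; cases b <;> simp [Nat.bit_val] <;> ring
  refine (foldr (l := fun p : ℕ × ℕ => p.1.bits) (g := fun _ => 0)
    (h := fun p b s => Nat.bit false s + bif b then p.2 else 0) (by fun_prop) (by fun_prop)
    (by fun_prop) (B := fun p => 4 * (p.1.size + p.2.size) + 1) (by fun_prop)
    fun p l hl => ?_).congr fun p => by rw [key, ofBits_bits]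
  rw [key]
  refine sz_le_of_lt_two_pow ?_
  rw [pow_add]
  refine Nat.mul_lt_mul'' ((ofBits_lt l).trans_le (Nat.pow_le_pow_right (by norm_num) ?_))
    (Nat.lt_size_self _)
  simpa [Nat.size_eq_bits_len] using hl.length_le

theorem divMod : Poly fun p : ℕ × ℕ => (p.1 / p.2, p.1 % p.2) := by
  let st : ℕ → Bool → ℕ × ℕ → ℕ × ℕ := fun n b s =>
    if n ≤ Nat.bit b s.2 then (Nat.bit true s.1, Nat.bit b s.2 - n)
    else (Nat.bit false s.1, Nat.bit b s.2)
  have key : ∀ n : ℕ, 0 < n → ∀ l : List Bool,
      l.foldr (st n) (0, 0) = (PolyTime.ofBits l / n, PolyTime.ofBits l % n) := by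
    intro n hn l
    induction l with
    | nil => simp
    | cons b l ih =>
      have h1 := Nat.mod_add_div (PolyTime.ofBits l) n
      have h2 := Nat.mod_lt (PolyTime.ofBits l) hn
      have hb : b.toNat ≤ 1 := Bool.toNat_le b
      rw [List.foldr_cons, ih]
      simp only [st, ofBits_cons, Nat.bit_val]
      generalize PolyTime.ofBits l / n = q at *
      generalize PolyTime.ofBits l % n = r at *
      split_ifs with h
      · have := (Nat.div_mod_unique (a := 2 * PolyTime.ofBits l + b.toNat) (d := 2 * q + 1)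
          (c := 2 * r + b.toNat - n) hn).2 ⟨by
            have : n * (2 * q + 1) = 2 * (n * q) + n := by ring
            omega, by omega⟩
        simp [this.1, this.2]
      · have := (Nat.div_mod_unique (a := 2 * PolyTime.ofBits l + b.toNat) (d := 2 * q)
          (c := 2 * r + b.toNat) hn).2 ⟨by
            have : n * (2 * q) = 2 * (n * q) := by ring
            omega, by omega⟩
        simp [this.1, this.2]
  have hpos : Poly fun p : {p : ℕ × ℕ // ¬ p.2 = 0} => (p.1.1 / p.1.2, p.1.1 % p.1.2) := by
    refine (foldr (l := fun p : {p : ℕ × ℕ // ¬ p.2 = 0} => p.1.1.bits) (g := fun _ => (0, 0))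
      (h := fun p => st p.1.2) (by fun_prop) (by fun_prop) (by simp only [st]; fun_prop)
      (B := fun p => 8 * p.1.1.size + 3) (by fun_prop) fun p l hl => ?_).congr fun p => by
        rw [key _ (Nat.pos_of_ne_zero p.2), ofBits_bits]
    rw [key _ (Nat.pos_of_ne_zero p.2), sz_pair]
    have h0 : PolyTime.ofBits l < 2 ^ p.1.1.size :=
      (ofBits_lt l).trans_le (Nat.pow_le_pow_right (by norm_num)
        (by simpa [Nat.size_eq_bits_len] using hl.length_le))
    have h1 := sz_le_of_lt_two_pow ((Nat.div_le_self _ p.1.2).trans_lt h0)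
    have h2 := sz_le_of_lt_two_pow ((Nat.mod_le _ p.1.2).trans_lt h0)
    omega
  refine (dite (p := fun p : ℕ × ℕ => p.2 = 0) (f := fun p _ => (0, p.1))
    (g := fun p _ => (p.1 / p.2, p.1 % p.2)) (by fun_prop) (by fun_prop) hpos).congr fun p => ?_
  split_ifs with h <;> simp [*]

@[fun_prop] theorem div {m n : α → ℕ} (hm : Poly m) (hn : Poly n) : Poly fun a => m a / n a :=
  (divMod.comp (hm.pair hn)).fst

@[fun_prop] theorem mod {m n : α → ℕ} (hm : Poly m) (hn : Poly n) : Poly fun a => m a % n a :=
  (divMod.comp (hm.pair hn)).snd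

@[fun_prop] theorem decide_dvd {m n : α → ℕ} (hm : Poly m) (hn : Poly n)
    [inst : ∀ a, Decidable (m a ∣ n a)] : Poly fun a => decide (m a ∣ n a) :=
  (decide_eq (hn.mod hm) (const 0)).congr fun a => by simp [Nat.dvd_iff_mod_eq_zero]

/-! ### Lengths, counting, unary loops -/

@[fun_prop] theorem length {l : α → List β} (hl : Poly l) : Poly fun a => (l a).length := by
  have key : ∀ i : ℕ, (fun s : ℕ => s + 1)^[i] 0 = i := by
    intro i
    induction i with
    | zero => rfl
    | succ i ih => rw [Function.iterate_succ_apply', ih]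
  refine (iterate_len (h := fun _ s => s + 1) hl (const 0) (by fun_prop)
    (B := fun a => 4 * (l a).length + 1) (by fun_prop) fun a i hi => ?_).congr fun a => key _
  rw [key]
  exact (sz_le_self i).trans (by omega)

@[fun_prop] theorem size {n : α → ℕ} (h : Poly n) : Poly fun a => (n a).size :=
  h.bits.length.congr fun _ => Nat.size_eq_bits_len _

@[fun_prop] theorem log2 {n : α → ℕ} (h : Poly n) : Poly fun a => (n a).log2 :=
  (h.size.sub (const 1)).congr fun a => by
    rcases Nat.eq_zero_or_pos (n a) with h0 | h0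
    · simp [h0]
    · have h1 := Nat.lt_size_self (n a)
      have h2 : 0 < (n a).size := Nat.size_pos.2 h0
      have h3 : 2 ^ ((n a).size - 1) ≤ n a := Nat.lt_size.1 (by omega)
      symm
      rw [Nat.log2_eq_iff h0.ne']
      exact ⟨h3, by rwa [Nat.sub_add_cancel h2]⟩

@[fun_prop] theorem countP {l : α → List β} {f : α → β → Bool} (hl : Poly l)
    (hf : Poly fun p : α × β => f p.1 p.2) : Poly fun a => (l a).countP (f a) :=
  (hl.filter hf).length.congr fun a => by rw [List.countP_eq_length_filter]

@[fun_prop] theorem count [BEq β] [LawfulBEq β] {l : α → List β} {x : α → β} (hx : Poly x)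
    (hl : Poly l) : Poly fun a => (l a).count (x a) :=
  hl.countP (f := fun a y => y == x a) (by fun_prop)

/-- `List.range` of a polynomially bounded number. -/
@[fun_prop] theorem range {n : α → ℕ} (hn : Poly n) (hb : PB n) :
    Poly fun a => List.range (n a) := by
  let step : ℕ × List ℕ → List ℕ ⊕ (ℕ × List ℕ) := fun s =>
    if s.1 = 0 then Sum.inl s.2 else Sum.inr (s.1 - 1, (s.1 - 1) :: s.2)
  have hs : Poly step := by simp only [step]; fun_prop
  have key : ∀ N k : ℕ, k ≤ N → Runs step ((N + 1) * (4 * N + 3)) (k, List.range' k (N - k))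
      (List.range N) (k + 1) := by
    intro N k
    have hsz : ∀ k, k ≤ N → sz (k, List.range' k (N - k)) ≤ (N + 1) * (4 * N + 3) := by
      intro k hk
      have h1 := sz_list_le (l := List.range' k (N - k)) (B := 4 * N + 1) fun x hx => by
        have := (List.mem_range'_1.1 hx).2
        exact (sz_le_self x).trans (by omega)
      have h2 := sz_le_self k
      rw [List.length_range'] at h1
      have h3 : (N - k) * (4 * N + 1 + 1) ≤ N * (4 * N + 1 + 1) :=
        Nat.mul_le_mul_right _ (Nat.sub_le _ _)
      rw [sz_pair]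
      nlinarith
    induction k with
    | zero => intro h; exact .stop _ (hsz 0 h) (by simp [step, List.range_eq_range'])
    | succ k ih =>
      intro h
      refine .next (hsz _ h) (s' := (k, List.range' k (N - k))) ?_ (ih (by omega))
      have : N - k = (N - (k + 1)) + 1 := by omega
      simp [step, this, List.range'_succ]
  refine loop (ini := fun a => (n a, [])) (N := fun a => n a + 1)
    (B := fun a => (n a + 1) * (4 * n a + 3)) (by fun_prop) hs (by fun_prop) (by fun_prop)
    fun a => ?_
  simpa using key (n a) (n a) le_rfl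

/-- Iteration a polynomially bounded number of times. -/
theorem iterate {n : α → ℕ} {g : α → γ} {h : α → γ → γ} (hn : Poly n) (hb : PB n) (hg : Poly g)
    (hh : Poly fun p : α × γ => h p.1 p.2) {B : α → ℕ} (hB : PB B)
    (hs : ∀ a i, i ≤ n a → sz ((h a)^[i] (g a)) ≤ B a) : Poly fun a => (h a)^[n a] (g a) := by
  simpa using iterate_len (hn.range hb) hg hh hB fun a i hi => hs a i (by simpa using hi)

/-- Iteration in which every round enlarges the state by at most `D a`. -/
theorem iterate_add {n : α → ℕ} {g : α → γ} {h : α → γ → γ} (hn : Poly n) (hb : PB n)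
    (hg : Poly g) (hh : Poly fun p : α × γ => h p.1 p.2) (D : α → ℕ) (hD : PB D)
    (hs : ∀ a s, sz (h a s) ≤ sz s + D a) : Poly fun a => (h a)^[n a] (g a) := by
  refine iterate hn hb hg hh (hg.pb_sz.add (hb.mul hD)) fun a i hi => ?_
  have key : ∀ i, sz ((h a)^[i] (g a)) ≤ sz (g a) + i * D a := by
    intro i
    induction i with
    | zero => simp
    | succ i ih =>
      rw [Function.iterate_succ_apply']
      have := hs a ((h a)^[i] (g a))
      rw [Nat.succ_mul]; omega
  exact (key i).trans (Nat.add_le_add_left (Nat.mul_le_mul_right _ hi) _)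

/-- Primitive recursion up to a polynomially bounded number. -/
theorem natRec {n : α → ℕ} {g : α → γ} {h : α → ℕ → γ → γ} (hn : Poly n) (hb : PB n) (hg : Poly g)
    (hh : Poly fun p : α × ℕ × γ => h p.1 p.2.1 p.2.2) {B : α → ℕ} (hB : PB B)
    (hs : ∀ a i, i ≤ n a → sz (Nat.rec (motive := fun _ => γ) (g a) (h a) i) ≤ B a) :
    Poly fun a => Nat.rec (motive := fun _ => γ) (g a) (h a) (n a) := by
  have key : ∀ a i, (List.range i).foldl (fun s j => h a j s) (g a) =
      Nat.rec (motive := fun _ => γ) (g a) (h a) i := by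
    intro a i
    induction i with
    | zero => rfl
    | succ i ih => rw [List.range_succ, List.foldl_append, ih]; rfl
  refine (foldl (h := fun a s j => h a j s) (hn.range hb) hg
    (comp hh (g := fun p : α × γ × ℕ => (p.1, p.2.2, p.2.1)) (by fun_prop)) hB
    fun a l hl => ?_).congr fun a => key a _
  have h1 : l = List.range l.length := by
    have h2 := hl.length_le
    rw [List.length_range] at h2
    rw [List.prefix_iff_eq_take.1 hl, List.take_range, List.length_range, Nat.min_eq_left h2]
  rw [h1, key]
  exact hs a _ (by simpa using hl.length_le)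

@[fun_prop] theorem replicate {n : α → ℕ} {x : α → β} (hn : Poly n) (hb : PB n) (hx : Poly x) :
    Poly fun a => List.replicate (n a) (x a) :=
  ((hn.range hb).map (f := fun a _ => x a) (by fun_prop)).congr fun a => by simp

@[fun_prop] theorem pow {m n : α → ℕ} (hm : Poly m) (hn : Poly n) (hb : PB n) :
    Poly fun a => m a ^ n a := by
  have key : ∀ m i : ℕ, (fun s => s * m)^[i] 1 = m ^ i := by
    intro m i
    induction i with
    | zero => rfl
    | succ i ih => rw [Function.iterate_succ_apply', ih, pow_succ]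
  refine (iterate (h := fun a s => s * m a) hn hb (const 1) (by fun_prop)
    (B := fun a => 4 * ((m a).size * n a + 1) + 1) (by fun_prop)
    fun a i hi => ?_).congr fun a => key _ _
  rw [key]
  refine sz_le_of_lt_two_pow ?_
  calc m a ^ i ≤ (2 ^ (m a).size) ^ i := Nat.pow_le_pow_left (Nat.lt_size_self _).le _
    _ ≤ (2 ^ (m a).size) ^ n a := Nat.pow_le_pow_right (by positivity) hi
    _ < _ := by rw [← pow_mul]; exact Nat.pow_lt_pow_right (by norm_num) (by omega)

theorem sz_foldl_lt {l : List ℕ} : l.sum < 2 ^ (sz l) := by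
  induction l with
  | nil => simp
  | cons x xs ih =>
    have h1 := lt_two_pow_sz x
    have h2 : 2 ^ sz x ≤ 2 ^ (sz x + sz xs) := Nat.pow_le_pow_right (by norm_num) (by omega)
    have h3 : 2 ^ sz xs ≤ 2 ^ (sz x + sz xs) := Nat.pow_le_pow_right (by norm_num) (by omega)
    rw [List.sum_cons, sz_cons, pow_succ]; omega

theorem prod_lt_two_pow_sz {l : List ℕ} : l.prod < 2 ^ (sz l) := by
  induction l with
  | nil => simp
  | cons x xs ih =>
    have h1 := Nat.mul_lt_mul'' (lt_two_pow_sz x) ih
    rw [List.prod_cons, sz_cons, pow_succ, pow_add]; omega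

@[fun_prop] theorem natSum {l : α → List ℕ} (hl : Poly l) : Poly fun a => (l a).sum := by
  refine (foldr (h := fun _ x s => x + s) hl (const 0) (by fun_prop)
    (B := fun a => 4 * sz (l a) + 1) (by fun_prop) fun a l₁ h₁ => ?_).congr fun a => rfl
  exact sz_le_of_lt_two_pow (sz_foldl_lt.trans_le
    (Nat.pow_le_pow_right (by norm_num) (sz_le_of_sublist h₁.sublist)))

@[fun_prop] theorem natProd {l : α → List ℕ} (hl : Poly l) : Poly fun a => (l a).prod := by
  refine (foldr (h := fun _ x s => x * s) hl (const 1) (by fun_prop)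
    (B := fun a => 4 * sz (l a) + 1) (by fun_prop) fun a l₁ h₁ => ?_).congr fun a => rfl
  exact sz_le_of_lt_two_pow (prod_lt_two_pow_sz.trans_le
    (Nat.pow_le_pow_right (by norm_num) (sz_le_of_sublist h₁.sublist)))

/-! ### Indexing -/

@[fun_prop] theorem drop {n : α → ℕ} {l : α → List β} (hn : Poly n) (hl : Poly l) :
    Poly fun a => (l a).drop (n a) := by
  have key : ∀ (i : ℕ) (l : List β), List.tail^[i] l = l.drop i := by
    intro i l
    induction i with
    | zero => rfl
    | succ i ih => rw [Function.iterate_succ_apply', ih, List.tail_drop]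
  refine (iterate_add (n := fun a => min (n a) (l a).length) (h := fun _ => List.tail)
    (by fun_prop) ((PB.length hl).mono fun _ => Nat.min_le_right _ _) hl (by fun_prop)
    (fun _ => 0) (PB.const 0) fun _ s => sz_le_of_sublist (List.tail_sublist s)).congr fun a => ?_
  rw [key]
  rcases Nat.le_total (n a) (l a).length with h | h
  · rw [Nat.min_eq_left h]
  · rw [Nat.min_eq_right h, List.drop_length, List.drop_eq_nil_of_le h]

@[fun_prop] theorem take {n : α → ℕ} {l : α → List β} (hn : Poly n) (hl : Poly l) :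
    Poly fun a => (l a).take (n a) :=
  ((hl.length.sub hn).drop hl.reverse).reverse.congr fun a => by
    rw [List.reverse_drop]; simp; omega

@[fun_prop] theorem getElem? {n : α → ℕ} {l : α → List β} (hl : Poly l) (hn : Poly n) :
    Poly fun a => (l a)[n a]? :=
  (hn.drop hl).head?.congr fun a => by simp

@[fun_prop] theorem listGetD {n : α → ℕ} {l : α → List β} {d : α → β} (hl : Poly l) (hn : Poly n)
    (hd : Poly d) : Poly fun a => (l a).getD (n a) (d a) :=
  (hl.getElem? hn).getD hd

@[fun_prop] theorem set {n : α → ℕ} {l : α → List β} {x : α → β} (hl : Poly l) (hn : Poly n)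
    (hx : Poly x) : Poly fun a => (l a).set (n a) (x a) := by
  have h : Poly fun a => if n a < (l a).length then
      (l a).take (n a) ++ x a :: (l a).drop (n a + 1) else l a := by fun_prop
  exact h.congr fun a => (List.set_eq_take_append_cons_drop ..).symm

@[fun_prop] theorem zipIdx {l : α → List β} (hl : Poly l) : Poly fun a => (l a).zipIdx :=
  (hl.zip (hl.length.range (PB.length hl))).congr fun a => by
    rw [List.zipIdx_eq_zip_range', List.range_eq_range']

@[fun_prop] theorem testBit {m n : α → ℕ} (hm : Poly m) (hn : Poly n) :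
    Poly fun a => (m a).testBit (n a) :=
  (hm.bits.listGetD hn (const false)).congr fun a => by
    rw [Nat.testBit_eq_inth]; simp [List.getI]

@[fun_prop] theorem finVal {k : ℕ} {f : α → Fin k} (hf : Poly f) : Poly fun a => (f a : ℕ) :=
  hf.of_enc fun _ => rfl

@[fun_prop] theorem takeWhile {l : α → List β} {f : α → β → Bool} (hl : Poly l)
    (hf : Poly fun p : α × β => f p.1 p.2) : Poly fun a => (l a).takeWhile (f a) := by
  refine (foldr (h := fun a x s => bif f a x then x :: s else []) hl (const []) ?_
    hl.pb_sz fun a l₁ h₁ => ?_).congr fun a => ?_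
  · have : Poly fun p : α × β × List β => f p.1 p.2.1 :=
      comp hf (g := fun p : α × β × List β => (p.1, p.2.1)) (by fun_prop)
    fun_prop
  · refine le_trans ?_ (sz_le_of_sublist h₁.sublist)
    clear h₁
    induction l₁ with
    | nil => simp
    | cons x xs ih => cases h : f a x <;> simp [h] <;> omega
  · induction l a with
    | nil => rfl
    | cons x xs ih => cases h : f a x <;> simp [h, ih]

@[fun_prop] theorem dropWhile {l : α → List β} {f : α → β → Bool} (hl : Poly l)
    (hf : Poly fun p : α × β => f p.1 p.2) : Poly fun a => (l a).dropWhile (f a) :=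
  ((hl.takeWhile hf).length.drop hl).congr fun a => by
    induction l a with
    | nil => rfl
    | cons x xs ih => cases h : f a x <;> simp [h, ih]

@[fun_prop] theorem findIdx {l : α → List β} {f : α → β → Bool} (hl : Poly l)
    (hf : Poly fun p : α × β => f p.1 p.2) : Poly fun a => (l a).findIdx (f a) :=
  (hl.takeWhile (f := fun a x => !f a x) hf.not).length.congr fun a => by
    induction l a with
    | nil => rfl
    | cons x xs ih => cases h : f a x <;> simp [h, ih, List.findIdx_cons]

@[fun_prop] theorem idxOf [BEq β] [LawfulBEq β] {l : α → List β} {x : α → β} (hx : Poly x)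
    (hl : Poly l) : Poly fun a => (l a).idxOf (x a) :=
  hl.findIdx (f := fun a y => y == x a) (by fun_prop)

/-- Euclid's algorithm. -/
@[fun_prop] theorem gcd {m n : α → ℕ} (hm : Poly m) (hn : Poly n) :
    Poly fun a => Nat.gcd (m a) (n a) := by
  refine comp (f := fun p : ℕ × ℕ => Nat.gcd p.1 p.2) ?_ (hm.pair hn)
  let step : ℕ × ℕ → ℕ ⊕ (ℕ × ℕ) := fun s =>
    if s.1 = 0 then Sum.inl s.2 else Sum.inr (s.2 % s.1, s.1)
  have hs : Poly step := by simp only [step]; fun_prop
  have key : ∀ (K k x y : ℕ), x < 2 ^ k → x < 2 ^ K → y < 2 ^ K →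
      Runs step (8 * K + 3) (x, y) (Nat.gcd x y) (2 * k + 1) := by
    intro K k
    have hsz : ∀ x y : ℕ, x < 2 ^ K → y < 2 ^ K → sz (x, y) ≤ 8 * K + 3 := by
      intro x y hx hy
      have := sz_le_of_lt_two_pow hx
      have := sz_le_of_lt_two_pow hy
      rw [sz_pair]; omega
    induction k with
    | zero =>
      intro x y h hx hy
      obtain rfl : x = 0 := by omega
      exact .stop _ (hsz _ _ hx hy) (by simp [step])
    | succ k ih =>
      intro x y h hx hy
      rcases Nat.eq_zero_or_pos x with rfl | h0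
      · exact .stop _ (hsz _ _ hx hy) (by simp [step])
      have h1 := Nat.mod_lt y h0
      refine .next (hsz _ _ hx hy) (s' := (y % x, x)) (by simp [step, h0.ne']) ?_
      rw [Nat.gcd_rec x y]
      rcases Nat.eq_zero_or_pos (y % x) with h2 | h2
      · rw [h2]
        exact .stop _ (hsz _ _ (by positivity) hx) (by simp [step])
      have h3 := Nat.mod_lt x h2
      refine .next (hsz _ _ (by omega) hx) (s' := (x % (y % x), y % x)) (by simp [step, h2.ne']) ?_
      rw [Nat.gcd_rec (y % x) x]
      refine ih _ _ ?_ (by omega) (by omega)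
      have h4 := Nat.mod_add_div x (y % x)
      have h5 : 1 ≤ x / (y % x) := (Nat.one_le_div_iff h2).2 h1.le
      have h6 : y % x * 1 ≤ y % x * (x / (y % x)) := Nat.mul_le_mul_left _ h5
      rw [pow_succ] at h
      omega
  refine loop (ini := fun p => p) (N := fun p => 2 * sz p + 1) (B := fun p => 8 * sz p + 3)
    id' hs (by fun_prop) (by fun_prop) fun p => ?_
  have h1 : p.1 < 2 ^ sz p :=
    (lt_two_pow_sz _).trans_le (Nat.pow_le_pow_right (by norm_num) (sz_fst_le p))
  have h2 : p.2 < 2 ^ sz p :=
    (lt_two_pow_sz _).trans_le (Nat.pow_le_pow_right (by norm_num) (sz_snd_le p))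
  exact key _ _ _ _ h1 h1 h2

@[fun_prop] theorem lcm {m n : α → ℕ} (hm : Poly m) (hn : Poly n) :
    Poly fun a => Nat.lcm (m a) (n a) := (hm.mul hn).div (hm.gcd hn)

end Poly

end Crest.Agent.Lib.PolyTime
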