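import Crest.Agent.Lib.PolyTime.Dep

/-!
# `Poly`: sums, products, powers in `ℕ`, `ℤ`, `ℚ` (class `PArith`), binary search, modular powers
-/

namespace Crest.Agent.Lib.PolyTime

/-- Arithmetic with a submultiplicative height `ht` whose logarithm is comparable with `sz`. -/
class PArith (R : Type*) [PEnc R] [Add R] [Mul R] where
  ht : R → ℕ
  ht_add : ∀ a b, ht (a + b) ≤ ht a * ht b
  ht_mul : ∀ a b, ht (a * b) ≤ ht a * ht b
  ht_le : ∀ a, ht a ≤ 2 ^ (2 * sz a)
  sz_le : ∀ a k, ht a ≤ 2 ^ k → sz a ≤ 8 * k + 16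
  poly_add : Poly fun p : R × R => p.1 + p.2
  poly_mul : Poly fun p : R × R => p.1 * p.2

export PArith (ht ht_add ht_mul ht_le)

theorem add_two_le_pow_sz (n : ℕ) : n + 2 ≤ 2 ^ (2 * sz n) := by
  have h := lt_two_pow_sz n
  have h1 : 2 ^ 1 ≤ 2 ^ sz n := Nat.pow_le_pow_right (by norm_num) (one_le_sz n)
  rw [two_mul, pow_add]
  nlinarith

theorem sz_natAbs_le (z : ℤ) : sz z.natAbs ≤ sz z := by rw [sz_int, sz_pair]; omega

theorem sz_int_le (z : ℤ) : sz z ≤ sz z.natAbs + 4 := by
  have := sz_bool_le (decide (z < 0))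
  rw [sz_int, sz_pair]; omega

theorem sz_int_le_of_lt {z : ℤ} {k : ℕ} (h : z.natAbs < 2 ^ k) : sz z ≤ 4 * k + 5 := by
  have := sz_int_le z
  have := sz_le_of_lt_two_pow h
  omega

theorem sz_rat_le_of_lt {q : ℚ} {k : ℕ} (h₁ : q.num.natAbs < 2 ^ k) (h₂ : q.den < 2 ^ k) :
    sz q ≤ 8 * k + 7 := by
  have := sz_int_le_of_lt h₁
  have := sz_le_of_lt_two_pow h₂
  rw [sz_rat, sz_pair]; omega

instance : PArith ℕ where
  ht n := n + 2
  ht_add a b := by nlinarith
  ht_mul a b := by nlinarith
  ht_le := add_two_le_pow_sz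
  sz_le a k h := by have := sz_le_of_lt_two_pow (n := a) (k := k) (by omega); omega
  poly_add := by fun_prop
  poly_mul := by fun_prop

instance : PArith ℤ where
  ht z := z.natAbs + 2
  ht_add a b := by
    have := Int.natAbs_add_le a b
    nlinarith [Nat.zero_le (a.natAbs * b.natAbs), Nat.zero_le a.natAbs, Nat.zero_le b.natAbs]
  ht_mul a b := by
    rw [Int.natAbs_mul]
    nlinarith [Nat.zero_le (a.natAbs * b.natAbs), Nat.zero_le a.natAbs, Nat.zero_le b.natAbs]
  ht_le a := (add_two_le_pow_sz _).trans
    (Nat.pow_le_pow_right (by norm_num) (by have := sz_natAbs_le a; omega))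
  sz_le a k h := by have := sz_int_le_of_lt (z := a) (k := k) (by omega); omega
  poly_add := by fun_prop
  poly_mul := by fun_prop

theorem mkRat_ht_le (n : ℤ) {d : ℕ} (hd : d ≠ 0) :
    (mkRat n d).num.natAbs + (mkRat n d).den ≤ n.natAbs + d := by
  rw [Rat.num_mkRat, Rat.den_mkRat, if_neg hd, if_neg hd]
  exact Nat.add_le_add (Int.natAbs_ediv_le_natAbs _ _) (Nat.div_le_self _ _)

instance : PArith ℚ where
  ht q := q.num.natAbs + q.den
  ht_add a b := by
    rw [Rat.add_def']
    refine (mkRat_ht_le _ (Nat.mul_ne_zero a.den_ne_zero b.den_ne_zero)).trans ?_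
    have := Int.natAbs_add_le (a.num * b.den) (b.num * a.den)
    simp only [Int.natAbs_mul, Int.natAbs_natCast] at this
    nlinarith [Nat.zero_le (a.num.natAbs * b.num.natAbs)]
  ht_mul a b := by
    rw [Rat.mul_def']
    refine (mkRat_ht_le _ (Nat.mul_ne_zero a.den_ne_zero b.den_ne_zero)).trans ?_
    rw [Int.natAbs_mul]
    nlinarith [Nat.zero_le (a.num.natAbs * b.den), Nat.zero_le (a.den * b.num.natAbs)]
  ht_le a := by
    have h1 := lt_two_pow_sz a.num.natAbs
    have h2 := lt_two_pow_sz a.den
    have h3 := sz_natAbs_le a.num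
    have h4 : sz a = sz a.num + sz a.den + 1 := rfl
    have h5 : 2 ^ sz a.num.natAbs ≤ 2 ^ sz a := Nat.pow_le_pow_right (by norm_num) (by omega)
    have h6 : 2 ^ sz a.den ≤ 2 ^ sz a := Nat.pow_le_pow_right (by norm_num) (by omega)
    have h7 : 2 ^ 1 ≤ 2 ^ sz a := Nat.pow_le_pow_right (by norm_num) (by omega)
    rw [two_mul, pow_add]
    nlinarith
  sz_le a k h := by
    have := a.den_pos
    have := sz_rat_le_of_lt (q := a) (k := k + 1) (by rw [pow_succ]; omega)
      (by rw [pow_succ]; omega)
    omega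
  poly_add := by fun_prop
  poly_mul := by fun_prop

theorem ht_nat (n : ℕ) : ht n = n + 2 := rfl
theorem ht_int (z : ℤ) : ht z = z.natAbs + 2 := rfl
theorem ht_rat (q : ℚ) : ht q = q.num.natAbs + q.den := rfl

namespace PB
variable {α : Type*} [PEnc α]

theorem sz_of_ht {R : Type*} [PEnc R] [Add R] [Mul R] [PArith R] {f : α → R} {k : α → ℕ}
    (hk : PB k) (h : ∀ a, ht (f a) ≤ 2 ^ k a) : PB fun a => sz (f a) :=
  PB.mono (h := fun a => 8 * k a + 16) (by fun_prop) fun a => PArith.sz_le _ _ (h a)

end PB

namespace Poly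
variable {α β γ : Type*} [PEnc α] [PEnc β] [PEnc γ]

section
variable {R : Type*} [PEnc R] [Add R] [Mul R] [PArith R]

theorem arithAdd {f g : α → R} (hf : Poly f) (hg : Poly g) : Poly fun a => f a + g a :=
  PArith.poly_add.comp (hf.pair hg)

theorem arithMul {f g : α → R} (hf : Poly f) (hg : Poly g) : Poly fun a => f a * g a :=
  PArith.poly_mul.comp (hf.pair hg)

/-- A right fold in which every step multiplies the height by at most `2 ^ D a x`. -/
theorem foldr_ht {l : α → List β} {g : α → R} {h : α → β → R → R} (hl : Poly l) (hg : Poly g)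
    (hh : Poly fun p : α × β × R => h p.1 p.2.1 p.2.2) (D : α → β → ℕ)
    (hD : PB fun p : α × β => D p.1 p.2) (hb : ∀ a x s, ht (h a x s) ≤ 2 ^ D a x * ht s) :
    Poly fun a => (l a).foldr (h a) (g a) := by
  have hS := PB.sum_map hl hD
  refine foldr hl hg hh (B := fun a => 8 * (((l a).map (D a)).sum + 2 * sz (g a)) + 16)
    (by fun_prop) fun a l₁ h₁ => PArith.sz_le _ _ ?_
  have key : ∀ l₁ : List β, ht (l₁.foldr (h a) (g a)) ≤ 2 ^ ((l₁.map (D a)).sum + 2 * sz (g a)) := by
    intro l₁
    induction l₁ with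
    | nil => simpa using ht_le (g a)
    | cons x xs ih =>
      rw [List.foldr_cons, List.map_cons, List.sum_cons, add_assoc, pow_add]
      exact (hb _ _ _).trans (Nat.mul_le_mul_left _ ih)
  refine (key l₁).trans (Nat.pow_le_pow_right (by norm_num) (Nat.add_le_add_right ?_ _))
  exact (h₁.sublist.map _).sum_le_sum (by simp)

theorem foldl_ht {l : α → List β} {g : α → R} {h : α → R → β → R} (hl : Poly l) (hg : Poly g)
    (hh : Poly fun p : α × R × β => h p.1 p.2.1 p.2.2) (D : α → β → ℕ)
    (hD : PB fun p : α × β => D p.1 p.2) (hb : ∀ a s x, ht (h a s x) ≤ 2 ^ D a x * ht s) :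
    Poly fun a => (l a).foldl (h a) (g a) :=
  (foldr_ht (h := fun a x s => h a s x) hl.reverse hg
    (hh.comp (g := fun p : α × β × R => (p.1, p.2.2, p.2.1)) (by fun_prop)) D hD
    fun a x s => hb a s x).congr fun a => by simp

theorem iterate_ht {n : α → ℕ} {g : α → R} {h : α → R → R} (hn : Poly n) (hb : PB n)
    (hg : Poly g) (hh : Poly fun p : α × R => h p.1 p.2) (D : α → ℕ) (hD : PB D)
    (hs : ∀ a s, ht (h a s) ≤ 2 ^ D a * ht s) : Poly fun a => (h a)^[n a] (g a) :=
  (foldl_ht (h := fun a s (_ : ℕ) => h a s) (hn.range hb) hg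
    (hh.comp (g := fun p : α × R × ℕ => (p.1, p.2.1)) (by fun_prop)) (fun a _ => D a)
    (by fun_prop) fun a s _ => hs a s).congr fun a => by
      rw [List.foldl_const, List.length_range]

@[fun_prop] theorem listSum [Zero R] {l : α → List R} (hl : Poly l) : Poly fun a => (l a).sum :=
  foldr_ht (h := fun _ x s => x + s) hl (const 0) (arithAdd (by fun_prop) (by fun_prop))
    (fun _ x => 2 * sz x) (by fun_prop)
    fun _ x s => (ht_add x s).trans (Nat.mul_le_mul_right _ (ht_le x))

@[fun_prop] theorem listProd [One R] {l : α → List R} (hl : Poly l) : Poly fun a => (l a).prod :=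
  foldr_ht (h := fun _ x s => x * s) hl (const 1) (arithMul (by fun_prop) (by fun_prop))
    (fun _ x => 2 * sz x) (by fun_prop)
    fun _ x s => (ht_mul x s).trans (Nat.mul_le_mul_right _ (ht_le x))

/-- Horner evaluation of a coefficient list (constant term first). -/
theorem horner [Zero R] {l : α → List R} {x : α → R} (hl : Poly l) (hx : Poly x) :
    Poly fun a => (l a).foldr (fun c s => c + x a * s) 0 :=
  foldr_ht (h := fun a c s => c + x a * s) hl (const 0)
    (arithAdd (by fun_prop) (arithMul (by fun_prop) (by fun_prop)))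
    (fun a c => 2 * sz c + 2 * sz (x a)) (by fun_prop) fun a c s => by
      refine (ht_add _ _).trans ?_
      rw [pow_add, mul_assoc]
      exact Nat.mul_le_mul (ht_le c) ((ht_mul _ _).trans (Nat.mul_le_mul_right _ (ht_le _)))

end

section
variable {R : Type*} [PEnc R]

@[fun_prop] theorem monoidPow [Monoid R] [Add R] [PArith R] {x : α → R} {n : α → ℕ} (hx : Poly x)
    (hn : Poly n) (hb : PB n) : Poly fun a => x a ^ n a :=
  (replicate hn hb hx).listProd.congr fun _ => List.prod_replicate ..

@[fun_prop] theorem sum_fin [AddCommMonoid R] [Mul R] [PArith R] {n : α → ℕ}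
    {f : ∀ a, Fin (n a) → R} (hn : Poly n) (hb : PB n)
    (hf : Poly fun p : Σ a, Fin (n a) => f p.1 p.2) : Poly fun a => ∑ i, f a i :=
  (ofFn hn hb hf).listSum.congr fun _ => List.sum_ofFn

@[fun_prop] theorem prod_fin [CommMonoid R] [Add R] [PArith R] {n : α → ℕ}
    {f : ∀ a, Fin (n a) → R} (hn : Poly n) (hb : PB n)
    (hf : Poly fun p : Σ a, Fin (n a) => f p.1 p.2) : Poly fun a => ∏ i, f a i :=
  (ofFn hn hb hf).listProd.congr fun _ => List.prod_ofFn

@[fun_prop] theorem sum_range [AddCommMonoid R] [Mul R] [PArith R] {n : α → ℕ}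
    {f : α → ℕ → R} (hn : Poly n) (hb : PB n) (hf : Poly fun p : α × Un => f p.1 p.2.n) :
    Poly fun a => ∑ i ∈ Finset.range (n a), f a i :=
  (map_range hn hb hf).listSum.congr fun _ => by
    rw [← ofFn_eq_map_range, List.sum_ofFn, Finset.sum_range]

@[fun_prop] theorem prod_range [CommMonoid R] [Add R] [PArith R] {n : α → ℕ}
    {f : α → ℕ → R} (hn : Poly n) (hb : PB n) (hf : Poly fun p : α × Un => f p.1 p.2.n) :
    Poly fun a => ∏ i ∈ Finset.range (n a), f a i :=
  (map_range hn hb hf).listProd.congr fun _ => by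
    rw [← ofFn_eq_map_range, List.prod_ofFn, Finset.prod_range]

end

@[fun_prop] theorem card_filter_fin {n : α → ℕ} {p : ∀ a, Fin (n a) → Prop}
    [∀ a, DecidablePred (p a)] (hn : Poly n) (hb : PB n)
    (hp : Poly fun x : Σ a, Fin (n a) => decide (p x.1 x.2)) :
    Poly fun a => (Finset.univ.filter (p a)).card :=
  (sum_fin (f := fun a i => if p a i then 1 else 0) hn hb
    (ite hp (const 1) (const 0))).congr fun a => by rw [Finset.card_filter]

@[fun_prop] theorem ratZPow {x : α → ℚ} {z : α → ℤ} (hx : Poly x) (hz : Poly z)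
    (hb : PB fun a => (z a).natAbs) : Poly fun a => x a ^ z a := by
  have h := monoidPow hx hz.natAbs hb
  refine (ite hz.intNeg? h.ratInv h).congr fun a => ?_
  split_ifs with h
  · rw [← zpow_natCast, ← zpow_neg]; congr 1; omega
  · rw [← zpow_natCast]; congr 1; omega

@[fun_prop] theorem factorial {n : α → ℕ} (hn : Poly n) (hb : PB n) :
    Poly fun a => (n a).factorial :=
  (prod_range (f := fun _ i => i + 1) hn hb (by fun_prop)).congr fun _ =>
    Finset.prod_range_add_one_eq_factorial _

@[fun_prop] theorem descFactorial {n k : α → ℕ} (hn : Poly n) (hk : Poly k) (hb : PB k) :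
    Poly fun a => (n a).descFactorial (k a) :=
  (prod_range (f := fun a i => n a - i) hk hb (by fun_prop)).congr fun _ =>
    (Nat.descFactorial_eq_prod_range _ _).symm

@[fun_prop] theorem choose {n k : α → ℕ} (hn : Poly n) (hk : Poly k) (hb : PB k) :
    Poly fun a => (n a).choose (k a) :=
  ((hn.descFactorial hk hb).div (hk.factorial hb)).congr fun _ =>
    (Nat.choose_eq_descFactorial_div_factorial _ _).symm

/-! ### Clocks -/

theorem serV : Poly V.ser := by
  let step : List V × List Bool → List Bool ⊕ (List V × List Bool) := fun s =>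
    List.casesOn s.1 (Sum.inl s.2.reverse) fun v r =>
      if v = V.nil then Sum.inr (r, false :: s.2) else Sum.inr (v.left :: v.right :: r, true :: s.2)
  have hs : Poly step := listCasesOn (by fun_prop) (by fun_prop) (by fun_prop)
  have key : ∀ (M k : ℕ) (st : List V) (out : List Bool), (st.map V.size).sum = k →
      k + out.length ≤ M → Runs step (6 * M + 3) (st, out) (out.reverse ++ st.flatMap V.ser)
        (k + 1) := by
    intro M k
    have hsz : ∀ (st : List V) (out : List Bool), (st.map V.size).sum + out.length ≤ M →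
        sz (st, out) ≤ 6 * M + 3 := by
      intro st out h
      have h1 := sz_listBool_le out
      have h2 : sz st ≤ 2 * (st.map V.size).sum + 1 := by
        clear h
        induction st with
        | nil => simp
        | cons v r ih => have := v.size_pos; simp; omega
      rw [sz_pair]; omega
    induction k with
    | zero =>
      intro st out h1 h2
      cases st with
      | nil => exact .stop _ (hsz _ _ (by omega)) (by simp [step])
      | cons v r => have := v.size_pos; simp at h1; omega
    | succ k ih =>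
      intro st out h1 h2
      cases st with
      | nil => simp at h1
      | cons v r =>
        cases v with
        | nil =>
          refine .next (hsz _ _ (by omega)) (s' := (r, false :: out)) (by simp [step]) ?_
          simpa using ih r (false :: out) (by simp at h1; omega) (by simp; omega)
        | node x y =>
          refine .next (hsz _ _ (by omega)) (s' := (x :: y :: r, true :: out)) (by simp [step]) ?_
          simpa using ih (x :: y :: r) (true :: out) (by simp at h1 ⊢; omega) (by simp; omega)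
  refine loop (ini := fun v => ([v], [])) (N := fun v => sz v + 1) (B := fun v => 6 * sz v + 3)
    (by fun_prop) hs (by fun_prop) (by fun_prop) fun v => ?_
  simpa using key v.size v.size [v] [] (by simp) (by simp)

@[fun_prop] theorem ser {f : α → V} (hf : Poly f) : Poly fun a => (f a).ser := serV.comp hf

@[fun_prop] theorem sz' {f : α → β} (hf : Poly f) : Poly fun a => sz (f a) :=
  hf.enc'.ser.length.congr fun _ => by simp

@[fun_prop] theorem polyEval {n : α → ℕ} (hn : Poly n) (q : Polynomial ℕ) :
    Poly fun a => q.eval (n a) := by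
  induction q using Polynomial.induction_on' with
  | add p q hp hq => simpa using hp.add hq
  | monomial k c => simpa using (const c).mul (hn.pow (const k) (PB.const k))

end Poly

/-- Every polynomially bounded quantity has a computable polynomial upper bound (a clock). -/
theorem PB.exists_clock {α : Type*} [PEnc α] {g : α → ℕ} (hg : PB g) :
    ∃ K : α → ℕ, Poly K ∧ PB K ∧ ∀ a, g a ≤ K a := by
  obtain ⟨q, hq⟩ := hg
  exact ⟨fun a => q.eval (sz a), Poly.id'.sz'.polyEval q, PB.sz_id.eval q, hq⟩

namespace Poly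
variable {α β γ : Type*} [PEnc α] [PEnc β] [PEnc γ]

/-! ### Searching -/

/-- Binary search: a number of polynomial bit length is computable once it can be compared with
any number. -/
theorem of_le_test {N : α → ℕ} (hs : PB fun a => (N a).size)
    (ht : Poly fun p : α × ℕ => decide (p.2 ≤ N p.1)) : Poly N := by
  obtain ⟨K, hK, hb, hle⟩ := hs.exists_clock
  have key : ∀ a i, i < K a → N a / 2 ^ (K a - (i + 1)) * 2 ^ (K a - (i + 1)) =
      if N a / 2 ^ (K a - i) * 2 ^ (K a - i) + 2 ^ (K a - (i + 1)) ≤ N a then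
        N a / 2 ^ (K a - i) * 2 ^ (K a - i) + 2 ^ (K a - (i + 1))
      else N a / 2 ^ (K a - i) * 2 ^ (K a - i) := by
    intro a i hi
    have e : K a - i = (K a - (i + 1)) + 1 := by omega
    rw [e, pow_succ, ← Nat.div_div_eq_div_mul]
    have hP : 0 < 2 ^ (K a - (i + 1)) := by positivity
    generalize 2 ^ (K a - (i + 1)) = P at *
    have h1 := Nat.div_add_mod (N a) P
    have h2 := Nat.mod_lt (N a) hP
    have h3 := Nat.div_add_mod (N a / P) 2
    generalize N a / P = q at *
    have h4 : q / 2 * (P * 2) = P * (2 * (q / 2)) := by ring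
    have h5 : P * q = P * (2 * (q / 2)) + P * (q % 2) := by rw [← Nat.mul_add, h3]
    rw [h4, mul_comm q P]
    rcases Nat.mod_two_eq_zero_or_one q with h | h <;> rw [h] at h5 <;> split_ifs <;> omega
  refine (natRec' (f := fun a i => N a / 2 ^ (K a - i) * 2 ^ (K a - i)) (g := fun _ => 0)
    (h := fun a i r => if r + 2 ^ (K a - (i + 1)) ≤ N a then r + 2 ^ (K a - (i + 1)) else r)
    hK hb (const 0) ?_ (fun a => ?_) key (B := fun a => 4 * K a + 1) (by fun_prop)
    fun a i _ => ?_).congr fun a => by simp
  · have h1 : Poly fun p : α × Un × ℕ => p.2.2 + 2 ^ (K p.1 - (p.2.1.n + 1)) := by fun_prop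
    exact ite (ht.comp (id'.fst.pair h1)) h1 (by fun_prop)
  · have := (Nat.lt_size_self (N a)).trans_le (Nat.pow_le_pow_right (by norm_num) (hle a))
    simp [Nat.div_eq_of_lt this]
  · exact sz_le_of_lt_two_pow ((Nat.div_mul_le_self _ _).trans_lt
      ((Nat.lt_size_self (N a)).trans_le (Nat.pow_le_pow_right (by norm_num) (hle a))))

/-- Linear search: the least witness, when it is polynomially bounded. -/
theorem natFind {p : α → ℕ → Prop} [∀ a, DecidablePred (p a)] (H : ∀ a, ∃ n, p a n)
    (hp : Poly fun x : α × Un => decide (p x.1 x.2.n)) (hb : PB fun a => Nat.find (H a)) :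
    Poly fun a => Nat.find (H a) := by
  obtain ⟨K, hK, hKb, hle⟩ := hb.exists_clock
  refine ((map_range (f := fun a i => decide (p a i)) (hK.add (const 1))
    (hKb.add (PB.const 1)) hp).findIdx (f := fun _ b => b) (snd id')).congr fun a => ?_
  have := hle a
  rw [List.findIdx_eq (by rw [List.length_map, List.length_range]; omega)]
  simp only [List.getElem_map, List.getElem_range, decide_eq_true_eq, decide_eq_false_iff_not]
  exact ⟨Nat.find_spec (H a), fun j hj => Nat.find_min (H a) hj⟩

@[fun_prop] theorem sqrt {n : α → ℕ} (hn : Poly n) : Poly fun a => (n a).sqrt :=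
  of_le_test ((PB.size hn).mono fun _ => Nat.size_le_size (Nat.sqrt_le_self _))
    (decide_congr (p := fun p : α × ℕ => p.2 * p.2 ≤ n p.1) (by fun_prop) fun _ => Nat.le_sqrt.symm)

@[fun_prop] theorem log {b n : α → ℕ} (hb : Poly b) (hn : Poly n) :
    Poly fun a => Nat.log (b a) (n a) := by
  refine of_le_test ((PB.size hn).mono fun _ => Nat.size_le_size (Nat.log_le_self _ _))
    (decide_congr (p := fun p : α × ℕ => p.2 = 0 ∨ (1 < b p.1 ∧ p.2 ≤ (n p.1).size ∧
      b p.1 ^ (min p.2 (n p.1).size) ≤ n p.1)) (by fun_prop) fun p => ?_)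
  obtain ⟨a, x⟩ := p
  simp only
  rcases Nat.eq_zero_or_pos x with rfl | hx
  · simp
  by_cases h1 : 1 < b a
  · rcases Nat.eq_zero_or_pos (n a) with h0 | h0
    · simp [h0, hx.ne']
    rw [Nat.le_log_iff_pow_le h1 h0.ne']
    constructor
    · rintro (h | ⟨-, h2, h3⟩)
      · omega
      · rwa [Nat.min_eq_left h2] at h3
    · intro h
      have : x ≤ (n a).size := (Nat.lt_size.2 ((Nat.pow_le_pow_left h1 x).trans h)).le
      exact Or.inr ⟨h1, this, by rwa [Nat.min_eq_left this]⟩
  · simp [Nat.log_of_left_le_one (not_lt.1 h1), h1]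

theorem clog_le_size (b n : ℕ) : Nat.clog b n ≤ n.size := by
  by_cases h1 : 1 < b
  · exact (Nat.clog_le_iff_le_pow h1).2
      ((Nat.lt_size_self n).le.trans (Nat.pow_le_pow_left h1 _))
  · simp [Nat.clog_of_left_le_one (not_lt.1 h1)]

@[fun_prop] theorem _root_.Crest.Agent.Lib.PolyTime.PB.clog {n : α → ℕ} (b : α → ℕ)
    (hn : Poly n) : PB fun a => Nat.clog (b a) (n a) := (PB.size hn).mono fun _ => clog_le_size _ _

@[fun_prop] theorem clog {b n : α → ℕ} (hb : Poly b) (hn : Poly n) :
    Poly fun a => Nat.clog (b a) (n a) := by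
  have H : ∀ a, ∃ k, b a ≤ 1 ∨ n a ≤ b a ^ k := fun a => by
    by_cases h : 1 < b a
    · exact ⟨_, Or.inr (Nat.le_pow_clog h _)⟩
    · exact ⟨0, Or.inl (not_lt.1 h)⟩
  have e : ∀ a, Nat.find (H a) = Nat.clog (b a) (n a) := fun a => by
    by_cases h : 1 < b a
    · rw [Nat.find_eq_iff]
      refine ⟨Or.inr (Nat.le_pow_clog h _), fun k hk => ?_⟩
      rintro (h' | h')
      · omega
      · have := (Nat.clog_le_iff_le_pow h).2 h'
        omega
    · rw [Nat.clog_of_left_le_one (not_lt.1 h), Nat.find_eq_zero]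
      exact Or.inl (not_lt.1 h)
  exact (natFind H (by fun_prop) ((PB.clog b hn).mono fun a => (e a).le)).congr e

/-- Modular exponentiation with a binary exponent. -/
theorem powMod {m n p : α → ℕ} (hm : Poly m) (hn : Poly n) (hp : Poly p) (h0 : ∀ a, 0 < p a) :
    Poly fun a => m a ^ n a % p a := by
  have key : ∀ (m p : ℕ) (l : List Bool),
      l.foldr (fun b s => (s * s * bif b then m else 1) % p) (1 % p) =
        m ^ PolyTime.ofBits l % p := by
    intro m p l
    induction l with
    | nil => simp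
    | cons b l ih =>
      rw [List.foldr_cons, ih, ofBits_cons, Nat.bit_val, pow_add, two_mul, pow_add]
      cases b <;> simp [Nat.mul_mod]
  refine (foldr (h := fun a b s => (s * s * bif b then m a else 1) % p a) hn.bits
    (g := fun a => 1 % p a) (by fun_prop) (by fun_prop) (B := fun a => 4 * sz (p a)) (by fun_prop)
    fun a l _ => ?_).congr fun a => by rw [key, ofBits_bits]
  rw [key]
  exact sz_le_of_le (Nat.mod_lt _ (h0 a)).le

/-- Primality of a polynomially bounded (unary) number. -/
theorem decide_prime_of_pb {n : α → ℕ} (hn : Poly n) (hb : PB n)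
    [inst : ∀ a, Decidable (n a).Prime] : Poly fun a => decide (n a).Prime :=
  decide_congr (p := fun a => 2 ≤ n a ∧ ¬ ∃ m < n a, m ∣ n a ∧ m ≠ 1) (by fun_prop) fun a => by
    rw [Nat.prime_def_lt]; simp

end Poly

end Crest.Agent.Lib.PolyTime
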