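import Crest.Agent.Lib.PolyTime.Code

/-!
# `Poly f`: polynomial-time functions between encoded types

* `PEnc α`  : an injective code `enc : α → V`; `sz a` is the size of the code.
* `PB g`    : `g : α → ℕ` is bounded by a polynomial in `sz a` (no computability claimed).
* `Cmp f T` : `f` is computed by some `Code` at cost at most `T a` on input `a`.
* `Poly f`  : `Cmp f T` for some `PB T`.  This is a `fun_prop` predicate.
-/

namespace Crest.Agent.Lib.PolyTime

/-- An injective encoding into binary trees. -/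
class PEnc (α : Type*) where
  enc : α → V
  inj : Function.Injective enc

export PEnc (enc)

/-- Size of the code. -/
def sz {α : Type*} [PEnc α] (a : α) : ℕ := (enc a).size

theorem enc_inj {α : Type*} [PEnc α] {a b : α} : enc a = enc b ↔ a = b := PEnc.inj.eq_iff

/-- Transport an encoding along an injection. -/
@[reducible] def PEnc.ofInj {α β : Type*} [PEnc β] (f : α → β) (hf : Function.Injective f) :
    PEnc α := ⟨fun a => enc (f a), PEnc.inj.comp hf⟩

instance : PEnc V := ⟨id, Function.injective_id⟩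

instance : PEnc Unit := ⟨fun _ => .nil, fun _ _ _ => rfl⟩

instance : PEnc Bool :=
  ⟨fun b => cond b (.node .nil .nil) .nil, by intro a b; cases a <;> cases b <;> simp⟩

instance {α β : Type*} [PEnc α] [PEnc β] : PEnc (α × β) :=
  ⟨fun p => .node (enc p.1) (enc p.2), by
    rintro ⟨a, b⟩ ⟨c, d⟩ h
    simp only [V.node.injEq, enc_inj] at h
    exact Prod.ext h.1 h.2⟩

/-- Code of a list. -/
def encList {α : Type*} [PEnc α] : List α → V
  | [] => .nil
  | x :: xs => .node (enc x) (encList xs)

theorem encList_inj {α : Type*} [PEnc α] : Function.Injective (encList : List α → V) := by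
  intro l
  induction l with
  | nil => intro l' h; cases l' <;> simp_all [encList]
  | cons x xs ih =>
    intro l' h
    cases l' with
    | nil => simp [encList] at h
    | cons y ys =>
      simp only [encList, V.node.injEq, enc_inj] at h
      rw [h.1, ih h.2]

instance {α : Type*} [PEnc α] : PEnc (List α) := ⟨encList, encList_inj⟩

instance {α : Type*} [PEnc α] : PEnc (Option α) :=
  ⟨fun o => match o with
    | none => .nil
    | some x => .node (enc x) .nil, by
    intro a b; cases a <;> cases b <;> simp [enc_inj]⟩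

instance {α β : Type*} [PEnc α] [PEnc β] : PEnc (α ⊕ β) :=
  ⟨fun s => match s with
    | .inl x => .node .nil (enc x)
    | .inr y => .node (.node .nil .nil) (enc y), by
    intro a b; cases a <;> cases b <;> simp [enc_inj]⟩

theorem bits_injective : Function.Injective Nat.bits := by
  intro m n h
  have key : ∀ k : ℕ, k.bits.foldr Nat.bit 0 = k := by
    intro k
    induction k using Nat.binaryRec' with
    | zero => simp
    | bit b n h ih => rw [Nat.bits_append_bit n b h]; simp [ih]
  rw [← key m, h, key n]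

/-- Natural numbers are written in binary. -/
instance : PEnc ℕ := PEnc.ofInj Nat.bits bits_injective

instance : PEnc ℤ := PEnc.ofInj (fun z : ℤ => (decide (z < 0), z.natAbs)) (by
  intro a b h
  simp only [Prod.mk.injEq, decide_eq_decide] at h
  omega)

instance : PEnc ℚ := PEnc.ofInj (fun q : ℚ => (q.num, q.den)) (by
  intro a b h
  simp only [Prod.mk.injEq] at h
  exact Rat.ext h.1 h.2)

instance {n : ℕ} : PEnc (Fin n) := PEnc.ofInj (fun i : Fin n => (i : ℕ)) Fin.val_injective

instance {α : Type*} [PEnc α] {p : α → Prop} : PEnc (Subtype p) :=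
  PEnc.ofInj Subtype.val Subtype.val_injective

section encs
variable {α β : Type*} [PEnc α] [PEnc β]

@[simp] theorem enc_V (v : V) : enc v = v := rfl
@[simp] theorem enc_unit (u : Unit) : enc u = V.nil := rfl
@[simp] theorem enc_true : enc true = V.node .nil .nil := rfl
@[simp] theorem enc_false : enc false = V.nil := rfl
@[simp] theorem enc_pair (a : α) (b : β) : enc (a, b) = V.node (enc a) (enc b) := rfl
theorem enc_prod (p : α × β) : enc p = V.node (enc p.1) (enc p.2) := rfl
@[simp] theorem enc_nil : enc ([] : List α) = V.nil := rfl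
@[simp] theorem enc_cons (x : α) (xs : List α) : enc (x :: xs) = V.node (enc x) (enc xs) := rfl
@[simp] theorem enc_none : enc (none : Option α) = V.nil := rfl
@[simp] theorem enc_some (x : α) : enc (some x) = V.node (enc x) .nil := rfl
@[simp] theorem enc_inl (x : α) : enc (Sum.inl x : α ⊕ β) = V.node .nil (enc x) := rfl
@[simp] theorem enc_inr (y : β) :
    enc (Sum.inr y : α ⊕ β) = V.node (.node .nil .nil) (enc y) := rfl
theorem enc_nat (n : ℕ) : enc n = enc n.bits := rfl
theorem enc_int (z : ℤ) : enc z = enc (decide (z < 0), z.natAbs) := rfl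
theorem enc_rat (q : ℚ) : enc q = enc (q.num, q.den) := rfl
theorem enc_fin {n : ℕ} (i : Fin n) : enc i = enc (i : ℕ) := rfl
@[simp] theorem enc_subtype {p : α → Prop} (x : Subtype p) : enc x = enc x.1 := rfl

theorem sz_pos (a : α) : 0 < sz a := V.size_pos _
theorem one_le_sz (a : α) : 1 ≤ sz a := V.size_pos _
@[simp] theorem sz_V (v : V) : sz v = v.size := rfl
@[simp] theorem size_enc (a : α) : (enc a).size = sz a := rfl
@[simp] theorem sz_unit (u : Unit) : sz u = 1 := rfl
@[simp] theorem sz_true : sz true = 3 := rfl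
@[simp] theorem sz_false : sz false = 1 := rfl
theorem sz_bool_le (b : Bool) : sz b ≤ 3 := by cases b <;> simp
@[simp] theorem sz_pair (a : α) (b : β) : sz (a, b) = sz a + sz b + 1 := rfl
theorem sz_prod (p : α × β) : sz p = sz p.1 + sz p.2 + 1 := rfl
@[simp] theorem sz_nil : sz ([] : List α) = 1 := rfl
@[simp] theorem sz_cons (x : α) (xs : List α) : sz (x :: xs) = sz x + sz xs + 1 := rfl
@[simp] theorem sz_none : sz (none : Option α) = 1 := rfl
@[simp] theorem sz_some (x : α) : sz (some x) = sz x + 2 := rfl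
@[simp] theorem sz_inl (x : α) : sz (Sum.inl x : α ⊕ β) = sz x + 2 := by
  change 1 + sz x + 1 = _; omega
@[simp] theorem sz_inr (y : β) : sz (Sum.inr y : α ⊕ β) = sz y + 4 := by
  change 3 + sz y + 1 = _; omega
theorem sz_nat (n : ℕ) : sz n = sz n.bits := rfl
theorem sz_int (z : ℤ) : sz z = sz (decide (z < 0), z.natAbs) := rfl
theorem sz_rat (q : ℚ) : sz q = sz (q.num, q.den) := rfl
theorem sz_fin {n : ℕ} (i : Fin n) : sz i = sz (i : ℕ) := rfl
@[simp] theorem sz_subtype {p : α → Prop} (x : Subtype p) : sz x = sz x.1 := rfl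

theorem sz_fst_le (p : α × β) : sz p.1 ≤ sz p := by rw [sz_prod]; omega
theorem sz_snd_le (p : α × β) : sz p.2 ≤ sz p := by rw [sz_prod]; omega

theorem sz_list (l : List α) : sz l = (l.map fun x => sz x + 1).sum + 1 := by
  induction l with
  | nil => rfl
  | cons x xs ih => simp [ih]; omega

theorem length_lt_sz (l : List α) : l.length < sz l := by
  induction l with
  | nil => simp
  | cons x xs ih => simp; omega

theorem length_le_sz (l : List α) : l.length ≤ sz l := (length_lt_sz l).le

theorem sz_le_of_mem {l : List α} {x : α} (h : x ∈ l) : sz x ≤ sz l := by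
  induction l with
  | nil => simp at h
  | cons y ys ih =>
    rcases List.mem_cons.1 h with rfl | h
    · simp; omega
    · have := ih h; simp; omega

@[simp] theorem sz_append (l₁ l₂ : List α) : sz (l₁ ++ l₂) + 1 = sz l₁ + sz l₂ := by
  induction l₁ with
  | nil => simp [Nat.add_comm]
  | cons x xs ih => simp; omega

@[simp] theorem sz_reverse (l : List α) : sz l.reverse = sz l := by
  simp [sz_list, List.sum_reverse]

theorem sz_le_of_sublist {l₁ l₂ : List α} (h : l₁.Sublist l₂) : sz l₁ ≤ sz l₂ := by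
  induction h with
  | slnil => exact le_rfl
  | cons a _ ih => simp; omega
  | cons_cons a _ ih => simp; omega

theorem sz_list_le {l : List α} {B : ℕ} (h : ∀ x ∈ l, sz x ≤ B) :
    sz l ≤ l.length * (B + 1) + 1 := by
  induction l with
  | nil => simp
  | cons x xs ih =>
    have h1 := h x (by simp)
    have h2 := ih fun y hy => h y (by simp [hy])
    simp [Nat.succ_mul]; omega

theorem sz_listBool_le (l : List Bool) : sz l ≤ 4 * l.length + 1 := by
  have := sz_list_le (l := l) (B := 3) fun x _ => sz_bool_le x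
  omega

end encs

/-! ### Polynomially bounded quantities -/

/-- `g` is bounded by a polynomial in the size of its argument. -/
@[fun_prop]
def PB {α : Type*} [PEnc α] (g : α → ℕ) : Prop :=
  ∃ p : Polynomial ℕ, ∀ a, g a ≤ p.eval (sz a)

theorem eval_mono (p : Polynomial ℕ) {m n : ℕ} (h : m ≤ n) : p.eval m ≤ p.eval n := by
  induction p using Polynomial.induction_on' with
  | add p q hp hq => simp only [Polynomial.eval_add]; omega
  | monomial k c =>
    simp only [Polynomial.eval_monomial]
    exact Nat.mul_le_mul_left _ (Nat.pow_le_pow_left h _)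

namespace PB
variable {α β : Type*} [PEnc α] [PEnc β]

theorem mono {g h : α → ℕ} (hh : PB h) (le : ∀ a, g a ≤ h a) : PB g := by
  obtain ⟨p, hp⟩ := hh
  exact ⟨p, fun a => (le a).trans (hp a)⟩

@[fun_prop] theorem const (c : ℕ) : PB fun _ : α => c := ⟨Polynomial.C c, by simp⟩

theorem sz_id : PB fun a : α => sz a := ⟨Polynomial.X, by simp⟩

@[fun_prop] theorem add {g h : α → ℕ} (hg : PB g) (hh : PB h) : PB fun a => g a + h a := by
  obtain ⟨p, hp⟩ := hg
  obtain ⟨q, hq⟩ := hh
  exact ⟨p + q, fun a => by simpa using Nat.add_le_add (hp a) (hq a)⟩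

@[fun_prop] theorem mul {g h : α → ℕ} (hg : PB g) (hh : PB h) : PB fun a => g a * h a := by
  obtain ⟨p, hp⟩ := hg
  obtain ⟨q, hq⟩ := hh
  exact ⟨p * q, fun a => by simpa using Nat.mul_le_mul (hp a) (hq a)⟩

@[fun_prop] theorem pow {g : α → ℕ} (hg : PB g) (k : ℕ) : PB fun a => g a ^ k := by
  obtain ⟨p, hp⟩ := hg
  exact ⟨p ^ k, fun a => by simpa using Nat.pow_le_pow_left (hp a) k⟩

@[fun_prop] theorem succ {g : α → ℕ} (hg : PB g) : PB fun a => (g a).succ := hg.add (const 1)

@[fun_prop] theorem sub {g : α → ℕ} (hg : PB g) (h : α → ℕ) : PB fun a => g a - h a :=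
  hg.mono fun _ => Nat.sub_le _ _

@[fun_prop] theorem div {g : α → ℕ} (hg : PB g) (h : α → ℕ) : PB fun a => g a / h a :=
  hg.mono fun _ => Nat.div_le_self _ _

@[fun_prop] theorem max {g h : α → ℕ} (hg : PB g) (hh : PB h) : PB fun a => max (g a) (h a) :=
  (hg.add hh).mono fun _ => by omega

@[fun_prop] theorem eval {g : α → ℕ} (hg : PB g) (q : Polynomial ℕ) :
    PB fun a => q.eval (g a) := by
  obtain ⟨p, hp⟩ := hg
  exact ⟨q.comp p, fun a => by simpa using eval_mono q (hp a)⟩

/-- Precomposition with a map whose output size is polynomially bounded. -/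
theorem comp' {g : β → ℕ} {f : α → β} (hg : PB g) (hf : PB fun a => sz (f a)) :
    PB fun a => g (f a) := by
  obtain ⟨q, hq⟩ := hg
  exact (hf.eval q).mono fun a => hq _

end PB

/-! ### Computable within a cost bound -/

/-- `f` is computed by one program at cost at most `T a` on the code of `a`. -/
def Cmp {α β : Type*} [PEnc α] [PEnc β] (f : α → β) (T : α → ℕ) : Prop :=
  ∃ c : Code, ∀ a, ∃ n, n ≤ T a ∧ Ev c (enc a) (enc (f a)) n

/-- Polynomial-time computable. -/
@[fun_prop]
def Poly {α β : Type*} [PEnc α] [PEnc β] (f : α → β) : Prop :=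
  ∃ T : α → ℕ, PB T ∧ Cmp f T

/-- `Runs step B s b N`: iterating `step` from `s` stops with `b` after at most `N` calls, and
every state on which `step` is called has size at most `B`. -/
inductive Runs {σ β : Type*} [PEnc σ] (step : σ → β ⊕ σ) (B : ℕ) : σ → β → ℕ → Prop
  | stop {s : σ} {b : β} (N : ℕ) : sz s ≤ B → step s = .inl b → Runs step B s b (N + 1)
  | next {s s' : σ} {b : β} {N : ℕ} : sz s ≤ B → step s = .inr s' → Runs step B s' b N →
      Runs step B s b (N + 1)

theorem Runs.mono {σ β : Type*} [PEnc σ] {step : σ → β ⊕ σ} {B B' : ℕ} {s : σ} {b : β}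
    {N N' : ℕ} (h : Runs step B s b N) (hB : B ≤ B') (hN : N ≤ N') : Runs step B' s b N' := by
  induction h generalizing N' with
  | stop N h₁ h₂ =>
    obtain ⟨M, rfl⟩ : ∃ M, N' = M + 1 := ⟨N' - 1, by omega⟩
    exact .stop M (h₁.trans hB) h₂
  | next h₁ h₂ _ ih =>
    obtain ⟨M, rfl⟩ : ∃ M, N' = M + 1 := ⟨N' - 1, by omega⟩
    exact .next (h₁.trans hB) h₂ (ih (by omega))

namespace Cmp
variable {α β γ δ σ : Type*} [PEnc α] [PEnc β] [PEnc γ] [PEnc δ] [PEnc σ]

theorem mono {f : α → β} {T T' : α → ℕ} (h : Cmp f T) (le : ∀ a, T a ≤ T' a) : Cmp f T' := by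
  obtain ⟨c, hc⟩ := h
  refine ⟨c, fun a => ?_⟩
  obtain ⟨n, hn, he⟩ := hc a
  exact ⟨n, hn.trans (le a), he⟩

theorem sz_le {f : α → β} {T : α → ℕ} (h : Cmp f T) (a : α) : sz (f a) ≤ T a := by
  obtain ⟨c, hc⟩ := h
  obtain ⟨n, hn, he⟩ := hc a
  exact he.size_out.trans hn

theorem sz_in_le {f : α → β} {T : α → ℕ} (h : Cmp f T) (a : α) : sz a ≤ T a := by
  obtain ⟨c, hc⟩ := h
  obtain ⟨n, hn, he⟩ := hc a
  exact he.size_in.trans hn

/-- Change both types without changing the codes. -/
theorem of_enc {f : α → β} {g : γ → δ} {T : γ → ℕ} (hg : Cmp g T) (φ : α → γ)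
    (h₁ : ∀ a, enc (φ a) = enc a) (h₂ : ∀ a, enc (g (φ a)) = enc (f a)) :
    Cmp f fun a => T (φ a) := by
  obtain ⟨c, hc⟩ := hg
  refine ⟨c, fun a => ?_⟩
  obtain ⟨n, hn, he⟩ := hc (φ a)
  exact ⟨n, hn, h₁ a ▸ h₂ a ▸ he⟩

theorem cast {f : α → β} (h : ∀ a, enc (f a) = enc a) : Cmp f sz :=
  ⟨.id, fun a => ⟨_, le_rfl, by rw [h a]; exact Ev.id _⟩⟩

theorem left : Cmp V.left sz := ⟨.fst, fun v => ⟨_, le_rfl, Ev.fst v⟩⟩

theorem right : Cmp V.right sz := ⟨.snd, fun v => ⟨_, le_rfl, Ev.snd v⟩⟩

theorem comp {f : β → γ} {g : α → β} {T : β → ℕ} {U : α → ℕ} (hf : Cmp f T) (hg : Cmp g U) :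
    Cmp (fun a => f (g a)) fun a => U a + T (g a) := by
  obtain ⟨c, hc⟩ := hf
  obtain ⟨d, hd⟩ := hg
  refine ⟨.comp c d, fun a => ?_⟩
  obtain ⟨n, hn, he⟩ := hd a
  obtain ⟨m, hm, hf⟩ := hc (g a)
  exact ⟨n + m, Nat.add_le_add hn hm, .comp he hf⟩

theorem pair {f : α → β} {g : α → γ} {T U : α → ℕ} (hf : Cmp f T) (hg : Cmp g U) :
    Cmp (fun a => (f a, g a)) fun a => T a + U a + 1 := by
  obtain ⟨c, hc⟩ := hf
  obtain ⟨d, hd⟩ := hg
  refine ⟨.pair c d, fun a => ?_⟩
  obtain ⟨n, hn, he⟩ := hc a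
  obtain ⟨m, hm, hf⟩ := hd a
  exact ⟨n + m + 1, Nat.succ_le_succ (Nat.add_le_add hn hm), .pair he hf⟩

theorem constV (v : V) : Cmp (fun _ : α => v) fun a => v.size * sz a := by
  induction v with
  | nil => exact ⟨.nil, fun a => ⟨_, by simp, Ev.nil _⟩⟩
  | node l r ihl ihr =>
    refine ((ihl.pair ihr).of_enc (f := fun _ : α => V.node l r) id (fun _ => rfl)
      (fun _ => rfl)).mono fun a => ?_
    have := one_le_sz a
    simp [Nat.add_mul]; omega

theorem const (b : β) : Cmp (fun _ : α => b) fun a => sz b * sz a :=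
  (constV (enc b)).of_enc id (fun _ => rfl) fun _ => rfl

/-- Case distinction on whether the code of `c a` is `nil`; each branch need only be computable
on the inputs that reach it. -/
theorem caseV {c : α → γ} {f : α → β} {T U : α → ℕ} (hc : Cmp c T)
    (h₀ : Cmp (fun a : {a // enc (c a) = V.nil} => f a.1) fun a => U a.1)
    (h₁ : Cmp (fun a : {a // enc (c a) ≠ V.nil} => f a.1) fun a => U a.1) :
    Cmp f fun a => T a + U a := by
  obtain ⟨k, hk⟩ := hc
  obtain ⟨e, he⟩ := h₀
  obtain ⟨d, hd⟩ := h₁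
  refine ⟨.ite k d e, fun a => ?_⟩
  obtain ⟨n, hn, hk⟩ := hk a
  cases hv : enc (c a) with
  | nil =>
    obtain ⟨m, hm, he⟩ := he ⟨a, hv⟩
    exact ⟨n + m, Nat.add_le_add hn hm, .ite_nil (hv ▸ hk) he⟩
  | node x y =>
    obtain ⟨m, hm, hd⟩ := hd ⟨a, by simp [hv]⟩
    exact ⟨n + m, Nat.add_le_add hn hm, .ite_node (hv ▸ hk) hd⟩

/-- The general loop: at most `N a` calls of `step`, each on a state of size at most `B a`. -/
theorem loop {ini : α → σ} {step : σ → β ⊕ σ} {f : α → β} {U N B : α → ℕ} {τ : ℕ → ℕ}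
    (hτ : Monotone τ) (hi : Cmp ini U) (hs : Cmp step fun s => τ (sz s))
    (h : ∀ a, Runs step (B a) (ini a) (f a) (N a)) :
    Cmp f fun a => U a + N a * τ (B a) := by
  obtain ⟨c, hc⟩ := hs
  obtain ⟨d, hd⟩ := hi
  have key : ∀ (B : ℕ) (s : σ) (b : β) (N : ℕ), Runs step B s b N →
      ∃ n, n ≤ N * τ B ∧ Ev (.loop c) (enc s) (enc b) n := by
    intro B s b N hr
    induction hr with
    | @stop s b N h₁ h₂ =>
      obtain ⟨n, hn, he⟩ := hc s
      rw [h₂] at he
      have := hτ h₁
      exact ⟨n, by rw [Nat.succ_mul]; simp only at hn; omega, .loop_stop he⟩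
    | @next s s' b N h₁ h₂ _ ih =>
      obtain ⟨n, hn, he⟩ := hc s
      rw [h₂] at he
      obtain ⟨m, hm, hl⟩ := ih
      have := hτ h₁
      exact ⟨n + m, by rw [Nat.succ_mul]; simp only at hn; omega, .loop_next he hl⟩
  refine ⟨.comp (.loop c) d, fun a => ?_⟩
  obtain ⟨n, hn, he⟩ := hd a
  obtain ⟨m, hm, hl⟩ := key _ _ _ _ (h a)
  exact ⟨n + m, Nat.add_le_add hn hm, .comp he hl⟩

end Cmp

namespace Poly
variable {α β γ δ σ : Type*} [PEnc α] [PEnc β] [PEnc γ] [PEnc δ] [PEnc σ]

theorem of_cmp {f : α → β} {T : α → ℕ} (h : Cmp f T) (hT : PB T) : Poly f := ⟨T, hT, h⟩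

theorem exists_poly {f : α → β} (h : Poly f) :
    ∃ p : Polynomial ℕ, Cmp f fun a => p.eval (sz a) := by
  obtain ⟨T, ⟨p, hp⟩, hc⟩ := h
  exact ⟨p, hc.mono hp⟩

theorem congr {f g : α → β} (h : Poly f) (e : ∀ a, f a = g a) : Poly g := funext e ▸ h

/-- The output of a polynomial-time function has polynomial size. -/
@[fun_prop] theorem pb_sz {f : α → β} (h : Poly f) : PB fun a => sz (f a) := by
  obtain ⟨T, hT, hc⟩ := h
  exact hT.mono hc.sz_le

theorem cast {f : α → β} (h : ∀ a, enc (f a) = enc a) : Poly f := ⟨_, PB.sz_id, Cmp.cast h⟩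

@[fun_prop] theorem id' : Poly fun a : α => a := cast fun _ => rfl

@[fun_prop] theorem const (b : β) : Poly fun _ : α => b :=
  ⟨_, (PB.const _).mul PB.sz_id, Cmp.const b⟩

@[fun_prop] theorem comp {f : β → γ} {g : α → β} (hf : Poly f) (hg : Poly g) :
    Poly fun a => f (g a) := by
  have hs := hg.pb_sz
  obtain ⟨T, hT, hf⟩ := hf
  obtain ⟨U, hU, hg⟩ := hg
  exact ⟨_, hU.add (hT.comp' hs), hf.comp hg⟩

/-- Change the output type without changing the code. -/
theorem of_enc {f : α → β} {g : α → γ} (hg : Poly g) (h : ∀ a, enc (g a) = enc (f a)) :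
    Poly f := by
  obtain ⟨T, hT, hg⟩ := hg
  exact ⟨_, hT, hg.of_enc id (fun _ => rfl) h⟩

@[fun_prop] theorem enc' {f : α → β} (hf : Poly f) : Poly fun a => enc (f a) :=
  hf.of_enc fun _ => rfl

@[fun_prop] theorem left {f : α → V} (hf : Poly f) : Poly fun a => (f a).left :=
  comp ⟨_, PB.sz_id, Cmp.left⟩ hf

@[fun_prop] theorem right {f : α → V} (hf : Poly f) : Poly fun a => (f a).right :=
  comp ⟨_, PB.sz_id, Cmp.right⟩ hf

@[fun_prop] theorem pair {f : α → β} {g : α → γ} (hf : Poly f) (hg : Poly g) :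
    Poly fun a => (f a, g a) := by
  obtain ⟨T, hT, hf⟩ := hf
  obtain ⟨U, hU, hg⟩ := hg
  exact ⟨_, (hT.add hU).add (PB.const 1), hf.pair hg⟩

@[fun_prop] theorem node {f g : α → V} (hf : Poly f) (hg : Poly g) :
    Poly fun a => V.node (f a) (g a) := (hf.pair hg).of_enc fun _ => rfl

@[fun_prop] theorem fst {f : α → β × γ} (hf : Poly f) : Poly fun a => (f a).1 :=
  hf.enc'.left.of_enc fun _ => rfl

@[fun_prop] theorem snd {f : α → β × γ} (hf : Poly f) : Poly fun a => (f a).2 :=
  hf.enc'.right.of_enc fun _ => rfl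

@[fun_prop] theorem val {p : β → Prop} {f : α → Subtype p} (hf : Poly f) :
    Poly fun a => (f a).1 := hf.of_enc fun _ => rfl

@[fun_prop] theorem subtype_mk {p : β → Prop} {f : α → β} (hf : Poly f) (h : ∀ a, p (f a)) :
    Poly fun a => (⟨f a, h a⟩ : Subtype p) := hf.of_enc fun _ => rfl

/-- Restriction to a subtype. -/
theorem restrict {f : α → β} (hf : Poly f) (p : α → Prop) : Poly fun a : Subtype p => f a.1 :=
  hf.comp (val id')

/-- Case distinction on whether the code of `c a` is `nil`. -/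
theorem caseV {c : α → γ} {f : α → β} (hc : Poly c)
    (h₀ : Poly fun a : {a // enc (c a) = V.nil} => f a.1)
    (h₁ : Poly fun a : {a // enc (c a) ≠ V.nil} => f a.1) : Poly f := by
  obtain ⟨T, hT, hc⟩ := hc
  obtain ⟨p, h₀⟩ := h₀.exists_poly
  obtain ⟨q, h₁⟩ := h₁.exists_poly
  refine ⟨_, hT.add ((PB.sz_id.eval p).add (PB.sz_id.eval q)),
    hc.caseV (U := fun a => p.eval (sz a) + q.eval (sz a)) (h₀.mono fun a => ?_)
      (h₁.mono fun a => ?_)⟩
  · simp
  · simp

/-- Dependent conditional: each branch is only needed on the inputs that reach it. -/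
theorem dcond {c : α → Bool} {f : α → β} (hc : Poly c)
    (h₁ : Poly fun a : {a // c a = true} => f a.1)
    (h₀ : Poly fun a : {a // c a = false} => f a.1) : Poly f := by
  refine hc.caseV ?_ ?_
  · have key : ∀ a : {a // enc (c a) = V.nil}, c a.1 = false := fun a => by
      have := a.2
      cases h : c a.1 <;> simp_all
    exact comp (g := fun a : {a // enc (c a) = V.nil} => (⟨a.1, key a⟩ : {a // c a = false})) h₀
      (cast fun _ => rfl)
  · have key : ∀ a : {a // enc (c a) ≠ V.nil}, c a.1 = true := fun a => by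
      have := a.2
      cases h : c a.1 <;> simp_all
    exact comp (g := fun a : {a // enc (c a) ≠ V.nil} => (⟨a.1, key a⟩ : {a // c a = true})) h₁
      (cast fun _ => rfl)

@[fun_prop] theorem cond {c : α → Bool} {f g : α → β} (hc : Poly c) (hf : Poly f) (hg : Poly g) :
    Poly fun a => cond (c a) (f a) (g a) := by
  refine hc.dcond ?_ ?_
  · exact (hf.restrict _).congr fun a => by simp [a.2]
  · exact (hg.restrict _).congr fun a => by simp [a.2]

@[fun_prop] theorem ite {p : α → Prop} [DecidablePred p] {f g : α → β}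
    (hp : Poly fun a => decide (p a)) (hf : Poly f) (hg : Poly g) :
    Poly fun a => if p a then f a else g a :=
  (hp.cond hf hg).congr fun a => by by_cases h : p a <;> simp [h]

theorem dite {p : α → Prop} [DecidablePred p] {f : ∀ a, p a → β} {g : ∀ a, ¬ p a → β}
    (hp : Poly fun a => decide (p a)) (hf : Poly fun a : {a // p a} => f a.1 a.2)
    (hg : Poly fun a : {a // ¬ p a} => g a.1 a.2) :
    Poly fun a => if h : p a then f a h else g a h := by
  refine hp.dcond ?_ ?_
  · have key : ∀ a : {a // decide (p a) = true}, p a.1 := fun a => by simpa using a.2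
    exact (comp (g := fun a : {a // decide (p a) = true} => (⟨a.1, key a⟩ : {a // p a})) hf
      (cast fun _ => rfl)).congr fun a => by simp [key a]
  · have key : ∀ a : {a // decide (p a) = false}, ¬ p a.1 := fun a => by simpa using a.2
    exact (comp (g := fun a : {a // decide (p a) = false} => (⟨a.1, key a⟩ : {a // ¬ p a})) hg
      (cast fun _ => rfl)).congr fun a => by simp [key a]

/-- The general polynomial loop. -/
theorem loop {ini : α → σ} {step : σ → β ⊕ σ} {f : α → β} {N B : α → ℕ}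
    (hi : Poly ini) (hs : Poly step) (hN : PB N) (hB : PB B)
    (h : ∀ a, Runs step (B a) (ini a) (f a) (N a)) : Poly f := by
  obtain ⟨U, hU, hi⟩ := hi
  obtain ⟨p, hs⟩ := hs.exists_poly
  exact ⟨_, hU.add (hN.mul (hB.eval p)),
    Cmp.loop (τ := fun n => p.eval n) (fun _ _ h => eval_mono p h) hi hs h⟩

/-- A loop with a polynomial-time body but an arbitrary number of rounds and state size: the cost
is `N a * q (B a)` plus a polynomial (for quasi-polynomial or exponential time bounds). -/
theorem loop_cmp {ini : α → σ} {step : σ → β ⊕ σ} (hi : Poly ini) (hs : Poly step) :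
    ∃ p q : Polynomial ℕ, ∀ {f : α → β} {N B : α → ℕ},
      (∀ a, Runs step (B a) (ini a) (f a) (N a)) →
        Cmp f fun a => p.eval (sz a) + N a * q.eval (B a) := by
  obtain ⟨p, hi⟩ := hi.exists_poly
  obtain ⟨q, hs⟩ := hs.exists_poly
  exact ⟨p, q, fun h => Cmp.loop (τ := fun n => q.eval n) (fun _ _ h => eval_mono q h) hi hs h⟩

end Poly

@[fun_prop] theorem PB.comp {α β : Type*} [PEnc α] [PEnc β] {g : β → ℕ} {f : α → β}
    (hg : PB g) (hf : Poly f) : PB fun a => g (f a) := hg.comp' hf.pb_sz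

end Crest.Agent.Lib.PolyTime
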