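import Crest.Agent.Lib.PolyTime.Basic

/-!
# `Poly` for booleans, options, sums, lists and folds
-/

namespace Crest.Agent.Lib.PolyTime

namespace Poly
variable {α β γ δ σ : Type*} [PEnc α] [PEnc β] [PEnc γ] [PEnc δ] [PEnc σ]

/-! ### Booleans -/

@[fun_prop] theorem not {f : α → Bool} (hf : Poly f) : Poly fun a => !f a :=
  (hf.cond (const false) (const true)).congr fun a => by cases f a <;> rfl

@[fun_prop] theorem and {f g : α → Bool} (hf : Poly f) (hg : Poly g) : Poly fun a => f a && g a :=
  (hf.cond hg (const false)).congr fun a => by cases f a <;> rfl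

@[fun_prop] theorem or {f g : α → Bool} (hf : Poly f) (hg : Poly g) : Poly fun a => f a || g a :=
  (hf.cond (const true) hg).congr fun a => by cases f a <;> rfl

@[fun_prop] theorem xor {f g : α → Bool} (hf : Poly f) (hg : Poly g) :
    Poly fun a => xor (f a) (g a) :=
  (hf.cond hg.not hg).congr fun a => by cases f a <;> simp

/-! ### Options and sums -/

@[fun_prop] theorem some {f : α → β} (hf : Poly f) : Poly fun a => some (f a) :=
  (hf.pair (const ())).of_enc fun _ => rfl

@[fun_prop] theorem inl {f : α → β} (hf : Poly f) : Poly fun a => (Sum.inl (f a) : β ⊕ γ) :=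
  ((const false).pair hf).of_enc fun _ => rfl

@[fun_prop] theorem inr {f : α → γ} (hf : Poly f) : Poly fun a => (Sum.inr (f a) : β ⊕ γ) :=
  ((const true).pair hf).of_enc fun _ => rfl

theorem optionCasesOn {o : α → Option β} {f : α → γ} {g : α → β → γ} (ho : Poly o) (hf : Poly f)
    (hg : Poly fun p : α × β => g p.1 p.2) :
    Poly fun a => (Option.casesOn (o a) (f a) (g a) : γ) := by
  refine ho.caseV ?_ ?_
  · refine (hf.restrict _).congr fun a => ?_
    have := a.2
    cases h : o a.1 <;> simp_all
  · have key : ∀ a : {a // enc (o a) ≠ V.nil}, (o a.1).isSome := fun a => by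
      have := a.2
      cases h : o a.1 <;> simp_all
    have h1 : Poly fun a : {a // enc (o a) ≠ V.nil} => (o a.1).get (key a) :=
      ((ho.restrict _).enc'.left).of_enc fun a => by
        obtain ⟨x, hx⟩ := Option.isSome_iff_exists.1 (key a)
        simp [hx]
    refine (comp hg ((val id').pair h1)).congr fun a => ?_
    obtain ⟨x, hx⟩ := Option.isSome_iff_exists.1 (key a)
    simp [hx]

@[fun_prop] theorem optionElim {o : α → Option β} {f : α → γ} {g : α → β → γ} (ho : Poly o)
    (hf : Poly f) (hg : Poly fun p : α × β => g p.1 p.2) :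
    Poly fun a => (o a).elim (f a) (g a) :=
  (optionCasesOn ho hf hg).congr fun a => by cases o a <;> rfl

@[fun_prop] theorem getD {o : α → Option β} {f : α → β} (ho : Poly o) (hf : Poly f) :
    Poly fun a => (o a).getD (f a) :=
  (optionCasesOn (g := fun _ b => b) ho hf (snd id')).congr fun a => by cases o a <;> rfl

@[fun_prop] theorem isSome {o : α → Option β} (ho : Poly o) : Poly fun a => (o a).isSome :=
  (optionCasesOn (g := fun _ _ => true) ho (const false) (const true)).congr fun a => by
    cases o a <;> rfl

@[fun_prop] theorem isNone {o : α → Option β} (ho : Poly o) : Poly fun a => (o a).isNone :=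
  (optionCasesOn (g := fun _ _ => false) ho (const true) (const false)).congr fun a => by
    cases o a <;> rfl

@[fun_prop] theorem optionMap {o : α → Option β} {g : α → β → γ} (ho : Poly o)
    (hg : Poly fun p : α × β => g p.1 p.2) : Poly fun a => (o a).map (g a) :=
  (optionCasesOn (g := fun a b => Option.some (g a b)) ho (const none) hg.some).congr fun a => by
    cases o a <;> rfl

@[fun_prop] theorem optionBind {o : α → Option β} {g : α → β → Option γ} (ho : Poly o)
    (hg : Poly fun p : α × β => g p.1 p.2) : Poly fun a => (o a).bind (g a) :=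
  (optionCasesOn ho (const none) hg).congr fun a => by cases o a <;> rfl

theorem sumCasesOn {s : α → β ⊕ γ} {f : α → β → δ} {g : α → γ → δ} (hs : Poly s)
    (hf : Poly fun p : α × β => f p.1 p.2) (hg : Poly fun p : α × γ => g p.1 p.2) :
    Poly fun a => (Sum.casesOn (s a) (f a) (g a) : δ) := by
  refine hs.enc'.left.caseV ?_ ?_
  · have key : ∀ a : {a // enc (enc (s a)).left = V.nil}, (s a.1).isLeft := fun a => by
      have := a.2
      cases h : s a.1 <;> simp_all
    have h1 : Poly fun a : {a // enc (enc (s a)).left = V.nil} => (s a.1).getLeft (key a) :=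
      ((hs.restrict _).enc'.right).of_enc fun a => by
        obtain ⟨x, hx⟩ := Sum.isLeft_iff.1 (key a)
        simp [hx]
    refine (comp hf ((val id').pair h1)).congr fun a => ?_
    obtain ⟨x, hx⟩ := Sum.isLeft_iff.1 (key a)
    simp [hx]
  · have key : ∀ a : {a // enc (enc (s a)).left ≠ V.nil}, (s a.1).isRight := fun a => by
      have := a.2
      cases h : s a.1 <;> simp_all
    have h1 : Poly fun a : {a // enc (enc (s a)).left ≠ V.nil} => (s a.1).getRight (key a) :=
      ((hs.restrict _).enc'.right).of_enc fun a => by
        obtain ⟨x, hx⟩ := Sum.isRight_iff.1 (key a)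
        simp [hx]
    refine (comp hg ((val id').pair h1)).congr fun a => ?_
    obtain ⟨x, hx⟩ := Sum.isRight_iff.1 (key a)
    simp [hx]

@[fun_prop] theorem sumElim {s : α → β ⊕ γ} {f : α → β → δ} {g : α → γ → δ} (hs : Poly s)
    (hf : Poly fun p : α × β => f p.1 p.2) (hg : Poly fun p : α × γ => g p.1 p.2) :
    Poly fun a => Sum.elim (f a) (g a) (s a) :=
  (sumCasesOn hs hf hg).congr fun a => by cases s a <;> rfl

/-! ### List constructors and destructors -/

@[fun_prop] theorem cons {f : α → β} {l : α → List β} (hf : Poly f) (hl : Poly l) :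
    Poly fun a => f a :: l a := (hf.pair hl).of_enc fun _ => rfl

@[fun_prop] theorem tail {l : α → List β} (hl : Poly l) : Poly fun a => (l a).tail :=
  hl.enc'.right.of_enc fun a => by cases l a <;> rfl

theorem listCasesOn {l : α → List β} {f : α → γ} {g : α → β → List β → γ} (hl : Poly l)
    (hf : Poly f) (hg : Poly fun p : α × β × List β => g p.1 p.2.1 p.2.2) :
    Poly fun a => (List.casesOn (l a) (f a) (g a) : γ) := by
  refine hl.caseV ?_ ?_
  · refine (hf.restrict _).congr fun a => ?_
    have := a.2
    cases h : l a.1 <;> simp_all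
  · have key : ∀ a : {a // enc (l a) ≠ V.nil}, l a.1 ≠ [] := fun a => by
      have := a.2
      cases h : l a.1 <;> simp_all
    have h1 : Poly fun a : {a // enc (l a) ≠ V.nil} => ((l a.1).head (key a), (l a.1).tail) :=
      (hl.restrict _).of_enc fun a => by
        obtain ⟨x, xs, hx⟩ := List.exists_cons_of_ne_nil (key a)
        simp [hx]
    refine (comp hg ((val id').pair h1)).congr fun a => ?_
    obtain ⟨x, xs, hx⟩ := List.exists_cons_of_ne_nil (key a)
    simp [hx]

@[fun_prop] theorem head? {l : α → List β} (hl : Poly l) : Poly fun a => (l a).head? :=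
  (listCasesOn (g := fun _ x _ => Option.some x) hl (const none) (by fun_prop)).congr fun a => by
    cases l a <;> rfl

@[fun_prop] theorem headD {l : α → List β} {d : α → β} (hl : Poly l) (hd : Poly d) :
    Poly fun a => (l a).headD (d a) :=
  (listCasesOn (g := fun _ x _ => x) hl hd (by fun_prop)).congr fun a => by cases l a <;> rfl

@[fun_prop] theorem isEmpty {l : α → List β} (hl : Poly l) : Poly fun a => (l a).isEmpty :=
  (listCasesOn (g := fun _ _ _ => false) hl (const true) (const false)).congr fun a => by
    cases l a <;> rfl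

/-! ### Folds -/

/-- Left fold with a polynomial bound on all intermediate accumulators. -/
theorem foldl {l : α → List β} {g : α → γ} {h : α → γ → β → γ} (hl : Poly l) (hg : Poly g)
    (hh : Poly fun p : α × γ × β => h p.1 p.2.1 p.2.2) {B : α → ℕ} (hB : PB B)
    (hb : ∀ a (l₁ : List β), l₁ <+: l a → sz (l₁.foldl (h a) (g a)) ≤ B a) :
    Poly fun a => (l a).foldl (h a) (g a) := by
  let step : α × List β × γ → γ ⊕ (α × List β × γ) := fun s =>
    List.casesOn s.2.1 (Sum.inl s.2.2) fun x xs => Sum.inr (s.1, xs, h s.1 s.2.2 x)
  have hs : Poly step := by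
    refine listCasesOn (by fun_prop) (by fun_prop) ?_
    have : Poly fun p : (α × List β × γ) × β × List β => h p.1.1 p.1.2.2 p.2.1 :=
      comp hh (g := fun p : (α × List β × γ) × β × List β => (p.1.1, p.1.2.2, p.2.1))
        (by fun_prop)
    fun_prop
  refine loop (ini := fun a => (a, l a, g a)) (N := fun a => sz (l a))
    (B := fun a => sz a + sz (l a) + B a + 2) (by fun_prop) hs hl.pb_sz
    (((PB.sz_id.add hl.pb_sz).add hB).add (PB.const 2)) fun a => ?_
  have key : ∀ l₂ l₁ : List β, l₁ ++ l₂ = l a →
      Runs step (sz a + sz (l a) + B a + 2) (a, l₂, l₁.foldl (h a) (g a))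
        ((l a).foldl (h a) (g a)) (l₂.length + 1) := by
    intro l₂
    induction l₂ with
    | nil =>
      intro l₁ e
      have h1 := hb a l₁ ⟨_, e⟩
      have h2 := one_le_sz (l a)
      refine .stop _ (by simp; omega) ?_
      simp [step, ← e]
    | cons x xs ih =>
      intro l₁ e
      have h1 := hb a l₁ ⟨_, e⟩
      have h2 : sz (x :: xs) ≤ sz (l a) := sz_le_of_sublist (e ▸ List.sublist_append_right _ _)
      have h3 := ih (l₁ ++ [x]) (by simpa using e)
      rw [List.foldl_append] at h3
      exact .next (by simp at h2 ⊢; omega) rfl h3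
  exact (key (l a) [] rfl).mono le_rfl (length_lt_sz _)

end Poly

theorem PB.sum_map {α β : Type*} [PEnc α] [PEnc β] {l : α → List β} {D : α → β → ℕ}
    (hl : Poly l) (hD : PB fun p : α × β => D p.1 p.2) :
    PB fun a => ((l a).map (D a)).sum := by
  obtain ⟨p, hp⟩ := hD
  refine (hl.pb_sz.mul (((PB.sz_id.add hl.pb_sz).add (PB.const 1)).eval p)).mono fun a => ?_
  have : ∀ x ∈ (l a).map (D a), x ≤ p.eval (sz a + sz (l a) + 1) := by
    intro x hx
    obtain ⟨y, hy, rfl⟩ := List.mem_map.1 hx
    have h1 := sz_le_of_mem hy
    exact (hp (a, y)).trans (eval_mono p (by simp; omega))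
  have h2 := List.sum_le_card_nsmul _ _ this
  simp only [List.length_map, smul_eq_mul] at h2
  exact h2.trans (Nat.mul_le_mul_right _ (length_le_sz _))

@[fun_prop] theorem PB.length {α β : Type*} [PEnc α] [PEnc β] {l : α → List β} (hl : Poly l) :
    PB fun a => (l a).length := hl.pb_sz.mono fun _ => length_le_sz _

namespace Poly
variable {α β γ δ σ : Type*} [PEnc α] [PEnc β] [PEnc γ] [PEnc δ] [PEnc σ]

/-- Left fold in which every round enlarges the accumulator by an amount `D a x` that is
polynomial in the context and the list entry (not in the accumulator). -/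
theorem foldl_add {l : α → List β} {g : α → γ} {h : α → γ → β → γ} (hl : Poly l) (hg : Poly g)
    (hh : Poly fun p : α × γ × β => h p.1 p.2.1 p.2.2) (D : α → β → ℕ)
    (hD : PB fun p : α × β => D p.1 p.2) (hb : ∀ a s x, sz (h a s x) ≤ sz s + D a x) :
    Poly fun a => (l a).foldl (h a) (g a) := by
  refine foldl hl hg hh (hg.pb_sz.add (PB.sum_map hl hD)) fun a l₁ hl₁ => ?_
  have key : ∀ (l₁ : List β) (s : γ), sz (l₁.foldl (h a) s) ≤ sz s + (l₁.map (D a)).sum := by
    intro l₁
    induction l₁ with
    | nil => simp
    | cons x xs ih =>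
      intro s
      have h1 := ih (h a s x)
      have h2 := hb a s x
      simp; omega
  obtain ⟨t, ht⟩ := hl₁
  have := key l₁ (g a)
  rw [← ht]
  simp; omega

@[fun_prop] theorem reverse {l : α → List β} (hl : Poly l) : Poly fun a => (l a).reverse := by
  refine (foldl_add (h := fun _ s x => x :: s) hl (const []) (by fun_prop) (fun _ x => sz x + 1)
    (by fun_prop) fun _ _ _ => by simp; omega).congr fun a => ?_
  rw [List.foldl_flip_cons_eq_append']; simp

/-- Right fold with a polynomial bound on all intermediate accumulators. -/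
theorem foldr {l : α → List β} {g : α → γ} {h : α → β → γ → γ} (hl : Poly l) (hg : Poly g)
    (hh : Poly fun p : α × β × γ => h p.1 p.2.1 p.2.2) {B : α → ℕ} (hB : PB B)
    (hb : ∀ a (l₁ : List β), l₁ <:+ l a → sz (l₁.foldr (h a) (g a)) ≤ B a) :
    Poly fun a => (l a).foldr (h a) (g a) := by
  refine (foldl (h := fun a s x => h a x s) hl.reverse hg
    (comp hh (g := fun p : α × γ × β => (p.1, p.2.2, p.2.1)) (by fun_prop)) hB
    fun a l₁ hl₁ => ?_).congr fun a => by rw [List.foldl_reverse]
  have := hb a l₁.reverse (by simpa using List.reverse_suffix.2 hl₁)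
  rwa [List.foldr_reverse] at this

/-- Right fold with additive growth of the accumulator. -/
theorem foldr_add {l : α → List β} {g : α → γ} {h : α → β → γ → γ} (hl : Poly l) (hg : Poly g)
    (hh : Poly fun p : α × β × γ => h p.1 p.2.1 p.2.2) (D : α → β → ℕ)
    (hD : PB fun p : α × β => D p.1 p.2) (hb : ∀ a x s, sz (h a x s) ≤ sz s + D a x) :
    Poly fun a => (l a).foldr (h a) (g a) :=
  (foldl_add (h := fun a s x => h a x s) hl.reverse hg
    (comp hh (g := fun p : α × γ × β => (p.1, p.2.2, p.2.1)) (by fun_prop)) D hD
    fun a s x => hb a x s).congr fun a => by rw [List.foldl_reverse]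

@[fun_prop] theorem append {l₁ l₂ : α → List β} (h₁ : Poly l₁) (h₂ : Poly l₂) :
    Poly fun a => l₁ a ++ l₂ a :=
  (foldr_add (h := fun _ x s => x :: s) h₁ h₂ (by fun_prop) (fun _ x => sz x + 1)
    (by fun_prop) fun _ _ _ => by simp; omega).congr fun a => by simp

@[fun_prop] theorem map {l : α → List β} {f : α → β → γ} (hl : Poly l)
    (hf : Poly fun p : α × β => f p.1 p.2) : Poly fun a => (l a).map (f a) := by
  refine (foldr_add (h := fun a x s => f a x :: s) hl (const []) ?_ (fun a x => sz (f a x) + 1)
    (hf.pb_sz.add (PB.const 1)) fun _ _ _ => by simp; omega).congr fun a => ?_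
  · exact (comp hf (g := fun p : α × β × List γ => (p.1, p.2.1)) (by fun_prop)).cons (by fun_prop)
  · induction l a with
    | nil => rfl
    | cons x xs ih => simp [ih]

@[fun_prop] theorem flatten {l : α → List (List β)} (hl : Poly l) :
    Poly fun a => (l a).flatten := by
  refine (foldr_add (h := fun _ x s => x ++ s) hl (const []) (by fun_prop) (fun _ x => sz x)
    (by fun_prop) fun _ x s => by have := sz_append x s; omega).congr fun a => ?_
  induction l a with
  | nil => rfl
  | cons x xs ih => simp [ih]

@[fun_prop] theorem flatMap {l : α → List β} {f : α → β → List γ} (hl : Poly l)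
    (hf : Poly fun p : α × β => f p.1 p.2) : Poly fun a => (l a).flatMap (f a) :=
  (hl.map hf).flatten.congr fun a => by simp [List.flatMap]

@[fun_prop] theorem optionToList {o : α → Option β} (ho : Poly o) : Poly fun a => (o a).toList :=
  ho.of_enc fun a => by cases o a <;> rfl

@[fun_prop] theorem filterMap {l : α → List β} {f : α → β → Option γ} (hl : Poly l)
    (hf : Poly fun p : α × β => f p.1 p.2) : Poly fun a => (l a).filterMap (f a) :=
  (hl.flatMap (f := fun a x => (f a x).toList) hf.optionToList).congr fun a => by
    induction l a with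
    | nil => rfl
    | cons x xs ih => cases h : f a x <;> simp [h, ih]

@[fun_prop] theorem filter {l : α → List β} {f : α → β → Bool} (hl : Poly l)
    (hf : Poly fun p : α × β => f p.1 p.2) : Poly fun a => (l a).filter (f a) :=
  (hl.flatMap (f := fun a x => bif f a x then [x] else []) (by fun_prop)).congr fun a => by
    induction l a with
    | nil => rfl
    | cons x xs ih => cases h : f a x <;> simp [h, ih]

@[fun_prop] theorem all {l : α → List β} {f : α → β → Bool} (hl : Poly l)
    (hf : Poly fun p : α × β => f p.1 p.2) : Poly fun a => (l a).all (f a) :=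
  (hl.filter (f := fun a x => !f a x) hf.not).isEmpty.congr fun a => by
    induction l a with
    | nil => rfl
    | cons x xs ih => cases h : f a x <;> simp_all

@[fun_prop] theorem any {l : α → List β} {f : α → β → Bool} (hl : Poly l)
    (hf : Poly fun p : α × β => f p.1 p.2) : Poly fun a => (l a).any (f a) :=
  (hl.filter hf).isEmpty.not.congr fun a => by
    induction l a with
    | nil => rfl
    | cons x xs ih => cases h : f a x <;> simp_all

@[fun_prop] theorem find? {l : α → List β} {f : α → β → Bool} (hl : Poly l)
    (hf : Poly fun p : α × β => f p.1 p.2) : Poly fun a => (l a).find? (f a) :=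
  (hl.filter hf).head?.congr fun a => by simp

@[fun_prop] theorem getLast? {l : α → List β} (hl : Poly l) : Poly fun a => (l a).getLast? :=
  hl.reverse.head?.congr fun a => by simp

@[fun_prop] theorem dropLast {l : α → List β} (hl : Poly l) : Poly fun a => (l a).dropLast :=
  hl.reverse.tail.reverse.congr fun a => by simp

@[fun_prop] theorem concat {l : α → List β} {f : α → β} (hl : Poly l) (hf : Poly f) :
    Poly fun a => (l a).concat (f a) :=
  (hl.append (hf.cons (const []))).congr fun a => by simp

/-- Iteration, the number of rounds given as the length of a list. -/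
theorem iterate_len {l : α → List β} {g : α → γ} {h : α → γ → γ} (hl : Poly l) (hg : Poly g)
    (hh : Poly fun p : α × γ => h p.1 p.2) {B : α → ℕ} (hB : PB B)
    (hb : ∀ a i, i ≤ (l a).length → sz ((h a)^[i] (g a)) ≤ B a) :
    Poly fun a => (h a)^[(l a).length] (g a) := by
  have key : ∀ a (l₁ : List β), l₁.foldl (fun s _ => h a s) (g a) = (h a)^[l₁.length] (g a) :=
    fun a l₁ => List.foldl_const _ _ _
  refine (foldl (h := fun a s _ => h a s) hl hg
    (comp hh (g := fun p : α × γ × β => (p.1, p.2.1)) (by fun_prop)) hB
    fun a l₁ hl₁ => ?_).congr fun a => key a _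
  rw [key]
  exact hb a _ hl₁.length_le

@[fun_prop] theorem zip {l₁ : α → List β} {l₂ : α → List γ} (h₁ : Poly l₁) (h₂ : Poly l₂) :
    Poly fun a => (l₁ a).zip (l₂ a) := by
  let h : List γ × List (β × γ) → β → List γ × List (β × γ) := fun s x =>
    List.casesOn s.1 s fun y ys => (ys, (x, y) :: s.2)
  have key : ∀ (l : List β) (r : List γ) (acc : List (β × γ)),
      (l.foldl h (r, acc)).2 = (l.zip r).reverse ++ acc := by
    intro l
    induction l with
    | nil => simp
    | cons x xs ih =>
      intro r acc
      cases r with
      | nil => simpa [h] using ih [] acc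
      | cons y ys => simpa [h] using ih ys ((x, y) :: acc)
  refine (foldl_add (h := fun _ => h) (g := fun a => (l₂ a, [])) h₁ (by fun_prop)
    (listCasesOn (by fun_prop) (by fun_prop) (by fun_prop)) (fun _ x => sz x + 1)
    (by fun_prop) ?_).snd.reverse.congr fun a => by simp [key]
  rintro _ ⟨r, acc⟩ x
  cases r <;> simp [h]; omega

@[fun_prop] theorem zipWith {l₁ : α → List β} {l₂ : α → List γ} {f : α → β → γ → δ}
    (hf : Poly fun p : α × β × γ => f p.1 p.2.1 p.2.2) (h₁ : Poly l₁) (h₂ : Poly l₂) :
    Poly fun a => List.zipWith (f a) (l₁ a) (l₂ a) :=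
  ((h₁.zip h₂).map (f := fun a p => f a p.1 p.2) hf).congr fun a => by
    simp [List.zip, List.map_zipWith]

/-! ### Equality test -/

/-- Equality of trees, via a work list of pairs. -/
theorem beqV : Poly fun p : V × V => decide (p.1 = p.2) := by
  let step : List (V × V) → Bool ⊕ List (V × V) := fun s =>
    List.casesOn s (Sum.inl true) fun q r =>
      if q.1 = V.nil then (if q.2 = V.nil then Sum.inr r else Sum.inl false)
      else if q.2 = V.nil then Sum.inl false
      else Sum.inr ((q.1.left, q.2.left) :: (q.1.right, q.2.right) :: r)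
  have hnil : Poly fun v : V => decide (v = V.nil) :=
    id'.caseV ((const true).congr fun a => by simpa using a.2)
      ((const false).congr fun a => by simpa using a.2)
  have hs : Poly step := by
    refine listCasesOn id' (const _) ?_
    have h1 : Poly fun p : List (V × V) × (V × V) × List (V × V) => decide (p.2.1.1 = V.nil) :=
      comp hnil (by fun_prop)
    have h2 : Poly fun p : List (V × V) × (V × V) × List (V × V) => decide (p.2.1.2 = V.nil) :=
      comp hnil (by fun_prop)
    exact ite h1 (ite h2 (by fun_prop) (by fun_prop)) (ite h2 (by fun_prop) (by fun_prop))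
  have key : ∀ (n : ℕ) (s : List (V × V)), (s.map fun q => q.1.size + q.2.size).sum ≤ n →
      ∀ B, 2 * n + 1 ≤ B → Runs step B s (s.all fun q => decide (q.1 = q.2)) (n + 1) := by
    have hsz : ∀ s : List (V × V), sz s ≤ 2 * (s.map fun q => q.1.size + q.2.size).sum + 1 := by
      intro s
      induction s with
      | nil => simp
      | cons q r ih =>
        have := q.1.size_pos
        have := q.2.size_pos
        simp only [sz_cons, sz_prod q, sz_V, List.map_cons, List.sum_cons]; omega
    intro n
    induction n with
    | zero =>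
      intro s hs B hB
      have := hsz s
      cases s with
      | nil => exact .stop _ (by simp; omega) rfl
      | cons q r => have := q.1.size_pos; simp at hs; omega
    | succ n ih =>
      intro s hs B hB
      have h0 := hsz s
      rcases s with _ | ⟨⟨x, y⟩, r⟩
      · exact .stop _ (by omega) rfl
      · rcases x with _ | ⟨x₁, x₂⟩ <;> rcases y with _ | ⟨y₁, y₂⟩
        · refine .next (by omega) (s' := r) (by simp [step]) ?_
          simpa using ih r (by
            simp only [List.map_cons, List.sum_cons, V.size_nil] at hs; omega) B (by omega)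
        · exact .stop _ (by omega) (by simp [step])
        · exact .stop _ (by omega) (by simp [step])
        · refine .next (by omega) (s' := (x₁, y₁) :: (x₂, y₂) :: r) (by simp [step]) ?_
          have := ih ((x₁, y₁) :: (x₂, y₂) :: r) (by simp at hs ⊢; omega) B (by omega)
          simpa [Bool.and_assoc] using this
  refine loop (ini := fun p => [p]) (N := fun p => sz p + 1) (B := fun p => 2 * sz p + 1)
    (by fun_prop) hs (by fun_prop) (by fun_prop) fun p => ?_
  simpa using key (sz p) [p] (by simp [sz_prod p]) _ le_rfl

@[fun_prop] theorem decide_eq {f g : α → β} (hf : Poly f) (hg : Poly g)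
    [inst : ∀ a, Decidable (f a = g a)] : Poly fun a => decide (f a = g a) :=
  (comp beqV (hf.enc'.pair hg.enc')).congr fun a => by simp [enc_inj]

@[fun_prop] theorem beq [BEq β] [LawfulBEq β] {f g : α → β} (hf : Poly f) (hg : Poly g) :
    Poly fun a => f a == g a := by
  classical
  exact (decide_eq hf hg).congr fun a => by by_cases h : f a = g a <;> simp [h]

@[fun_prop] theorem bne [BEq β] [LawfulBEq β] {f g : α → β} (hf : Poly f) (hg : Poly g) :
    Poly fun a => f a != g a := (beq hf hg).not

/-- Every function on a finite type is polynomial-time. -/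
theorem of_finite [Finite α] (f : α → β) : Poly f := by
  classical
  have key : ∀ l : List α, Poly fun a : {a // a ∈ l} => f a.1 := by
    intro l
    induction l with
    | nil => exact ⟨fun _ => 0, PB.const 0, .id, fun a => absurd a.2 (by simp)⟩
    | cons x xs ih =>
      have hx : Poly fun a : {a // a ∈ x :: xs} => decide (a.1 = x) :=
        decide_eq (val id') (const x)
      refine hx.dcond ((const (f x)).congr fun a => ?_) ?_
      · rw [show a.1.1 = x by simpa using a.2]
      · have key : ∀ a : {a : {a // a ∈ x :: xs} // decide (a.1 = x) = false}, a.1.1 ∈ xs :=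
          fun a => by
            have h1 := a.1.2
            have h2 := a.2
            simp only [decide_eq_false_iff_not] at h2
            exact (List.mem_cons.1 h1).resolve_left h2
        exact comp (g := fun a => (⟨a.1.1, key a⟩ : {a // a ∈ xs})) ih (cast fun _ => rfl)
  obtain ⟨l, hl⟩ : ∃ l : List α, ∀ a, a ∈ l := by
    have := Fintype.ofFinite α
    exact ⟨Finset.univ.toList, by simp⟩
  exact comp (g := fun a => (⟨a, hl a⟩ : {a // a ∈ l})) (key l) (cast fun _ => rfl)

@[fun_prop] theorem contains [BEq β] [LawfulBEq β] {l : α → List β} {f : α → β} (hl : Poly l)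
    (hf : Poly f) : Poly fun a => (l a).contains (f a) :=
  (hl.any (f := fun a x => f a == x) (by fun_prop)).congr fun a => by
    rw [List.contains_eq_any_beq]

@[fun_prop] theorem decide_mem {l : α → List β} {f : α → β} (hf : Poly f) (hl : Poly l)
    [inst : ∀ a, Decidable (f a ∈ l a)] : Poly fun a => decide (f a ∈ l a) := by
  classical
  exact (hl.contains hf).congr fun a => by simp

end Poly

end Crest.Agent.Lib.PolyTime
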