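import Crest.Agent.Lib.PolyTime.Compile
import Crest.Agent.Lib.PolyTime.List
import Crest.Prelude.Def_Complexity
import Crest.Prelude.Def_TimeBound
import Crest.Prelude.Def_Randomized

/-!
# From `Poly` / `Cmp` to the multi-stack machine model of the Prelude

Main results: `Poly.polyTime`, `Poly.polyTimePred`, `Poly.polyTimePred₂`, `Poly.polyTime₂`,
`Poly.randPolyTime`, `Poly.inP`, `Cmp.timeBound`, `Cmp.timeBoundPred`,
`Cmp.timeBoundComputable` (any input type coded by bit strings).
-/

namespace Crest.Agent.Lib.PolyTime

open Turing Function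

variable {I : Type}

/-- Push the reversed serialisation of the code of the bit `f v` on the transfer stack. -/
def emitBit (f : Reg → Bool) : SProg I :=
  .ite f (.seq (pushT fun _ => true) (.seq (pushT fun _ => false) (pushT fun _ => false)))
    (pushT fun _ => false)

theorem ex_emitBit {f : Reg → Bool} {v : Reg} {i : List I} {o a b t c : List Bool} :
    Ex (emitBit f) v (mkS i o a b t c) v (mkS i o a b ((enc (f v)).ser.reverse ++ t) c) 4 := by
  cases h : f v
  · exact (Ex.ite_false h ex_pushT).mono (by omega)
  · exact Ex.ite_true h (ex_pushT.seq (ex_pushT.seq ex_pushT))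

/-- Read the input stack and write the serialised list on the main stack. -/
def readIn (code : I → Bool × Bool) (E : SProg I) : SProg I :=
  .seq (.loop (.seq (.pop .inp fun _ x => Option.map code x)
    (.ite Option.isSome (.seq (pushT fun _ => true) E) skip)) Option.isSome)
    (.seq (pushT fun _ => false) flushA)

theorem ex_readIn {J : Type} [PEnc J] {code : I → Bool × Bool} {E : SProg I} {φ : I → J}
    (hE : ∀ x i t, Ex E (some (code x)) (mkS i [] [] [] t []) (some (code x))
      (mkS i [] [] [] ((enc (φ x)).ser.reverse ++ t) []) 10) (s : List I) (v : Reg) :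
    Ex (readIn code E) v (mkS s [] [] [] [] []) none (W (enc (s.map φ)).ser [])
      (30 * sz (s.map φ)) := by
  have key : ∀ (s : List I) (v : Reg) (t : List Bool),
      Ex (.loop (.seq (.pop .inp fun _ x => Option.map code x)
        (.ite Option.isSome (.seq (pushT fun _ => true) E) skip)) Option.isSome) v
        (mkS s [] [] [] t []) none
        (mkS [] [] [] [] ((s.flatMap fun x => true :: (enc (φ x)).ser).reverse ++ t) [])
        (14 * (s.length + 1)) := by
    intro s
    induction s with
    | nil =>
      intro v t
      exact (Ex.loop_stop ((Ex.pop rfl (upd_inp ..)).seq (Ex.ite_false rfl ex_skip)) rfl).mono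
        (by simp)
    | cons x s ih =>
      intro v t
      have h := Ex.loop_next (b := Option.isSome)
        ((Ex.pop (k := SK.inp) (f := fun _ x => Option.map code x) (v := v)
          (S := mkS (x :: s) [] [] [] t []) rfl (upd_inp ..)).seq
        (Ex.ite_true (b := Option.isSome) (q := skip) rfl
          ((ex_pushT (f := fun _ => true)).seq (hE x s _)))) rfl (ih _ _)
      refine Ex.mono ?_ (show 1 + (1 + (1 + 10)) + 1 + 14 * (s.length + 1) ≤ _ by simp; omega)
      simpa using h
  have e : ∀ s : List I, (s.flatMap fun x => true :: (enc (φ x)).ser) ++ [false] =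
      (enc (s.map φ)).ser := by
    intro s
    induction s with
    | nil => rfl
    | cons x s ih => simp [← ih]
  have h := (key s v []).seq ((ex_pushT (f := fun _ => false)).seq ex_flushA)
  have hl := congrArg List.length (e s)
  have hlen := length_lt_sz (s.map φ)
  simp only [List.length_append, List.length_cons, List.length_nil, V.length_ser, size_enc,
    List.length_map] at hl hlen
  simp only [List.append_nil, List.reverse_cons, List.reverse_reverse, e, List.length_cons,
    List.length_reverse] at h
  exact h.mono (by omega)

/-- Write the list of bits coded on the main stack to the output stack. -/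
def writeOut : SProg I :=
  .seq (.loop (.seq popA (.ite bit1 (.seq popA (.seq (pushT bit1)
    (.ite bit1 (.seq popA popA) skip))) (.load fun _ => none))) Option.isSome) flushO

theorem ex_writeOut (l : List Bool) (v : Reg) :
    Ex (writeOut (I := I)) v (W (enc l).ser []) none (mkS [] l [] [] [] []) (13 * sz l) := by
  have key : ∀ (l : List Bool) (v : Reg) (t : List Bool),
      Ex (.loop (.seq popA (.ite bit1 (.seq popA (.seq (pushT bit1)
        (.ite bit1 (.seq popA popA) skip))) (.load fun _ => none))) Option.isSome : SProg I) v
        (mkS [] [] (enc l).ser [] t []) none (mkS [] [] [] [] (l.reverse ++ t) [])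
        (8 * (l.length + 1)) := by
    intro l
    induction l with
    | nil =>
      intro v t
      exact (Ex.loop_stop (ex_popA.seq (Ex.ite_false rfl (Ex.load _))) rfl).mono (by simp)
    | cons x l ih =>
      intro v t
      cases x with
      | false =>
        have h := Ex.loop_next (b := Option.isSome)
          ((ex_popA (I := I) (v := v) (i := []) (o := []) (a := (enc (false :: l)).ser) (b := [])
            (t := t) (c := [])).seq (Ex.ite_true (b := bit1) (q := .load fun _ => none) rfl
            (ex_popA.seq ((ex_pushT (f := bit1)).seq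
              (Ex.ite_false (b := bit1) (p := .seq popA popA) rfl ex_skip))))) rfl (ih _ _)
        refine Ex.mono ?_ (show 1 + (1 + (1 + (1 + (1 + 1)))) + 1 + 8 * (l.length + 1) ≤ _ by
          simp; omega)
        simp only [List.reverse_cons, List.append_assoc]
        exact h
      | true =>
        have h := Ex.loop_next (b := Option.isSome)
          ((ex_popA (I := I) (v := v) (i := []) (o := []) (a := (enc (true :: l)).ser) (b := [])
            (t := t) (c := [])).seq (Ex.ite_true (b := bit1) (q := .load fun _ => none) rfl
            (ex_popA.seq ((ex_pushT (f := bit1)).seq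
              (Ex.ite_true (b := bit1) (q := skip) rfl (ex_popA.seq ex_popA)))))) rfl (ih _ _)
        refine Ex.mono ?_ (show 1 + (1 + (1 + (1 + (1 + (1 + 1))))) + 1 + 8 * (l.length + 1) ≤ _ by
          simp; omega)
        simp only [List.reverse_cons, List.append_assoc]
        exact h
  have h := (key l v []).seq ex_flushO
  have hlen := length_lt_sz l
  simp only [List.append_nil, List.reverse_reverse, List.length_reverse] at h
  exact h.mono (by omega)

/-- The machine running a stack program and then halting in the initial register state. -/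
def machine (I : Type) [Fintype I] (p : SProg I) : FinTM2 where
  K := SK
  k₀ := .inp
  k₁ := .out
  Γ := SΓ I
  Λ := Option p.L
  main := some p.entry
  ΛFin := @instFintypeOption _ p.fintypeL
  σ := Reg
  initialState := none
  Γk₀Fin := inferInstanceAs (Fintype I)
  m := fun l => match l with
    | none => .load (fun _ => none) .halt
    | some l => p.tr some none l

theorem machine_outputs [Fintype I] {p : SProg I} {s : List I} {out : List Bool} {v : Reg}
    {n : ℕ} (h : Ex p none (mkS s [] [] [] [] []) v (mkS [] out [] [] [] []) n) :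
    Nonempty (TM2OutputsInTime (machine I p) s (some out) (n + 1)) := by
  obtain ⟨m, hm, he⟩ := h
  have h1 := he.steps (machine I p).m some none fun _ => rfl
  have h2 : Steps (machine I p).m 1 ⟨some none, v, mkS [] out [] [] [] []⟩
      ⟨none, none, mkS [] out [] [] [] []⟩ := Steps.one rfl
  have e1 : initList (machine I p) s = ⟨some (some p.entry), none, mkS s [] [] [] [] []⟩ := by
    unfold initList
    congr 1
    funext k
    cases k <;> rfl
  have e2 : haltList (machine I p) out = ⟨none, none, mkS [] out [] [] [] []⟩ := by
    unfold haltList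
    congr 1
    funext k
    cases k <;> rfl
  refine ⟨⟨⟨m + 1, ?_⟩, Nat.succ_le_succ hm⟩⟩
  rw [e1, Option.map_some, e2]
  exact h1.trans h2

/-- The core statement: a `Code` becomes a machine whose time is linear in the cost. -/
theorem exists_machine [Fintype I] {J : Type} [PEnc J] {code : I → Bool × Bool} {E : SProg I}
    {φ : I → J}
    (hE : ∀ x i t, Ex E (some (code x)) (mkS i [] [] [] t []) (some (code x))
      (mkS i [] [] [] ((enc (φ x)).ser.reverse ++ t) []) 10) (c : Code) :
    ∃ (M : TM2ComputableAux I Bool) (K : ℕ), ∀ (s : List I) (out : List Bool) (n : ℕ),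
      Ev c (enc (s.map φ)) (enc out) n →
        Nonempty (TM2OutputsInTime M.tm (s.map M.inputAlphabet.invFun)
          (some (out.map M.outputAlphabet.invFun)) (K * n)) := by
  refine ⟨⟨machine I (.seq (readIn code E) (.seq (compile c) writeOut)), Equiv.refl _,
    Equiv.refl _⟩, c.K + 50, fun s out n h => ?_⟩
  obtain ⟨v, h1⟩ := h.ex (I := I) [] [] none
  simp only [List.append_nil] at h1
  have h2 := (ex_readIn hE s none).seq (h1.seq (ex_writeOut out v))
  have s1 : sz (s.map φ) ≤ n := h.size_in
  have s2 : sz out ≤ n := h.size_out
  have s3 := one_le_sz out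
  obtain ⟨⟨r, hr⟩⟩ := machine_outputs h2
  have key : ∀ (s' : List I) (out' : List Bool), s' = s → out' = out →
      Nonempty (TM2OutputsInTime (machine I (.seq (readIn code E) (.seq (compile c) writeOut))) s'
        (some out') ((c.K + 50) * n)) := by
    rintro _ _ rfl rfl
    exact ⟨⟨r, hr.trans (by nlinarith)⟩⟩
  exact key _ _ (List.map_id s) (List.map_id out)

theorem exists_machine_bits (c : Code) :
    ∃ (M : TM2ComputableAux Bool Bool) (K : ℕ), ∀ (s out : List Bool) (n : ℕ),
      Ev c (enc s) (enc out) n →
        Nonempty (TM2OutputsInTime M.tm (s.map M.inputAlphabet.invFun)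
          (some (out.map M.outputAlphabet.invFun)) (K * n)) := by
  have := exists_machine (I := Bool) (code := fun b => (b, b)) (E := emitBit bit1) (φ := id)
    (fun x i t => ex_emitBit.mono (by omega)) c
  simpa using this

/-- Two-bit code of a letter of the pair alphabet. -/
def sumCode : Bool ⊕ Bool → Bool × Bool
  | .inl b => (false, b)
  | .inr b => (true, b)

theorem exists_machine_pairs (c : Code) :
    ∃ (M : TM2ComputableAux (Bool ⊕ Bool) Bool) (K : ℕ),
      ∀ (s : List (Bool ⊕ Bool)) (out : List Bool) (n : ℕ),
      Ev c (enc (s.map sumCode)) (enc out) n →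
        Nonempty (TM2OutputsInTime M.tm (s.map M.inputAlphabet.invFun)
          (some (out.map M.outputAlphabet.invFun)) (K * n)) := by
  refine exists_machine (code := sumCode)
    (E := .seq (pushT fun _ => true) (.seq (emitBit bit1) (emitBit bit2))) (fun x i t => ?_) c
  have := (ex_pushT (I := Bool ⊕ Bool) (f := fun _ => true) (v := some (sumCode x)) (i := i)
    (o := []) (a := []) (b := []) (t := t) (c := [])).seq
      ((ex_emitBit (f := bit1)).seq (ex_emitBit (f := bit2)))
  refine Ex.mono ?_ (show 1 + (4 + 4) ≤ 10 by omega)
  rw [enc_prod]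
  simp only [V.ser_node, List.reverse_cons, List.reverse_append, List.append_assoc]
  exact this

/-- Explicit time bounds.  `F` computes the output string from the input string (only its values
on codes `ea a` matter, and `Cmp` is only needed on the subtype of codes if `P` is chosen so). -/
theorem Cmp.timeBoundComputable {α β : Type} {ea : α → List Bool} {eb : β → List Bool}
    {f : α → β} {P : List Bool → Prop} {F : List Bool → List Bool} {T : List Bool → ℕ}
    (h : Cmp (fun x : {x // P x} => F x.1) fun x => T x.1) (hP : ∀ a, P (ea a))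
    (hF : ∀ a, F (ea a) = eb (f a)) :
    ∃ K : ℕ, ∀ t : ℕ → ℕ, (∀ a, K * T (ea a) ≤ t (ea a).length) →
      Crest.DTime.TimeBoundComputable ea eb f t := by
  obtain ⟨c, hc⟩ := h
  obtain ⟨M, K, hM⟩ := exists_machine_bits c
  refine ⟨K, fun t ht => ⟨⟨M, t, fun a => ?_⟩, fun _ => le_rfl⟩⟩
  refine Classical.choice ?_
  obtain ⟨n, hn, he⟩ := hc ⟨ea a, hP a⟩
  obtain ⟨⟨r, hr⟩⟩ := hM (ea a) (F (ea a)) n he
  rw [← hF]
  exact ⟨⟨r, hr.trans ((Nat.mul_le_mul_left K hn).trans (ht a))⟩⟩

theorem Cmp.restrict {α β : Type*} [PEnc α] [PEnc β] {f : α → β} {T : α → ℕ} (h : Cmp f T)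
    (P : α → Prop) : Cmp (fun x : {x // P x} => f x.1) fun x => T x.1 :=
  h.of_enc Subtype.val (fun _ => rfl) fun _ => rfl

theorem Cmp.timeBound {f : List Bool → List Bool} {T : List Bool → ℕ} (h : Cmp f T) :
    ∃ K : ℕ, ∀ t : ℕ → ℕ, (∀ x, K * T x ≤ t x.length) → Crest.DTime.TimeBound f t :=
  Cmp.timeBoundComputable (P := fun _ => True) (h.restrict _) (fun _ => trivial) fun _ => rfl

theorem Cmp.timeBoundPred {f : List Bool → Bool} {T : List Bool → ℕ} (h : Cmp f T) :
    ∃ K : ℕ, ∀ t : ℕ → ℕ, (∀ x, K * T x ≤ t x.length) → Crest.DTime.TimeBoundPred f t := by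
  have h1 : Cmp (fun x => [f x]) fun x => 3 * T x :=
    ((h.pair (Cmp.const ())).of_enc (f := fun x => [f x]) id (fun _ => rfl) fun _ => rfl).mono
      fun x => by
        have := h.sz_in_le x
        have := one_le_sz x
        simp; omega
  obtain ⟨K, hK⟩ := Cmp.timeBoundComputable (ea := (Computability.encodingList Bool).encode)
    (eb := Computability.encodeBool) (f := f) (F := fun x => [f x]) (T := fun x => 3 * T x)
    (P := fun _ => True) (h1.restrict _)
    (fun _ => trivial) fun _ => rfl
  exact ⟨K * 3, fun t ht => hK t fun x => by rw [← Nat.mul_assoc]; exact ht x⟩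

/-- General form: input type coded by bit strings. -/
theorem Poly.polyTimeComputable {α β : Type} {ea : α → List Bool} {eb : β → List Bool}
    {f : α → β} {F : List Bool → List Bool} (h : Poly F) (hF : ∀ a, F (ea a) = eb (f a)) :
    Crest.Complexity.PolyTimeComputable ea eb f := by
  obtain ⟨p, c, hc⟩ := h.exists_poly
  obtain ⟨M, K, hM⟩ := exists_machine_bits c
  refine ⟨⟨M, Polynomial.C K * p.comp (Polynomial.C 4 * Polynomial.X + 1), fun a => ?_⟩⟩
  refine Classical.choice ?_
  obtain ⟨n, hn, he⟩ := hc (ea a)
  obtain ⟨⟨r, hr⟩⟩ := hM (ea a) (F (ea a)) n he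
  rw [← hF]
  refine ⟨⟨r, hr.trans ?_⟩⟩
  simpa using Nat.mul_le_mul_left K (hn.trans (eval_mono p (sz_listBool_le _)))

/-- General form: input type coded by strings over the pair alphabet. -/
theorem Poly.polyTimeComputable_sum {α β : Type} {ea : α → List (Bool ⊕ Bool)}
    {eb : β → List Bool} {f : α → β} {F : List (Bool × Bool) → List Bool} (h : Poly F)
    (hF : ∀ a, F ((ea a).map sumCode) = eb (f a)) :
    Crest.Complexity.PolyTimeComputable ea eb f := by
  obtain ⟨p, c, hc⟩ := h.exists_poly
  obtain ⟨M, K, hM⟩ := exists_machine_pairs c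
  refine ⟨⟨M, Polynomial.C K * p.comp (Polynomial.C 8 * Polynomial.X + 1), fun a => ?_⟩⟩
  refine Classical.choice ?_
  obtain ⟨n, hn, he⟩ := hc ((ea a).map sumCode)
  obtain ⟨⟨r, hr⟩⟩ := hM (ea a) _ n he
  rw [← hF]
  refine ⟨⟨r, hr.trans ?_⟩⟩
  have hsz : sz ((ea a).map sumCode) ≤ 8 * (ea a).length + 1 := by
    have := sz_list_le (l := (ea a).map sumCode) (B := 7) fun x _ => by
      have := sz_bool_le x.1
      have := sz_bool_le x.2
      rw [sz_prod]; omega
    simp at this; omega
  simpa using Nat.mul_le_mul_left K (hn.trans (eval_mono p hsz))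

/-- Recover a pair of strings from its code over the pair alphabet. -/
def unpairBits (s : List (Bool × Bool)) : List Bool × List Bool :=
  ((s.filter fun x => !x.1).map Prod.snd, (s.filter fun x => x.1).map Prod.snd)

theorem poly_unpairBits : Poly unpairBits := by
  unfold unpairBits
  fun_prop

theorem unpairBits_pairEnc (p : List Bool × List Bool) :
    unpairBits ((Crest.Complexity.pairEnc p).map sumCode) = p := by
  obtain ⟨x, y⟩ := p
  have e : Crest.Complexity.pairEnc (x, y) = x.map Sum.inl ++ y.map Sum.inr := rfl
  simp [e, unpairBits, List.filter_append, List.filter_map, Function.comp_def, sumCode]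

theorem Poly.polyTime {f : List Bool → List Bool} (h : Poly f) : Crest.Complexity.PolyTime f :=
  h.polyTimeComputable fun _ => rfl

theorem Poly.polyTimePred {f : List Bool → Bool} (h : Poly f) : Crest.Complexity.PolyTimePred f :=
  Poly.polyTimeComputable (F := fun x => [f x]) (by fun_prop) fun _ => rfl

theorem Poly.polyTime₂ {f : List Bool × List Bool → List Bool} (h : Poly f) :
    Crest.Complexity.PolyTimeComputable Crest.Complexity.pairEnc
      (Computability.encodingList Bool).encode f :=
  (h.comp poly_unpairBits).polyTimeComputable_sum fun p => by rw [unpairBits_pairEnc]; rfl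

theorem Poly.randPolyTime {f : List Bool × List Bool → List Bool} (h : Poly f) :
    Crest.Randomized.RandPolyTime f := h.polyTime₂

theorem Poly.polyTimePred₂ {f : List Bool × List Bool → Bool} (h : Poly f) :
    Crest.Complexity.PolyTimePred₂ f :=
  (Poly.comp (f := fun p => [f p]) (by fun_prop) poly_unpairBits).polyTimeComputable_sum fun p => by
    rw [unpairBits_pairEnc]; rfl

theorem Poly.inP {L : Set (List Bool)} {f : List Bool → Bool} (h : Poly f)
    (hL : ∀ x, x ∈ L ↔ f x = true) : Crest.Complexity.InP L := ⟨f, h.polyTimePred, hL⟩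

end Crest.Agent.Lib.PolyTime
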