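import Mathlib

/-!
# A tiny functional language on binary trees with a cost semantics

`V` is the universal data type (binary trees), `Code` a small first-order language, and
`Ev c v w n` says that `c` maps `v` to `w` at cost `n`.  `Compile.lean` turns a `Code` into a
`Turing.FinTM2` whose running time is linear in the cost.
-/

namespace Crest.Agent.Lib.PolyTime

/-- Binary trees: the universal data type. -/
inductive V : Type
  | nil : V
  | node : V → V → V
  deriving DecidableEq, Inhabited

namespace V

/-- Number of leaves plus number of inner nodes. -/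
def size : V → ℕ
  | nil => 1
  | node l r => l.size + r.size + 1

/-- Left subtree (`nil` for `nil`). -/
def left : V → V
  | nil => nil
  | node l _ => l

/-- Right subtree (`nil` for `nil`). -/
def right : V → V
  | nil => nil
  | node _ r => r

/-- Prefix serialisation. -/
def ser : V → List Bool
  | nil => [false]
  | node l r => true :: (l.ser ++ r.ser)

@[simp] theorem size_nil : nil.size = 1 := rfl
@[simp] theorem size_node (l r : V) : (node l r).size = l.size + r.size + 1 := rfl
@[simp] theorem left_nil : nil.left = nil := rfl
@[simp] theorem right_nil : nil.right = nil := rfl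
@[simp] theorem left_node (l r : V) : (node l r).left = l := rfl
@[simp] theorem right_node (l r : V) : (node l r).right = r := rfl
@[simp] theorem ser_nil : nil.ser = [false] := rfl
@[simp] theorem ser_node (l r : V) : (node l r).ser = true :: (l.ser ++ r.ser) := rfl

theorem size_pos (v : V) : 0 < v.size := by cases v <;> simp

theorem one_le_size (v : V) : 1 ≤ v.size := v.size_pos

@[simp] theorem length_ser (v : V) : v.ser.length = v.size := by
  induction v with
  | nil => rfl
  | node l r ihl ihr => simp [ihl, ihr]

theorem size_left_le (v : V) : v.left.size ≤ v.size := by cases v <;> simp; omega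

theorem size_right_le (v : V) : v.right.size ≤ v.size := by cases v <;> simp; omega

end V

/-- Programs. -/
inductive Code : Type
  | nil : Code
  | id : Code
  | fst : Code
  | snd : Code
  | pair : Code → Code → Code
  | comp : Code → Code → Code
  | ite : Code → Code → Code → Code
  | loop : Code → Code

/-- Big-step semantics with cost.  `ite c d e` runs `e` if `c` returns `nil`, else `d`;
`loop c` runs `c`, stops with `w` on a result `node nil w`, and repeats from `v'` on a result
`node (node _ _) v'`. -/
inductive Ev : Code → V → V → ℕ → Prop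
  | nil (v : V) : Ev .nil v .nil v.size
  | id (v : V) : Ev .id v v v.size
  | fst (v : V) : Ev .fst v v.left v.size
  | snd (v : V) : Ev .snd v v.right v.size
  | pair {c d : Code} {v w₁ w₂ : V} {n₁ n₂ : ℕ} :
      Ev c v w₁ n₁ → Ev d v w₂ n₂ → Ev (.pair c d) v (.node w₁ w₂) (n₁ + n₂ + 1)
  | comp {c d : Code} {v u w : V} {n₁ n₂ : ℕ} :
      Ev d v u n₁ → Ev c u w n₂ → Ev (.comp c d) v w (n₁ + n₂)
  | ite_nil {c d e : Code} {v w : V} {n₁ n₂ : ℕ} :
      Ev c v .nil n₁ → Ev e v w n₂ → Ev (.ite c d e) v w (n₁ + n₂)
  | ite_node {c d e : Code} {v x y w : V} {n₁ n₂ : ℕ} :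
      Ev c v (.node x y) n₁ → Ev d v w n₂ → Ev (.ite c d e) v w (n₁ + n₂)
  | loop_stop {c : Code} {v w : V} {n : ℕ} :
      Ev c v (.node .nil w) n → Ev (.loop c) v w n
  | loop_next {c : Code} {v x y v' w : V} {n₁ n₂ : ℕ} :
      Ev c v (.node (.node x y) v') n₁ → Ev (.loop c) v' w n₂ → Ev (.loop c) v w (n₁ + n₂)

theorem Ev.size_out {c : Code} {v w : V} {n : ℕ} (h : Ev c v w n) : w.size ≤ n := by
  induction h with
  | nil v => exact v.one_le_size
  | id v => exact le_rfl
  | fst v => exact v.size_left_le
  | snd v => exact v.size_right_le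
  | pair _ _ ih₁ ih₂ => simp; omega
  | comp _ _ _ ih₂ => omega
  | ite_nil _ _ _ ih₂ => omega
  | ite_node _ _ _ ih₂ => omega
  | loop_stop _ ih => simp at ih; omega
  | loop_next _ _ _ ih₂ => omega

theorem Ev.size_in {c : Code} {v w : V} {n : ℕ} (h : Ev c v w n) : v.size ≤ n := by
  induction h with
  | nil v => exact le_rfl
  | id v => exact le_rfl
  | fst v => exact le_rfl
  | snd v => exact le_rfl
  | pair _ _ ih₁ _ => omega
  | comp _ _ ih₁ _ => omega
  | ite_nil _ _ ih₁ _ => omega
  | ite_node _ _ ih₁ _ => omega
  | loop_stop _ ih => exact ih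
  | loop_next _ _ ih₁ _ => omega

end Crest.Agent.Lib.PolyTime
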