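import Mathlib

/-!
# Structured stack programs and their translation to `Turing.TM2`
-/

namespace Crest.Agent.Lib.PolyTime

open Turing Function

/-- Structured programs over the stacks `Γ` and the register type `σ`;
`loop p b` is `do p while b`. -/
inductive Prog {K : Type} (Γ : K → Type) (σ : Type) : Type
  | push (k : K) (f : σ → Γ k) : Prog Γ σ
  | pop (k : K) (f : σ → Option (Γ k) → σ) : Prog Γ σ
  | load (f : σ → σ) : Prog Γ σ
  | seq (p q : Prog Γ σ) : Prog Γ σ
  | ite (b : σ → Bool) (p q : Prog Γ σ) : Prog Γ σ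
  | loop (p : Prog Γ σ) (b : σ → Bool) : Prog Γ σ

variable {K : Type} {Γ : K → Type} {σ : Type}

/-- Big-step semantics counting machine steps. -/
inductive Exec [DecidableEq K] :
    Prog Γ σ → σ → (∀ k, List (Γ k)) → σ → (∀ k, List (Γ k)) → ℕ → Prop
  | push (k : K) (f : σ → Γ k) (v : σ) (S : ∀ k, List (Γ k)) :
      Exec (.push k f) v S v (update S k (f v :: S k)) 1
  | pop (k : K) (f : σ → Option (Γ k) → σ) (v : σ) (S : ∀ k, List (Γ k)) :
      Exec (.pop k f) v S (f v (S k).head?) (update S k (S k).tail) 1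
  | load (f : σ → σ) (v : σ) (S : ∀ k, List (Γ k)) : Exec (.load f) v S (f v) S 1
  | seq {p q v S v' S' v'' S'' n m} : Exec p v S v' S' n → Exec q v' S' v'' S'' m →
      Exec (.seq p q) v S v'' S'' (n + m)
  | ite_true {b p q v S v' S' n} : b v = true → Exec p v S v' S' n →
      Exec (.ite b p q) v S v' S' (1 + n)
  | ite_false {b p q v S v' S' n} : b v = false → Exec q v S v' S' n →
      Exec (.ite b p q) v S v' S' (1 + n)
  | loop_stop {p b v S v' S' n} : Exec p v S v' S' n → b v' = false →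
      Exec (.loop p b) v S v' S' (n + 1)
  | loop_next {p b v S v' S' v'' S'' n m} : Exec p v S v' S' n → b v' = true →
      Exec (.loop p b) v' S' v'' S'' m → Exec (.loop p b) v S v'' S'' (n + 1 + m)

namespace Prog

/-- Program points. -/
def L : Prog Γ σ → Type
  | push _ _ => Unit
  | pop _ _ => Unit
  | load _ => Unit
  | seq p q => p.L ⊕ q.L
  | ite _ p q => Unit ⊕ (p.L ⊕ q.L)
  | loop p _ => Unit ⊕ p.L

/-- There are finitely many program points. -/
@[reducible] def fintypeL : (p : Prog Γ σ) → Fintype p.L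
  | push _ _ => inferInstanceAs (Fintype Unit)
  | pop _ _ => inferInstanceAs (Fintype Unit)
  | load _ => inferInstanceAs (Fintype Unit)
  | seq p q => @instFintypeSum _ _ p.fintypeL q.fintypeL
  | ite _ p q => @instFintypeSum _ _ _ (@instFintypeSum _ _ p.fintypeL q.fintypeL)
  | loop p _ => @instFintypeSum _ _ _ p.fintypeL

/-- The entry point. -/
def entry : (p : Prog Γ σ) → p.L
  | push _ _ => ()
  | pop _ _ => ()
  | load _ => ()
  | seq p _ => Sum.inl p.entry
  | ite _ _ _ => Sum.inl ()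
  | loop p _ => Sum.inr p.entry

/-- The statement at each program point, given the embedding `e` of program points into labels
and the label `k` to continue with. -/
def tr {Λ : Type} : (p : Prog Γ σ) → (p.L → Λ) → Λ → p.L → TM2.Stmt Γ Λ σ
  | push j f, _, k, _ => .push j f (.goto fun _ => k)
  | pop j f, _, k, _ => .pop j f (.goto fun _ => k)
  | load f, _, k, _ => .load f (.goto fun _ => k)
  | seq p q, e, k, l =>
    match l with
    | Sum.inl l => p.tr (fun x => e (Sum.inl x)) (e (Sum.inr q.entry)) l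
    | Sum.inr l => q.tr (fun x => e (Sum.inr x)) k l
  | ite b p q, e, k, l =>
    match l with
    | Sum.inl _ => .branch b (.goto fun _ => e (Sum.inr (Sum.inl p.entry)))
        (.goto fun _ => e (Sum.inr (Sum.inr q.entry)))
    | Sum.inr (Sum.inl l) => p.tr (fun x => e (Sum.inr (Sum.inl x))) k l
    | Sum.inr (Sum.inr l) => q.tr (fun x => e (Sum.inr (Sum.inr x))) k l
  | loop p b, e, k, l =>
    match l with
    | Sum.inl _ => .branch b (.goto fun _ => e (Sum.inr p.entry)) (.goto fun _ => k)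
    | Sum.inr l => p.tr (fun x => e (Sum.inr x)) (e (Sum.inl ())) l

end Prog

variable [DecidableEq K]

/-- `n` steps of the machine `M` lead from `c` to `c'`. -/
def Steps {Λ : Type} (M : Λ → TM2.Stmt Γ Λ σ) (n : ℕ) (c c' : TM2.Cfg Γ Λ σ) : Prop :=
  (flip bind (TM2.step M))^[n] (some c) = some c'

theorem Steps.trans {Λ : Type} {M : Λ → TM2.Stmt Γ Λ σ} {n m : ℕ} {c c' c'' : TM2.Cfg Γ Λ σ}
    (h : Steps M n c c') (h' : Steps M m c' c'') : Steps M (n + m) c c'' := by
  unfold Steps at *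
  rw [Nat.add_comm, Function.iterate_add_apply, h, h']

theorem Steps.one {Λ : Type} {M : Λ → TM2.Stmt Γ Λ σ} {l : Λ} {v : σ} {S : ∀ k, List (Γ k)}
    {c' : TM2.Cfg Γ Λ σ} (h : TM2.stepAux (M l) v S = c') : Steps M 1 ⟨some l, v, S⟩ c' := by
  subst h; rfl

theorem Exec.steps {p : Prog Γ σ} {v v' : σ} {S S' : ∀ k, List (Γ k)} {n : ℕ}
    (h : Exec p v S v' S' n) {Λ : Type} (M : Λ → TM2.Stmt Γ Λ σ) (e : p.L → Λ) (k : Λ)
    (hM : ∀ l, M (e l) = p.tr e k l) :
    Steps M n ⟨some (e p.entry), v, S⟩ ⟨some k, v', S'⟩ := by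
  induction h generalizing k with
  | push j f v S => exact Steps.one (by rw [hM]; rfl)
  | pop j f v S => exact Steps.one (by rw [hM]; rfl)
  | load f v S => exact Steps.one (by rw [hM]; rfl)
  | seq _ _ ih₁ ih₂ =>
    exact (ih₁ _ _ fun l => hM (Sum.inl l)).trans (ih₂ _ _ fun l => hM (Sum.inr l))
  | ite_true hb _ ih =>
    refine Steps.trans (Steps.one ?_) (ih _ _ fun l => hM (Sum.inr (Sum.inl l)))
    rw [hM]; simp [Prog.tr, Prog.entry, hb]
  | ite_false hb _ ih =>
    refine Steps.trans (Steps.one ?_) (ih _ _ fun l => hM (Sum.inr (Sum.inr l)))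
    rw [hM]; simp [Prog.tr, Prog.entry, hb]
  | loop_stop _ hb ih =>
    refine Steps.trans (ih _ _ fun l => hM (Sum.inr l)) (Steps.one ?_)
    rw [hM]; simp [Prog.tr, hb]
  | loop_next _ hb _ ih₁ ih₂ =>
    refine Steps.trans (Steps.trans (ih₁ _ _ fun l => hM (Sum.inr l)) (Steps.one ?_))
      (ih₂ e k hM)
    rw [hM]; simp [Prog.tr, Prog.entry, hb]

/-- Execution in at most `n` steps. -/
def Ex (p : Prog Γ σ) (v : σ) (S : ∀ k, List (Γ k)) (v' : σ) (S' : ∀ k, List (Γ k)) (n : ℕ) :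
    Prop := ∃ m, m ≤ n ∧ Exec p v S v' S' m

namespace Ex
variable {p q : Prog Γ σ} {b : σ → Bool} {v v' v'' : σ} {S S' S'' : ∀ k, List (Γ k)} {n m : ℕ}

theorem mono (h : Ex p v S v' S' n) (le : n ≤ m) : Ex p v S v' S' m := by
  obtain ⟨j, hj, he⟩ := h
  exact ⟨j, hj.trans le, he⟩

theorem push {k : K} {f : σ → Γ k} (h : update S k (f v :: S k) = S') :
    Ex (.push k f) v S v S' 1 := ⟨1, le_rfl, h ▸ Exec.push k f v S⟩

theorem pop {k : K} {f : σ → Option (Γ k) → σ} (h₁ : f v (S k).head? = v')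
    (h₂ : update S k (S k).tail = S') : Ex (.pop k f) v S v' S' 1 :=
  ⟨1, le_rfl, h₁ ▸ h₂ ▸ Exec.pop k f v S⟩

theorem load (f : σ → σ) : Ex (.load f) v S (f v) S 1 := ⟨1, le_rfl, Exec.load f v S⟩

theorem seq (h : Ex p v S v' S' n) (h' : Ex q v' S' v'' S'' m) :
    Ex (.seq p q) v S v'' S'' (n + m) := by
  obtain ⟨i, hi, he⟩ := h
  obtain ⟨j, hj, he'⟩ := h'
  exact ⟨i + j, by omega, he.seq he'⟩

theorem ite_true (hb : b v = true) (h : Ex p v S v' S' n) :
    Ex (.ite b p q) v S v' S' (1 + n) := by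
  obtain ⟨i, hi, he⟩ := h
  exact ⟨1 + i, by omega, .ite_true hb he⟩

theorem ite_false (hb : b v = false) (h : Ex q v S v' S' n) :
    Ex (.ite b p q) v S v' S' (1 + n) := by
  obtain ⟨i, hi, he⟩ := h
  exact ⟨1 + i, by omega, .ite_false hb he⟩

theorem loop_stop (h : Ex p v S v' S' n) (hb : b v' = false) :
    Ex (.loop p b) v S v' S' (n + 1) := by
  obtain ⟨i, hi, he⟩ := h
  exact ⟨i + 1, by omega, .loop_stop he hb⟩

theorem loop_next (h : Ex p v S v' S' n) (hb : b v' = true)
    (h' : Ex (.loop p b) v' S' v'' S'' m) : Ex (.loop p b) v S v'' S'' (n + 1 + m) := by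
  obtain ⟨i, hi, he⟩ := h
  obtain ⟨j, hj, he'⟩ := h'
  exact ⟨i + 1 + j, by omega, .loop_next he hb he'⟩

end Ex

end Crest.Agent.Lib.PolyTime
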