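import Crest.Agent.Lib.PolyTime.Code
import Crest.Agent.Lib.PolyTime.Prog

/-!
# Compiling `Code` to stack programs
-/

namespace Crest.Agent.Lib.PolyTime

open Turing Function

/-- The six stacks: input, output, main, auxiliary, transfer, counter. -/
inductive SK : Type
  | inp | out | A | B | T | C
  deriving DecidableEq, Fintype

/-- Stack alphabets. -/
abbrev SΓ (I : Type) : SK → Type
  | .inp => I
  | _ => Bool

/-- The register. -/
abbrev Reg : Type := Option (Bool × Bool)

/-- Programs over the six stacks. -/
abbrev SProg (I : Type) : Type := Prog (SΓ I) Reg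

variable {I : Type}

/-- The stack contents as a family. -/
def mkS (i : List I) (o a b t c : List Bool) : ∀ k, List (SΓ I k)
  | .inp => i
  | .out => o
  | .A => a
  | .B => b
  | .T => t
  | .C => c

section mk
variable (i i' : List I) (o a b t c x : List Bool)
@[simp] theorem mkS_inp : mkS i o a b t c .inp = i := rfl
@[simp] theorem mkS_out : mkS i o a b t c .out = o := rfl
@[simp] theorem mkS_A : mkS i o a b t c .A = a := rfl
@[simp] theorem mkS_B : mkS i o a b t c .B = b := rfl
@[simp] theorem mkS_T : mkS i o a b t c .T = t := rfl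
@[simp] theorem mkS_C : mkS i o a b t c .C = c := rfl
theorem upd_inp : update (mkS i o a b t c) .inp i' = mkS i' o a b t c := by
  funext k; cases k <;> rfl
theorem upd_out : update (mkS i o a b t c) .out x = mkS i x a b t c := by
  funext k; cases k <;> rfl
theorem upd_A : update (mkS i o a b t c) .A x = mkS i o x b t c := by
  funext k; cases k <;> rfl
theorem upd_B : update (mkS i o a b t c) .B x = mkS i o a x t c := by
  funext k; cases k <;> rfl
theorem upd_T : update (mkS i o a b t c) .T x = mkS i o a b x c := by
  funext k; cases k <;> rfl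
theorem upd_C : update (mkS i o a b t c) .C x = mkS i o a b t x := by
  funext k; cases k <;> rfl
end mk

/-- Register value after popping a bit. -/
def rd (x : Option Bool) : Reg := x.map fun b => (b, b)

/-- The bit held in the register. -/
def bit1 : Reg → Bool
  | some (b, _) => b
  | none => false

/-- The second bit held in the register. -/
def bit2 : Reg → Bool
  | some (_, b) => b
  | none => false

@[simp] theorem bit1_some (x y : Bool) : bit1 (some (x, y)) = x := rfl
@[simp] theorem bit2_some (x y : Bool) : bit2 (some (x, y)) = y := rfl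

def popA : SProg I := .pop .A fun _ x => rd x
def popB : SProg I := .pop .B fun _ x => rd x
def popT : SProg I := .pop .T fun _ x => rd x
def popC : SProg I := .pop .C fun _ x => rd x
def pushA (f : Reg → Bool) : SProg I := .push .A f
def pushB (f : Reg → Bool) : SProg I := .push .B f
def pushT (f : Reg → Bool) : SProg I := .push .T f
def pushC (f : Reg → Bool) : SProg I := .push .C f
def pushO (f : Reg → Bool) : SProg I := .push .out f
def skip : SProg I := .load id

section prim
variable {i : List I} {o a b t c : List Bool} {v : Reg} {f : Reg → Bool}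
theorem ex_popA : Ex popA v (mkS i o a b t c) (rd a.head?) (mkS i o a.tail b t c) 1 :=
  Ex.pop rfl (upd_A ..)
theorem ex_popB : Ex popB v (mkS i o a b t c) (rd b.head?) (mkS i o a b.tail t c) 1 :=
  Ex.pop rfl (upd_B ..)
theorem ex_popT : Ex popT v (mkS i o a b t c) (rd t.head?) (mkS i o a b t.tail c) 1 :=
  Ex.pop rfl (upd_T ..)
theorem ex_popC : Ex popC v (mkS i o a b t c) (rd c.head?) (mkS i o a b t c.tail) 1 :=
  Ex.pop rfl (upd_C ..)
theorem ex_pushA : Ex (pushA f) v (mkS i o a b t c) v (mkS i o (f v :: a) b t c) 1 :=
  Ex.push (upd_A ..)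
theorem ex_pushB : Ex (pushB f) v (mkS i o a b t c) v (mkS i o a (f v :: b) t c) 1 :=
  Ex.push (upd_B ..)
theorem ex_pushT : Ex (pushT f) v (mkS i o a b t c) v (mkS i o a b (f v :: t) c) 1 :=
  Ex.push (upd_T ..)
theorem ex_pushC : Ex (pushC f) v (mkS i o a b t c) v (mkS i o a b t (f v :: c)) 1 :=
  Ex.push (upd_C ..)
theorem ex_pushO : Ex (pushO f) v (mkS i o a b t c) v (mkS i (f v :: o) a b t c) 1 :=
  Ex.push (upd_out ..)
theorem ex_skip {S : ∀ k, List (SΓ I k)} : Ex skip v S v S 1 := Ex.load id
end prim

/-- Empty the transfer stack, applying `act` to every bit. -/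
def flush (act : SProg I) : SProg I :=
  .loop (.seq popT (.ite Option.isSome act skip)) Option.isSome

theorem ex_flush {act : SProg I} {go ga gb : Bool → List Bool → List Bool} {i : List I}
    {c : List Bool}
    (hact : ∀ x o a b t, Ex act (rd (some x)) (mkS i o a b t c) (rd (some x))
      (mkS i (go x o) (ga x a) (gb x b) t c) 2) (t : List Bool) :
    ∀ (o a b : List Bool) (v : Reg), Ex (flush act) v (mkS i o a b t c) none
      (mkS i (t.foldl (fun s x => go x s) o) (t.foldl (fun s x => ga x s) a)
        (t.foldl (fun s x => gb x s) b) [] c) (5 * (t.length + 1)) := by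
  induction t with
  | nil =>
    intro o a b v
    exact (Ex.loop_stop (ex_popT.seq (Ex.ite_false rfl ex_skip)) rfl).mono (by simp)
  | cons x t ih =>
    intro o a b v
    exact (Ex.loop_next (ex_popT.seq (Ex.ite_true rfl (hact x o a b t))) rfl
      (ih _ _ _ _)).mono (by simp; omega)

theorem foldl_keep (t s : List Bool) : t.foldl (fun s _ => s) s = s := by
  induction t <;> simp_all

theorem foldl_cons' (t s : List Bool) : t.foldl (fun s x => x :: s) s = t.reverse ++ s := by
  induction t generalizing s <;> simp_all

def flushA : SProg I := flush (pushA bit1)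
def flushB : SProg I := flush (pushB bit1)
def flushO : SProg I := flush (pushO bit1)
def flushAB : SProg I := flush (.seq (pushA bit1) (pushB bit1))
def clearT : SProg I := flush skip

section flushes
variable {i : List I} {o a b t c : List Bool} {v : Reg}

theorem ex_flushA : Ex flushA v (mkS i o a b t c) none (mkS i o (t.reverse ++ a) b [] c)
    (5 * (t.length + 1)) := by
  have := ex_flush (I := I) (i := i) (c := c) (act := pushA bit1) (go := fun _ s => s)
    (ga := fun x s => x :: s) (gb := fun _ s => s)
    (fun x o a b t => ex_pushA.mono (by omega)) t o a b v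
  rwa [foldl_keep, foldl_keep, foldl_cons'] at this

theorem ex_flushB : Ex flushB v (mkS i o a b t c) none (mkS i o a (t.reverse ++ b) [] c)
    (5 * (t.length + 1)) := by
  have := ex_flush (I := I) (i := i) (c := c) (act := pushB bit1) (go := fun _ s => s)
    (ga := fun _ s => s) (gb := fun x s => x :: s)
    (fun x o a b t => ex_pushB.mono (by omega)) t o a b v
  rwa [foldl_keep, foldl_keep, foldl_cons'] at this

theorem ex_flushO : Ex flushO v (mkS i o a b t c) none (mkS i (t.reverse ++ o) a b [] c)
    (5 * (t.length + 1)) := by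
  have := ex_flush (I := I) (i := i) (c := c) (act := pushO bit1) (go := fun x s => x :: s)
    (ga := fun _ s => s) (gb := fun _ s => s)
    (fun x o a b t => ex_pushO.mono (by omega)) t o a b v
  rwa [foldl_keep, foldl_keep, foldl_cons'] at this

theorem ex_flushAB : Ex flushAB v (mkS i o a b t c) none
    (mkS i o (t.reverse ++ a) (t.reverse ++ b) [] c) (5 * (t.length + 1)) := by
  have := ex_flush (I := I) (i := i) (c := c) (act := .seq (pushA bit1) (pushB bit1))
    (go := fun _ s => s) (ga := fun x s => x :: s) (gb := fun x s => x :: s)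
    (fun x o a b t => ex_pushA.seq ex_pushB) t o a b v
  rwa [foldl_keep, foldl_cons', foldl_cons'] at this

theorem ex_clearT : Ex clearT v (mkS i o a b t c) none (mkS i o a b [] c)
    (5 * (t.length + 1)) := by
  have := ex_flush (I := I) (i := i) (c := c) (act := skip)
    (go := fun _ s => s) (ga := fun _ s => s) (gb := fun _ s => s)
    (fun x o a b t => ex_skip.mono (by omega)) t o a b v
  rwa [foldl_keep, foldl_keep, foldl_keep] at this

end flushes

/-- Move one serialised tree from the stack popped by `pp` to the transfer stack (reversed). -/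
def scan (pp : SProg I) : SProg I :=
  .loop (.seq pp (.seq (pushT bit1) (.ite bit1 (pushC fun _ => true) popC))) Option.isSome

theorem ex_scan {pp : SProg I} {i : List I} {o : List Bool} {fa fb : List Bool → List Bool}
    (hpp : ∀ v x t c, Ex pp v (mkS i o (fa x) (fb x) t c) (rd x.head?)
      (mkS i o (fa x.tail) (fb x.tail) t c) 1) (rest : List Bool) :
    ∀ (n : ℕ) (w : V) (ws : List V), w.size + (ws.map V.size).sum ≤ n → ∀ (v : Reg) (t : List Bool),
      Ex (scan pp) v
        (mkS i o (fa (w.ser ++ (ws.flatMap V.ser ++ rest))) (fb (w.ser ++ (ws.flatMap V.ser ++ rest)))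
          t (List.replicate ws.length true)) none
        (mkS i o (fa rest) (fb rest) ((w.ser ++ ws.flatMap V.ser).reverse ++ t) []) (5 * n) := by
  intro n
  induction n with
  | zero => intro w ws h; have := w.size_pos; omega
  | succ n ih =>
    intro w ws h v t
    cases w with
    | nil =>
      cases ws with
      | nil =>
        exact (Ex.loop_stop ((hpp _ _ _ _).seq (ex_pushT.seq (Ex.ite_false rfl ex_popC)))
          rfl).mono (by omega)
      | cons w ws =>
        have h1 := ih w ws (by simp at h; omega) (rd (some true)) (false :: t)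
        have h2 := Ex.loop_next ((hpp v (V.nil.ser ++ ((w :: ws).flatMap V.ser ++ rest)) t
          (List.replicate (w :: ws).length true)).seq
          (ex_pushT.seq (Ex.ite_false (p := pushC fun _ => true) rfl ex_popC))) (b := Option.isSome)
          rfl (by simp [rd, List.replicate_succ] at h1 ⊢; exact h1)
        refine Ex.mono ?_ (show 1 + (1 + (1 + 1)) + 1 + 5 * n ≤ 5 * (n + 1) by omega)
        simpa [scan] using h2
    | node l r =>
      have h1 := ih l (r :: ws) (by simp at h ⊢; omega) (rd (some true)) (true :: t)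
      have h2 := Ex.loop_next ((hpp v ((V.node l r).ser ++ (ws.flatMap V.ser ++ rest)) t
        (List.replicate ws.length true)).seq
        (ex_pushT.seq (Ex.ite_true (q := popC) rfl (ex_pushC (f := fun _ => true)))))
        (b := Option.isSome) rfl (by simp [rd, List.replicate_succ] at h1 ⊢; exact h1)
      refine Ex.mono ?_ (show 1 + (1 + (1 + 1)) + 1 + 5 * n ≤ 5 * (n + 1) by omega)
      simpa [scan] using h2

section scans
variable {i : List I} {o a b t : List Bool} {v : Reg} {w : V}

theorem ex_scanA : Ex (scan popA) v (mkS i o (w.ser ++ a) b t []) none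
    (mkS i o a b (w.ser.reverse ++ t) []) (5 * w.size) := by
  simpa using ex_scan (I := I) (i := i) (o := o) (pp := popA) (fa := id) (fb := fun _ => b)
    (fun _ _ _ _ => ex_popA) a w.size w [] (by simp) v t

theorem ex_scanB : Ex (scan popB) v (mkS i o a (w.ser ++ b) t []) none
    (mkS i o a b (w.ser.reverse ++ t) []) (5 * w.size) := by
  simpa using ex_scan (I := I) (i := i) (o := o) (pp := popB) (fa := fun _ => a) (fb := id)
    (fun _ _ _ _ => ex_popB) b w.size w [] (by simp) v t

end scans

def dropA : SProg I := .seq (scan popA) clearT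
def toB : SProg I := .seq (scan popA) flushB
def fromB : SProg I := .seq (scan popB) flushA
def dup : SProg I := .seq (.seq (scan popA) flushAB) fromB

/-- Working configurations: only the main and auxiliary stacks are non-empty. -/
abbrev W (a b : List Bool) : ∀ k, List (SΓ I k) := mkS [] [] a b [] []

section values
variable {a b : List Bool} {v : Reg} {w : V}

theorem ex_dropA : Ex (dropA (I := I)) v (W (w.ser ++ a) b) none (W a b) (15 * w.size) := by
  have := w.size_pos
  exact (ex_scanA.seq ex_clearT).mono (by simp; omega)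

theorem ex_toB : Ex (toB (I := I)) v (W (w.ser ++ a) b) none (W a (w.ser ++ b)) (15 * w.size) := by
  have := w.size_pos
  have h := (ex_scanA (I := I) (i := []) (o := []) (a := a) (b := b) (t := []) (v := v)
    (w := w)).seq ex_flushB
  simp only [List.append_nil, List.reverse_reverse, List.length_reverse, V.length_ser] at h
  exact h.mono (by omega)

theorem ex_fromB : Ex (fromB (I := I)) v (W a (w.ser ++ b)) none (W (w.ser ++ a) b)
    (15 * w.size) := by
  have := w.size_pos
  have h := (ex_scanB (I := I) (i := []) (o := []) (a := a) (b := b) (t := []) (v := v)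
    (w := w)).seq ex_flushA
  simp only [List.append_nil, List.reverse_reverse, List.length_reverse, V.length_ser] at h
  exact h.mono (by omega)

theorem ex_dup : Ex (dup (I := I)) v (W (w.ser ++ a) b) none (W (w.ser ++ (w.ser ++ a)) b)
    (30 * w.size) := by
  have := w.size_pos
  have h := (ex_scanA (I := I) (i := []) (o := []) (a := a) (b := b) (t := []) (v := v)
    (w := w)).seq ex_flushAB
  simp only [List.append_nil, List.reverse_reverse, List.length_reverse, V.length_ser] at h
  exact (h.seq ex_fromB).mono (by omega)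

end values

/-- The compiler. -/
def compile : Code → SProg I
  | .nil => .seq dropA (pushA fun _ => false)
  | .id => skip
  | .fst => .seq popA (.ite bit1 (.seq toB (.seq dropA fromB)) (pushA fun _ => false))
  | .snd => .seq popA (.ite bit1 dropA (pushA fun _ => false))
  | .pair c d => .seq dup (.seq (compile c) (.seq toB (.seq (compile d)
      (.seq fromB (pushA fun _ => true)))))
  | .comp c d => .seq (compile d) (compile c)
  | .ite c d e => .seq dup (.seq (compile c) (.seq popA
      (.ite bit1 (.seq dropA (.seq dropA (compile d))) (compile e))))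
  | .loop c => .loop (.seq (compile c) (.seq popA (.seq popA
      (.ite bit1 (.seq dropA (.seq dropA (.load fun _ => some (true, true))))
        (.load fun _ => none))))) Option.isSome

/-- The constant relating cost and machine steps. -/
def Code.K : Code → ℕ
  | .nil => 100
  | .id => 100
  | .fst => 100
  | .snd => 100
  | .pair c d => c.K + d.K + 100
  | .comp c d => c.K + d.K
  | .ite c d e => c.K + d.K + e.K + 100
  | .loop c => c.K + 100

theorem Ev.ex {c : Code} {w w' : V} {n : ℕ} (h : Ev c w w' n) :
    ∀ (a b : List Bool) (v : Reg), ∃ v', Ex (compile (I := I) c) v (W (w.ser ++ a) b) v'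
      (W (w'.ser ++ a) b) (c.K * n) := by
  induction h with
  | nil w =>
    intro a b v
    have := w.size_pos
    exact ⟨_, (ex_dropA.seq ex_pushA).mono (by simp [Code.K]; omega)⟩
  | id w =>
    intro a b v
    have := w.size_pos
    exact ⟨_, ex_skip.mono (by simp [Code.K]; omega)⟩
  | fst w =>
    intro a b v
    cases w with
    | nil => exact ⟨_, (ex_popA.seq (Ex.ite_false rfl ex_pushA)).mono (by simp [Code.K])⟩
    | node l r =>
      refine ⟨none, Ex.mono (ex_popA.seq (Ex.ite_true rfl ?_)) (show 1 + (1 + (15 * l.size +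
        (15 * r.size + 15 * l.size))) ≤ _ by simp [Code.K]; omega)⟩
      simpa using ex_toB.seq (ex_dropA.seq ex_fromB)
  | snd w =>
    intro a b v
    cases w with
    | nil => exact ⟨_, (ex_popA.seq (Ex.ite_false rfl ex_pushA)).mono (by simp [Code.K])⟩
    | node l r =>
      refine ⟨none, Ex.mono (ex_popA.seq (Ex.ite_true rfl ?_)) (show 1 + (1 + (15 * l.size)) ≤ _ by
        simp [Code.K]; omega)⟩
      simpa using ex_dropA
  | @pair c d w w₁ w₂ n₁ n₂ h₁ h₂ ih₁ ih₂ =>
    intro a b v
    obtain ⟨v₁, e₁⟩ := ih₁ (w.ser ++ a) b none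
    obtain ⟨v₂, e₂⟩ := ih₂ a (w₁.ser ++ b) none
    have s₁ := h₁.size_in
    have s₂ := h₁.size_out
    refine ⟨none, Ex.mono ?_ (show 30 * w.size + (c.K * n₁ + (15 * w₁.size + (d.K * n₂ +
      (15 * w₁.size + 1)))) ≤ _ by simp only [Code.K]; nlinarith)⟩
    simpa [compile] using ex_dup.seq (e₁.seq (ex_toB.seq (e₂.seq (ex_fromB.seq
      (ex_pushA (f := fun _ => true))))))
  | @comp c d w u w' n₁ n₂ h₁ h₂ ih₁ ih₂ =>
    intro a b v
    obtain ⟨v₁, e₁⟩ := ih₁ a b v
    obtain ⟨v₂, e₂⟩ := ih₂ a b v₁
    exact ⟨v₂, (e₁.seq e₂).mono (by simp only [Code.K]; nlinarith)⟩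
  | @ite_nil c d e w w' n₁ n₂ h₁ h₂ ih₁ ih₂ =>
    intro a b v
    obtain ⟨v₁, e₁⟩ := ih₁ (w.ser ++ a) b none
    obtain ⟨v₂, e₂⟩ := ih₂ a b (rd (some false))
    have s₁ := h₁.size_in
    have s₂ := w.size_pos
    exact ⟨v₂, (ex_dup.seq (e₁.seq (ex_popA.seq (Ex.ite_false rfl e₂)))).mono
      (by simp only [Code.K]; nlinarith)⟩
  | @ite_node c d e w x y w' n₁ n₂ h₁ h₂ ih₁ ih₂ =>
    intro a b v
    obtain ⟨v₁, e₁⟩ := ih₁ (w.ser ++ a) b none
    obtain ⟨v₂, e₂⟩ := ih₂ a b none
    have s₁ := h₁.size_in
    have s₂ := h₁.size_out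
    have s₃ := w.size_pos
    simp only [V.size_node] at s₂
    refine ⟨v₂, Ex.mono (ex_dup.seq (e₁.seq (ex_popA.seq (Ex.ite_true rfl ?_))))
      (show 30 * w.size + (c.K * n₁ + (1 + (1 + (15 * x.size + (15 * y.size + d.K * n₂))))) ≤ _ by
        simp only [Code.K]; nlinarith)⟩
    simpa using ex_dropA.seq (ex_dropA.seq e₂)
  | @loop_stop c w w' n h ih =>
    intro a b v
    obtain ⟨v₁, e₁⟩ := ih a b v
    have s₁ := h.size_in
    have s₃ := w.size_pos
    exact ⟨none, (Ex.loop_stop (e₁.seq (ex_popA.seq (ex_popA.seq (Ex.ite_false rfl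
      (Ex.load _))))) rfl).mono (by simp only [Code.K]; nlinarith)⟩
  | @loop_next c w x y w₁ w' n₁ n₂ h₁ h₂ ih₁ ih₂ =>
    intro a b v
    obtain ⟨v₁, e₁⟩ := ih₁ a b v
    obtain ⟨v₂, e₂⟩ := ih₂ a b (some (true, true))
    have s₂ := h₁.size_out
    simp only [V.size_node] at s₂
    have s₃ := x.size_pos
    refine ⟨v₂, Ex.mono (Ex.loop_next (e₁.seq (ex_popA.seq (ex_popA.seq (Ex.ite_true rfl ?_))))
      rfl e₂) (show c.K * n₁ + (1 + (1 + (1 + (15 * x.size + (15 * y.size + 1))))) + 1 +
        (Code.loop c).K * n₂ ≤ _ by simp only [Code.K]; nlinarith)⟩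
    simpa using ex_dropA.seq (ex_dropA.seq (Ex.load fun _ => some (true, true)))

end Crest.Agent.Lib.PolyTime
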