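import Crest.Agent.Lib.PolyTime.Int

/-!
# `Poly`: unary numbers, dependent pairs, loops over `Fin (n a)`, recursion principles
-/

namespace Crest.Agent.Lib.PolyTime

/-- A natural number written in unary: `u.n` is both `Poly` and `PB`. -/
structure Un where
  n : ℕ
  deriving DecidableEq

instance : PEnc Un := PEnc.ofInj (fun u : Un => List.replicate u.n ()) (by
  rintro ⟨m⟩ ⟨n⟩ h
  simpa using h)

theorem enc_un (u : Un) : enc u = enc (List.replicate u.n ()) := rfl

theorem sz_un (u : Un) : sz u = 2 * u.n + 1 := by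
  obtain ⟨n⟩ := u
  change sz (List.replicate n ()) = 2 * n + 1
  induction n with
  | zero => rfl
  | succ n ih => rw [List.replicate_succ, sz_cons, ih]; simp; omega

instance {α : Type*} {β : α → Type*} [PEnc α] [∀ a, PEnc (β a)] : PEnc (Σ a, β a) :=
  ⟨fun p => .node (enc p.1) (enc p.2), by
    rintro ⟨a, b⟩ ⟨c, d⟩ h
    simp only [V.node.injEq, enc_inj] at h
    obtain ⟨rfl, h⟩ := h
    rw [enc_inj.1 h]⟩

theorem enc_sigma {α : Type*} {β : α → Type*} [PEnc α] [∀ a, PEnc (β a)] (p : Σ a, β a) :
    enc p = .node (enc p.1) (enc p.2) := rfl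

theorem sz_sigma {α : Type*} {β : α → Type*} [PEnc α] [∀ a, PEnc (β a)] (p : Σ a, β a) :
    sz p = sz p.1 + sz p.2 + 1 := rfl

theorem enc_map_congr {β γ δ : Type*} [PEnc γ] [PEnc δ] {l : List β} {f : β → γ} {g : β → δ}
    (h : ∀ x ∈ l, enc (f x) = enc (g x)) : enc (l.map f) = enc (l.map g) := by
  induction l with
  | nil => rfl
  | cons x xs ih =>
    simp only [List.map_cons, enc_cons]
    rw [h x (by simp), ih fun y hy => h y (by simp [hy])]

theorem ofFn_eq_map_range {β : Type*} (n : ℕ) (F : ℕ → β) :
    (List.ofFn fun i : Fin n => F i) = (List.range n).map F := by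
  apply List.ext_getElem <;> simp

namespace PB
variable {α β : Type*} [PEnc α] [PEnc β]

@[fun_prop] theorem unVal {u : α → Un} (hu : Poly u) : PB fun a => (u a).n :=
  hu.pb_sz.mono fun a => by rw [sz_un]; omega

@[fun_prop] theorem finVal {n : α → ℕ} {i : ∀ a, Fin (n a)} (hn : PB n) :
    PB fun a => (i a : ℕ) := hn.mono fun a => (i a).2.le

@[fun_prop] theorem min_left {g : α → ℕ} (hg : PB g) (h : α → ℕ) : PB fun a => min (g a) (h a) :=
  hg.mono fun _ => Nat.min_le_left _ _

@[fun_prop] theorem min_right {h : α → ℕ} (g : α → ℕ) (hh : PB h) :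
    PB fun a => min (g a) (h a) := hh.mono fun _ => Nat.min_le_right _ _

@[fun_prop] theorem mod_left {g : α → ℕ} (hg : PB g) (h : α → ℕ) : PB fun a => g a % h a :=
  hg.mono fun _ => Nat.mod_le _ _

@[fun_prop] theorem ite {p : α → Prop} [DecidablePred p] {g h : α → ℕ} (hg : PB g) (hh : PB h) :
    PB fun a => if p a then g a else h a :=
  (hg.add hh).mono fun a => by split_ifs <;> omega

@[fun_prop] theorem cond {c : α → Bool} {g h : α → ℕ} (hg : PB g) (hh : PB h) :
    PB fun a => bif c a then g a else h a :=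
  (hg.add hh).mono fun a => by cases c a <;> simp

@[fun_prop] theorem sqrt {g : α → ℕ} (hg : PB g) : PB fun a => (g a).sqrt :=
  hg.mono fun _ => Nat.sqrt_le_self _

@[fun_prop] theorem countP {l : α → List β} (hl : Poly l) (f : α → β → Bool) :
    PB fun a => (l a).countP (f a) := (length hl).mono fun _ => List.countP_le_length

@[fun_prop] theorem count [BEq β] {l : α → List β} (x : α → β) (hl : Poly l) :
    PB fun a => (l a).count (x a) := (length hl).mono fun _ => List.count_le_length

@[fun_prop] theorem findIdx {l : α → List β} (hl : Poly l) (f : α → β → Bool) :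
    PB fun a => (l a).findIdx (f a) := (length hl).mono fun _ => List.findIdx_le_length

@[fun_prop] theorem idxOf [BEq β] {l : α → List β} (x : α → β) (hl : Poly l) :
    PB fun a => (l a).idxOf (x a) := (length hl).mono fun _ => List.findIdx_le_length

/-- `2 ^ log₂ g` is at most `g`. -/
theorem two_pow_log {g : α → ℕ} (hg : PB g) : PB fun a => 2 ^ Nat.log 2 (g a) :=
  (hg.add (const 1)).mono fun a => by
    rcases Nat.eq_zero_or_pos (g a) with h | h
    · simp [h]
    · exact (Nat.pow_log_le_self 2 h.ne').trans (Nat.le_succ _)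

end PB

namespace Poly
variable {α β γ δ : Type*} [PEnc α] [PEnc β] [PEnc γ] [PEnc δ]

@[fun_prop] theorem unVal {u : α → Un} (hu : Poly u) : Poly fun a => (u a).n :=
  (hu.of_enc (f := fun a => List.replicate (u a).n ()) fun _ => rfl).length.congr fun _ => by simp

@[fun_prop] theorem unMk {n : α → ℕ} (hn : Poly n) (hb : PB n) : Poly fun a => Un.mk (n a) :=
  (replicate hn hb (const ())).of_enc fun _ => rfl

/-! ### Dependent pairs -/

@[fun_prop] theorem sigmaFst {φ : β → Type*} [∀ b, PEnc (φ b)] {g : α → Σ b, φ b} (hg : Poly g) :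
    Poly fun a => (g a).1 := hg.enc'.left.of_enc fun _ => rfl

theorem sigmaSnd_enc {φ : β → Type*} [∀ b, PEnc (φ b)] {g : α → Σ b, φ b} (hg : Poly g) :
    Poly fun a => enc (g a).2 := hg.enc'.right.of_enc fun _ => rfl

@[fun_prop] theorem sigmaSnd {g : α → Σ _ : β, γ} (hg : Poly g) : Poly fun a => (g a).2 :=
  hg.enc'.right.of_enc fun _ => rfl

@[fun_prop] theorem sigmaFinVal {n : β → ℕ} {g : α → Σ b, Fin (n b)} (hg : Poly g) :
    Poly fun a => ((g a).2 : ℕ) := hg.enc'.right.of_enc fun _ => rfl

theorem sigmaMk {φ : β → Type*} [∀ b, PEnc (φ b)] {f : α → β} {g : ∀ a, φ (f a)} (hf : Poly f)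
    (hg : Poly fun a => enc (g a)) : Poly fun a => (⟨f a, g a⟩ : Σ b, φ b) :=
  (hf.pair hg).of_enc fun _ => rfl

/-! ### Loops that know where their variable comes from -/

/-- `List.map` where the body need only be polynomial on members of the list. -/
theorem map_mem {l : α → List β} {f : α → β → γ} (hl : Poly l)
    (hf : Poly fun p : {p : α × β // p.2 ∈ l p.1} => f p.1.1 p.1.2) :
    Poly fun a => (l a).map (f a) := by
  have h : Poly fun a => (l a).attach.map fun x => (⟨(a, x.1), x.2⟩ : {p : α × β // p.2 ∈ l p.1}) :=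
    (hl.map (f := fun a x => (a, x)) (by fun_prop)).of_enc fun a => by
      conv_lhs => rw [← List.attach_map_subtype_val (l a), List.map_map]
      exact enc_map_congr fun _ _ => rfl
  refine (h.map (f := fun _ p => f p.1.1 p.1.2) (hf.comp (snd id'))).congr fun a => ?_
  conv_rhs => rw [← List.attach_map_subtype_val (l a), List.map_map]
  rw [List.map_map]; rfl

/-- `List.ofFn` over `Fin (n a)`; the body is a function of the dependent pair. -/
@[fun_prop] theorem ofFn {n : α → ℕ} {f : ∀ a, Fin (n a) → β} (hn : Poly n) (hb : PB n)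
    (hf : Poly fun p : Σ a, Fin (n a) => f p.1 p.2) : Poly fun a => List.ofFn (f a) := by
  have h : Poly fun a => (List.finRange (n a)).map fun i => (⟨a, i⟩ : Σ a, Fin (n a)) :=
    ((hn.range hb).map (f := fun a x => (a, x)) (by fun_prop)).of_enc fun a => by
      rw [← List.map_coe_finRange_eq_range, List.map_map]
      exact enc_map_congr fun _ _ => rfl
  refine (h.map (f := fun _ p => f p.1 p.2) (hf.comp (snd id'))).congr fun a => ?_
  rw [List.map_map, List.ofFn_eq_map]; rfl

@[fun_prop] theorem map_finRange {n : α → ℕ} {f : ∀ a, Fin (n a) → β} (hn : Poly n) (hb : PB n)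
    (hf : Poly fun p : Σ a, Fin (n a) => f p.1 p.2) :
    Poly fun a => (List.finRange (n a)).map (f a) :=
  (ofFn hn hb hf).congr fun _ => List.ofFn_eq_map

/-- `List.map` over a range with the loop variable in unary. -/
@[fun_prop] theorem map_range {n : α → ℕ} {f : α → ℕ → β} (hn : Poly n) (hb : PB n)
    (hf : Poly fun p : α × Un => f p.1 p.2.n) : Poly fun a => (List.range (n a)).map (f a) :=
  (ofFn (f := fun a i => f a i) hn hb (hf.comp
    (g := fun p : Σ a, Fin (n a) => (p.1, Un.mk p.2)) (by fun_prop))).congr fun _ =>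
      ofFn_eq_map_range _ _

/-- The list of the unary numbers below `n a`. -/
theorem urange {n : α → ℕ} (hn : Poly n) (hb : PB n) :
    Poly fun a => (List.range (n a)).map Un.mk :=
  map_range (f := fun _ => Un.mk) hn hb (snd id')

theorem decide_forall_fin {n : α → ℕ} {p : ∀ a, Fin (n a) → Prop} [∀ a i, Decidable (p a i)]
    (hn : Poly n) (hb : PB n) (hp : Poly fun x : Σ a, Fin (n a) => decide (p x.1 x.2))
    [inst : ∀ a, Decidable (∀ i, p a i)] : Poly fun a => decide (∀ i, p a i) :=
  ((ofFn (f := fun a i => decide (p a i)) hn hb hp).all (f := fun _ b => b) (snd id')).congr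
    fun a => by rw [Bool.eq_iff_iff]; simp [List.mem_ofFn']

@[fun_prop] theorem decide_exists_fin {n : α → ℕ} {p : ∀ a, Fin (n a) → Prop}
    [∀ a i, Decidable (p a i)] (hn : Poly n) (hb : PB n)
    (hp : Poly fun x : Σ a, Fin (n a) => decide (p x.1 x.2))
    [inst : ∀ a, Decidable (∃ i, p a i)] : Poly fun a => decide (∃ i, p a i) :=
  ((ofFn (f := fun a i => decide (p a i)) hn hb hp).any (f := fun _ b => b) (snd id')).congr
    fun a => by rw [Bool.eq_iff_iff]; simp [List.mem_ofFn']

/-- Look up an entry of a vector given as the list of its entries. -/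
theorem app_fin {n : α → ℕ} {t : ∀ a, Fin (n a) → β} {i : ∀ a, Fin (n a)}
    (ht : Poly fun a => List.ofFn (t a)) (hi : Poly fun a => (i a : ℕ)) :
    Poly fun a => t a (i a) :=
  ((ht.getElem? hi).enc'.left).of_enc fun a => by simp

/-! ### Recursion principles -/

/-- Structural recursion on a list, with access to the tail. -/
theorem listRec {l : α → List β} {f : α → List β → γ} {g : α → γ} {h : α → β → List β → γ → γ}
    (hl : Poly l) (hg : Poly g) (hh : Poly fun p : α × β × List β × γ => h p.1 p.2.1 p.2.2.1 p.2.2.2)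
    (h0 : ∀ a, f a [] = g a) (hs : ∀ a x xs, f a (x :: xs) = h a x xs (f a xs)) {B : α → ℕ}
    (hB : PB B) (hb : ∀ a l₁, l₁ <:+ l a → sz (f a l₁) ≤ B a) : Poly fun a => f a (l a) := by
  have key : ∀ a (l : List β), l.foldr (fun x s => (x :: s.1, h a x s.1 s.2)) ([], g a) =
      (l, f a l) := by
    intro a l
    induction l with
    | nil => simp [h0]
    | cons x xs ih => simp [ih, hs]
  refine (foldr (h := fun a x (s : List β × γ) => (x :: s.1, h a x s.1 s.2)) hl
    ((const []).pair hg) ?_ (B := fun a => sz (l a) + B a + 1) (by fun_prop)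
    fun a l₁ h₁ => ?_).snd.congr fun a => by rw [key]
  · have := hh.comp (g := fun p : α × β × List β × γ => (p.1, p.2.1, p.2.2.1, p.2.2.2)) (by fun_prop)
    fun_prop
  · rw [key, sz_pair]
    have := sz_le_of_sublist h₁.sublist
    have := hb a l₁ h₁
    omega

/-- Course-of-values recursion on a list: the step sees the values on all suffixes of the tail
(longest first). -/
theorem listStrongRec {l : α → List β} {f : α → List β → γ} {h : α → List β → List γ → γ}
    (hl : Poly l) (hh : Poly fun p : α × List β × List γ => h p.1 p.2.1 p.2.2)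
    (hs : ∀ a xs, f a xs = h a xs ((xs.tails.map (f a)).tail)) {B : α → ℕ}
    (hB : PB B) (hb : ∀ a l₁, l₁ <:+ l a → sz (f a l₁) ≤ B a) : Poly fun a => f a (l a) := by
  have := listRec (f := fun a xs => xs.tails.map (f a)) (g := fun a => [h a [] []])
    (h := fun a x xs r => h a (x :: xs) r :: r) hl
    ((hh.comp (g := fun a => (a, [], [])) (by fun_prop)).cons (const []))
    ((hh.comp (g := fun p : α × β × List β × List γ => (p.1, p.2.1 :: p.2.2.1, p.2.2.2))
      (by fun_prop)).cons (by fun_prop))
    (fun a => by rw [List.tails, List.map_singleton, hs]; rfl)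
    (fun a x xs => by rw [List.tails_cons, List.map_cons, hs]; simp)
    (B := fun a => ((l a).length + 1) * (B a + 1) + 1) (by fun_prop) fun a l₁ h₁ => by
      refine (sz_list_le (B := B a) fun y hy => ?_).trans ?_
      · obtain ⟨t, ht, rfl⟩ := List.mem_map.1 hy
        exact hb a t (((List.mem_tails _ _).1 ht).trans h₁)
      · have := h₁.length_le
        simp only [List.length_map, List.length_tails]
        gcongr
  refine this.head?.enc'.left.of_enc fun a => ?_
  cases l a <;> simp

/-- Primitive recursion with a unary counter, for a function given by its equations. -/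
theorem natRec' {n : α → ℕ} {f : α → ℕ → γ} {g : α → γ} {h : α → ℕ → γ → γ} (hn : Poly n)
    (hb : PB n) (hg : Poly g) (hh : Poly fun p : α × Un × γ => h p.1 p.2.1.n p.2.2)
    (h0 : ∀ a, f a 0 = g a) (hs : ∀ a i, i < n a → f a (i + 1) = h a i (f a i)) {B : α → ℕ}
    (hB : PB B) (hsz : ∀ a i, i ≤ n a → sz (f a i) ≤ B a) : Poly fun a => f a (n a) := by
  have key : ∀ a i, i ≤ n a →
      ((List.range i).map Un.mk).foldl (fun s j => h a j.n s) (g a) = f a i := by
    intro a i
    induction i with
    | zero => intro _; simp [h0]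
    | succ i ih =>
      intro hi
      rw [List.range_succ, List.map_append, List.foldl_append, ih (by omega), hs a i hi]; rfl
  refine (foldl (h := fun a s (j : Un) => h a j.n s) (urange hn hb) hg
    (comp hh (g := fun p : α × γ × Un => (p.1, p.2.2, p.2.1)) (by fun_prop)) hB
    fun a l hl => ?_).congr fun a => key a _ le_rfl
  have h2 := hl.length_le
  rw [List.length_map, List.length_range] at h2
  rw [List.prefix_iff_eq_take.1 hl, ← List.map_take, List.take_range, Nat.min_eq_left h2,
    key a _ h2]
  exact hsz a _ h2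

/-- Course-of-values recursion (dynamic programming): the table of all values below `n a`. -/
theorem natStrongRec_table {n : α → ℕ} {f : α → ℕ → γ} {h : α → ℕ → List γ → γ} (hn : Poly n)
    (hb : PB n) (hh : Poly fun p : α × Un × List γ => h p.1 p.2.1.n p.2.2)
    (hs : ∀ a i, i < n a → f a i = h a i ((List.range i).map (f a))) {B : α → ℕ}
    (hB : PB B) (hsz : ∀ a i, i < n a → sz (f a i) ≤ B a) :
    Poly fun a => (List.range (n a)).map (f a) := by
  refine natRec' (f := fun a i => (List.range i).map (f a)) (h := fun a i r => r ++ [h a i r])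
    hn hb (const []) (id'.snd.snd.append (hh.cons (const []))) (fun _ => rfl)
    (fun a i hi => by rw [List.range_succ, List.map_append, ← hs a i hi]; rfl)
    (B := fun a => n a * (B a + 1) + 1) (by fun_prop) fun a i hi => ?_
  refine (sz_list_le (B := B a) fun y hy => ?_).trans ?_
  · obtain ⟨t, ht, rfl⟩ := List.mem_map.1 hy
    exact hsz a t ((List.mem_range.1 ht).trans_le hi)
  · simp only [List.length_map, List.length_range]
    gcongr

theorem natStrongRec {n : α → ℕ} {f : α → ℕ → γ} {h : α → ℕ → List γ → γ} (hn : Poly n)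
    (hb : PB n) (hh : Poly fun p : α × Un × List γ => h p.1 p.2.1.n p.2.2)
    (hs : ∀ a i, i ≤ n a → f a i = h a i ((List.range i).map (f a))) {B : α → ℕ}
    (hB : PB B) (hsz : ∀ a i, i < n a → sz (f a i) ≤ B a) : Poly fun a => f a (n a) := by
  have := natStrongRec_table hn hb hh (fun a i hi => hs a i hi.le) hB hsz
  exact (hh.comp (g := fun a => (a, Un.mk (n a), (List.range (n a)).map (f a)))
    (by fun_prop)).congr fun a => (hs a _ le_rfl).symm

/-- A `while` loop: iterate `h a` as long as `c a` holds; it is known to stop within `N a`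
rounds (otherwise the state after `N a` rounds is returned). -/
def whileN {σ : Type*} (c : σ → Bool) (h : σ → σ) : ℕ → σ → σ
  | 0, s => s
  | N + 1, s => if c s then whileN c h N (h s) else s

theorem whileN_eq_iterate {σ : Type*} (c : σ → Bool) (h : σ → σ) (N : ℕ) (s : σ) :
    whileN c h N s = (fun s => if c s then h s else s)^[N] s := by
  induction N generalizing s with
  | zero => rfl
  | succ N ih =>
    rw [whileN, Function.iterate_succ_apply]
    split_ifs with hc
    · exact ih _
    · exact (Function.iterate_fixed (by simp [hc]) N).symm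

theorem while_inv {N : α → ℕ} {g : α → γ} {c : α → γ → Bool} {h : α → γ → γ} (hN : Poly N)
    (hb : PB N) (hg : Poly g) (hc : Poly fun p : α × γ => c p.1 p.2)
    (hh : Poly fun p : α × γ => h p.1 p.2) (I : α → γ → Prop) (h0 : ∀ a, I a (g a))
    (hI : ∀ a s, I a s → c a s = true → I a (h a s)) {B : α → ℕ} (hB : PB B)
    (hsz : ∀ a s, I a s → sz s ≤ B a) : Poly fun a => whileN (c a) (h a) (N a) (g a) := by
  refine (iterate (h := fun a s => if c a s then h a s else s) hN hb hg (by fun_prop) hB
    fun a i _ => hsz a _ ?_).congr fun a => (whileN_eq_iterate _ _ _ _).symm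
  induction i with
  | zero => exact h0 a
  | succ i ih =>
    rw [Function.iterate_succ_apply']
    split_ifs with hc
    · exact hI _ _ (ih (by omega)) hc
    · exact ih (by omega)

/-- Iteration with an invariant that bounds the size of the state. -/
theorem iterate_inv {n : α → ℕ} {g : α → γ} {h : α → γ → γ} (hn : Poly n) (hb : PB n)
    (hg : Poly g) (hh : Poly fun p : α × γ => h p.1 p.2) (I : α → γ → Prop) (h0 : ∀ a, I a (g a))
    (hI : ∀ a s, I a s → I a (h a s)) {B : α → ℕ} (hB : PB B)
    (hsz : ∀ a s, I a s → sz s ≤ B a) : Poly fun a => (h a)^[n a] (g a) :=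
  iterate hn hb hg hh hB fun a i _ => hsz a _ (Function.Iterate.rec (I a) (h0 a) (hI a) i)

/-- `foldl` with an invariant that bounds the size of the state. -/
theorem foldl_inv {l : α → List β} {g : α → γ} {h : α → γ → β → γ} (hl : Poly l) (hg : Poly g)
    (hh : Poly fun p : α × γ × β => h p.1 p.2.1 p.2.2) (I : α → γ → Prop) (h0 : ∀ a, I a (g a))
    (hI : ∀ a s x, x ∈ l a → I a s → I a (h a s x)) {B : α → ℕ} (hB : PB B)
    (hsz : ∀ a s, I a s → sz s ≤ B a) : Poly fun a => (l a).foldl (h a) (g a) :=
  foldl hl hg hh hB fun a l₁ h₁ => hsz a _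
    (List.foldlRecOn (motive := I a) l₁ _ (h0 a) fun s hs x hx => hI a s x (h₁.subset hx) hs)

/-- `foldr` with an invariant that bounds the size of the state. -/
theorem foldr_inv {l : α → List β} {g : α → γ} {h : α → β → γ → γ} (hl : Poly l) (hg : Poly g)
    (hh : Poly fun p : α × β × γ => h p.1 p.2.1 p.2.2) (I : α → γ → Prop) (h0 : ∀ a, I a (g a))
    (hI : ∀ a x s, x ∈ l a → I a s → I a (h a x s)) {B : α → ℕ} (hB : PB B)
    (hsz : ∀ a s, I a s → sz s ≤ B a) : Poly fun a => (l a).foldr (h a) (g a) :=
  foldr hl hg hh hB fun a l₁ h₁ => hsz a _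
    (List.foldrRecOn (motive := I a) l₁ _ (h0 a) fun s hs x hx => hI a x s (h₁.subset hx) hs)

end Poly

end Crest.Agent.Lib.PolyTime
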