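import Crest.Agent.Lib.PolyTime.Arith
import Crest.Agent.Lib.PolyTime.Bridge
import Crest.Prelude.Def_BitEnc
import Crest.Prelude.Def_CNF

/-!
# Encoders and total parsers for the bit codes of `Crest.Enc`

A parser maps a bit string to a value and the unread rest.  All parsers are total and `Poly`;
the `simp` lemmas `pX_code` say that they invert the codes.
-/

namespace Crest.Agent.Lib.PolyTime

open Crest.Enc

/-- A total parser: value and unread rest. -/
scoped notation:max "Parser " β:max => List Bool → β × List Bool

section defs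
variable {β γ : Type*}

/-- The suffix of `w` that is as long as `r` (it is `r` whenever `r` is a suffix of `w`). -/
def sfx (w r : List Bool) : List Bool := w.drop (w.length - r.length)

@[simp] theorem sfx_append (u r : List Bool) : sfx (u ++ r) r = r := by simp [sfx]

theorem length_sfx_le (w r : List Bool) : (sfx w r).length ≤ w.length := by simp [sfx]

/-- One bit. -/
def pBool : Parser Bool := fun w => (w.headD false, w.tail)

/-- `n` bits. -/
def pTake (n : ℕ) : Parser (List Bool) := fun w => (w.take n, w.drop n)

/-- A unary number `1ⁿ0`. -/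
def pUn : Parser Un := fun w => (⟨(w.takeWhile fun b => b).length⟩, (w.dropWhile fun b => b).tail)

/-- Two items in a row. -/
def pSeq (p : Parser β) (q : Parser γ) : Parser (β × γ) := fun w =>
  (((p w).1, (q (p w).2).1), (q (p w).2).2)

/-- Exactly `n` items. -/
def pRepAux (p : Parser β) : ℕ → Parser (List β)
  | 0, w => ([], w)
  | n + 1, w => ((p w).1 :: (pRepAux p n (sfx w (p w).2)).1, (pRepAux p n (sfx w (p w).2)).2)

/-- `n` items (`n` is cut down to the number of remaining bits). -/
def pRep (p : Parser β) (n : ℕ) : Parser (List β) := fun w => pRepAux p (min n w.length) w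

/-- Items each preceded by `true`, then a final `false`; at most `k` items. -/
def pMarkedAux (p : Parser β) : ℕ → Parser (List β)
  | 0, w => ([], w.tail)
  | k + 1, w => if w.headD false then ((p w.tail).1 :: (pMarkedAux p k (sfx w (p w.tail).2)).1,
      (pMarkedAux p k (sfx w (p w.tail).2)).2) else ([], w.tail)

/-- Items each preceded by `true`, then a final `false`. -/
def pMarked (p : Parser β) : Parser (List β) := fun w => pMarkedAux p w.length w

/-- A binary number ended by one `false` (`GateCircuit.natCode`). -/
def pNat₁ : Parser ℕ := fun w => (ofBits (pMarked pBool w).1, (pMarked pBool w).2)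

/-- `Crest.Enc.natCode`. -/
def pNat : Parser ℕ := fun w => ((pNat₁ w).1, (pNat₁ w).2.tail)

/-- `Crest.Enc.intCode`. -/
def pInt : Parser ℤ := fun w =>
  (bif w.headD false then -((pNat w.tail).1 : ℤ) else ((pNat w.tail).1 : ℤ), (pNat w.tail).2)

/-- `Crest.Enc.ratCode`. -/
def pRat : Parser ℚ := fun w => (mkRat (pInt w).1 (pNat (pInt w).2).1, (pNat (pInt w).2).2)

/-- The number of items (`natCode`), then the items. -/
def pList (p : Parser β) : Parser (List β) := fun w => pRep p (pNat w).1 (pNat w).2

/-- `natCode n`, then `n` rows of `n` items. -/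
def pSquare (p : Parser β) : Parser (ℕ × List (List β)) := fun w =>
  (((pNat w).1, (pRep (pRep p (pNat w).1) (pNat w).1 (pNat w).2).1),
    (pRep (pRep p (pNat w).1) (pNat w).1 (pNat w).2).2)

/-- `Crest.LogicCS.CNF.code`. -/
def pCNF : Parser (ℕ × List (List (ℕ × Bool))) := pSeq pNat (pList (pList (pSeq pNat pBool)))

/-! ### The parsers invert the codes -/

@[simp] theorem pBool_cons (b : Bool) (w : List Bool) : pBool (b :: w) = (b, w) := rfl

theorem pTake_append {n : ℕ} {u : List Bool} (h : u.length = n) (w : List Bool) :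
    pTake n (u ++ w) = (u, w) := by subst h; simp [pTake]

@[simp] theorem pUn_code (n : ℕ) (w : List Bool) :
    pUn (List.replicate n true ++ false :: w) = (⟨n⟩, w) := by
  induction n with
  | zero => simp [pUn]
  | succ n ih => simp [pUn]

@[simp] theorem pUn_replicate (n : ℕ) : pUn (List.replicate n true) = (⟨n⟩, []) := by
  simp [pUn]

theorem pSeq_eq {p : Parser β} {q : Parser γ} {w w' w'' : List Bool} {x : β} {y : γ}
    (hp : p w = (x, w')) (hq : q w' = (y, w'')) : pSeq p q w = ((x, y), w'') := by
  simp [pSeq, hp, hq]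

theorem pRepAux_code {ι : Type*} {p : Parser β} {c : ι → List Bool} {v : ι → β} {l : List ι}
    (h : ∀ x ∈ l, ∀ w, p (c x ++ w) = (v x, w)) (w : List Bool) :
    pRepAux p l.length ((l.map c).flatten ++ w) = (l.map v, w) := by
  induction l with
  | nil => rfl
  | cons x xs ih =>
    simp only [List.length_cons, List.map_cons, List.flatten_cons, List.append_assoc, pRepAux,
      h x (by simp), sfx_append, ih fun y hy => h y (by simp [hy])]

theorem pRep_code' {ι : Type*} {p : Parser β} {c : ι → List Bool} {v : ι → β} {l : List ι}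
    (h : ∀ x ∈ l, ∀ w, p (c x ++ w) = (v x, w)) {n : ℕ} (hn : l.length = n) (w : List Bool)
    (hw : n ≤ ((l.map c).flatten ++ w).length) :
    pRep p n ((l.map c).flatten ++ w) = (l.map v, w) := by
  subst hn
  rw [pRep, Nat.min_eq_left hw, pRepAux_code h]

theorem length_le_flatten {ι : Type*} {c : ι → List Bool} {l : List ι} (h : ∀ x ∈ l, c x ≠ []) :
    l.length ≤ (l.map c).flatten.length := by
  induction l with
  | nil => simp
  | cons x xs ih =>
    have h1 := List.length_pos_iff.2 (h x (by simp))
    have h2 := ih fun y hy => h y (by simp [hy])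
    simp only [List.map_cons, List.flatten_cons, List.length_append, List.length_cons]
    omega

theorem pRep_code {ι : Type*} {p : Parser β} {c : ι → List Bool} {v : ι → β} {l : List ι}
    (h : ∀ x ∈ l, ∀ w, p (c x ++ w) = (v x, w)) (hne : ∀ x ∈ l, c x ≠ []) {n : ℕ}
    (hn : l.length = n) (w : List Bool) : pRep p n ((l.map c).flatten ++ w) = (l.map v, w) :=
  pRep_code' h hn w (by have := length_le_flatten hne; rw [List.length_append]; omega)

/-- `n` items given as `List.ofFn`. -/
theorem pRep_ofFn {n : ℕ} {p : Parser β} {c : Fin n → List Bool} {v : Fin n → β}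
    (h : ∀ i w, p (c i ++ w) = (v i, w)) (hne : ∀ i, c i ≠ []) (w : List Bool) :
    pRep p n ((List.ofFn c).flatten ++ w) = (List.ofFn v, w) := by
  rw [List.ofFn_eq_map, List.ofFn_eq_map]
  exact pRep_code (fun i _ => h i) (fun i _ => hne i) (by simp) w

theorem pRep_bits {u : List Bool} {n : ℕ} (hn : u.length = n) (w : List Bool) :
    pRep pBool n (u ++ w) = (u, w) := by
  have := pRep_code (p := pBool) (c := fun b => [b]) (v := id) (l := u) (fun _ _ _ => rfl)
    (by simp) hn w
  simpa [← List.flatMap_def] using this

theorem pMarkedAux_code {ι : Type*} {p : Parser β} {c : ι → List Bool} {v : ι → β} {l : List ι}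
    (h : ∀ x ∈ l, ∀ w, p (c x ++ w) = (v x, w)) (w : List Bool) {k : ℕ} (hk : l.length ≤ k) :
    pMarkedAux p k ((l.map fun x => true :: c x).flatten ++ false :: w) = (l.map v, w) := by
  induction l generalizing k with
  | nil => cases k <;> simp [pMarkedAux]
  | cons x xs ih =>
    obtain ⟨k, rfl⟩ : ∃ j, k = j + 1 := ⟨k - 1, by simp at hk; omega⟩
    have e := sfx_append (true :: c x) ((xs.map fun x => true :: c x).flatten ++ false :: w)
    simp only [List.cons_append] at e
    simp only [List.map_cons, List.flatten_cons, List.cons_append, List.append_assoc, pMarkedAux,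
      List.headD_cons, List.tail_cons, h x (by simp), e, if_true,
      ih (fun y hy => h y (by simp [hy])) (Nat.le_of_succ_le_succ hk)]

theorem pMarked_code {ι : Type*} {p : Parser β} {c : ι → List Bool} {v : ι → β} {l : List ι}
    (h : ∀ x ∈ l, ∀ w, p (c x ++ w) = (v x, w)) (w : List Bool) :
    pMarked p ((l.map fun x => true :: c x).flatten ++ false :: w) = (l.map v, w) :=
  pMarkedAux_code h w (by
    have := length_le_flatten (c := fun x => true :: c x) (l := l) (by simp)
    rw [List.length_append]; omega)

@[simp] theorem pNat₁_code (n : ℕ) (w : List Bool) :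
    pNat₁ ((n.bits.map fun b => [true, b]).flatten ++ false :: w) = (n, w) := by
  have := pMarked_code (p := pBool) (c := fun b => [b]) (v := id) (l := n.bits)
    (fun _ _ _ => rfl) w
  simp only [pNat₁, this, List.map_id, ofBits_bits]

@[simp] theorem pNat_code (n : ℕ) (w : List Bool) : pNat (natCode n ++ w) = (n, w) := by
  have := pNat₁_code n (false :: w)
  simp only [pNat, natCode, List.append_assoc, List.cons_append, List.nil_append, this,
    List.tail_cons]

@[simp] theorem pInt_code (z : ℤ) (w : List Bool) : pInt (intCode z ++ w) = (z, w) := by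
  by_cases h : z < 0
  · simp [pInt, intCode, h, abs_of_neg h]
  · simp [pInt, intCode, h, abs_of_nonneg (not_lt.1 h)]

@[simp] theorem pRat_code (q : ℚ) (w : List Bool) : pRat (ratCode q ++ w) = (q, w) := by
  have e : ratCode q ++ w = intCode q.num ++ (natCode q.den ++ w) := by simp [ratCode, intCode]
  simp [pRat, e]

@[simp] theorem pNat_code' (n : ℕ) : pNat (natCode n) = (n, []) := by
  simpa using pNat_code n []

@[simp] theorem pInt_code' (z : ℤ) : pInt (intCode z) = (z, []) := by
  simpa using pInt_code z []

@[simp] theorem pRat_code' (q : ℚ) : pRat (ratCode q) = (q, []) := by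
  simpa using pRat_code q []

theorem natCode_ne_nil (n : ℕ) : natCode n ≠ [] := by simp [natCode]
theorem intCode_ne_nil (z : ℤ) : intCode z ≠ [] := by simp [intCode]
theorem ratCode_ne_nil (q : ℚ) : ratCode q ≠ [] := by simp [ratCode]

theorem length_natCode (n : ℕ) : (natCode n).length = 2 * n.size + 2 := by
  rw [natCode, ← Nat.size_eq_bits_len]
  induction n.bits with
  | nil => rfl
  | cons b l ih => simp at ih ⊢; omega

theorem pList_code {ι : Type*} {p : Parser β} {c : ι → List Bool} {v : ι → β} {l : List ι}
    (h : ∀ x ∈ l, ∀ w, p (c x ++ w) = (v x, w)) (hne : ∀ x ∈ l, c x ≠ []) (w : List Bool) :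
    pList p (natCode l.length ++ ((l.map c).flatten ++ w)) = (l.map v, w) := by
  simp only [pList, pNat_code]
  exact pRep_code h hne rfl w

@[simp] theorem pList_listCode (l : List ℕ) (w : List Bool) :
    pList pNat (listCode l ++ w) = (l, w) := by
  have := pList_code (p := pNat) (c := natCode) (v := id) (l := l) (fun x _ => pNat_code x)
    (fun x _ => natCode_ne_nil x) w
  simpa [listCode] using this

theorem pSquare_code {n : ℕ} {p : Parser β} {c : Fin n → Fin n → List Bool} {v : Fin n → Fin n → β}
    (h : ∀ i j w, p (c i j ++ w) = (v i j, w)) (hne : ∀ i j, c i j ≠ []) (w : List Bool) :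
    pSquare p (natCode n ++ ((List.ofFn fun i => (List.ofFn (c i)).flatten).flatten ++ w)) =
      ((n, List.ofFn fun i => List.ofFn (v i)), w) := by
  simp only [pSquare, pNat_code]
  rw [pRep_ofFn (fun i => pRep_ofFn (h i) (hne i)) fun i => ?_]
  simp only [ne_eq, List.flatten_eq_nil_iff, List.mem_ofFn, not_forall]
  exact ⟨_, ⟨i, rfl⟩, hne i i⟩

@[simp] theorem pSquare_tableCode (n : ℕ) (t : Fin n → Fin n → ℚ) (w : List Bool) :
    pSquare pRat (tableCode n t ++ w) = ((n, List.ofFn fun i => List.ofFn (t i)), w) := by
  rw [← pSquare_code (fun i j => pRat_code (t i j)) fun i j => ratCode_ne_nil _]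
  simp [tableCode, List.ofFn_eq_map]

/-- `natCode n` followed by an `n × n` table of bits. -/
theorem pSquare_bits (n : ℕ) (E : Fin n → Fin n → Bool) (w : List Bool) :
    pSquare pBool (natCode n ++
      ((List.finRange n).map fun i => (List.finRange n).map fun j => E i j).flatten ++ w) =
      ((n, List.ofFn fun i => List.ofFn (E i)), w) := by
  rw [← pSquare_code (p := pBool) (c := fun i j => [E i j]) (fun i j _ => rfl) (by simp) w]
  simp [List.ofFn_eq_map, ← List.flatMap_def, ← List.map_eq_flatMap]

@[simp] theorem pSquare_graphCode (n : ℕ) (G : SimpleGraph (Fin n)) [DecidableRel G.Adj]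
    (w : List Bool) : pSquare pBool (graphCode n G ++ w) =
      ((n, List.ofFn fun i => List.ofFn fun j => decide (G.Adj i j)), w) :=
  pSquare_bits n _ w

@[simp] theorem pCNF_code (n : ℕ) (F : Crest.LogicCS.CNF.Formula n) (w : List Bool) :
    pCNF (Crest.LogicCS.CNF.code n F ++ w) =
      ((n, F.map fun c => c.map fun l => (l.1.val, l.2)), w) := by
  refine pSeq_eq (w' := _) (by rw [Crest.LogicCS.CNF.code, List.append_assoc, List.append_assoc,
    pNat_code]) ?_
  refine pList_code (fun c _ w => ?_) (fun c _ => by simp [natCode]) w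
  rw [List.append_assoc]
  exact pList_code (fun l _ w => by simp [pSeq]) (fun c _ => by simp) w

end defs

namespace Poly
variable {α β γ : Type*} [PEnc α] [PEnc β] [PEnc γ]

/-! ### Encoders -/

@[fun_prop] theorem natCode {n : α → ℕ} (h : Poly n) : Poly fun a => natCode (n a) := by
  unfold Crest.Enc.natCode; fun_prop

@[fun_prop] theorem intCode {z : α → ℤ} (h : Poly z) : Poly fun a => intCode (z a) := by
  unfold Crest.Enc.intCode; fun_prop

@[fun_prop] theorem ratCode {q : α → ℚ} (h : Poly q) : Poly fun a => ratCode (q a) := by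
  unfold Crest.Enc.ratCode; fun_prop

@[fun_prop] theorem listCode {l : α → List ℕ} (h : Poly l) : Poly fun a => listCode (l a) := by
  unfold Crest.Enc.listCode; fun_prop

@[fun_prop] theorem maskCode {n : α → ℕ} {s : ∀ a, Finset (Fin (n a))} (hn : Poly n) (hb : PB n)
    (hs : Poly fun p : Σ a, Fin (n a) => decide (p.2 ∈ s p.1)) :
    Poly fun a => maskCode (n a) (s a) := map_finRange hn hb hs

@[fun_prop] theorem tableCode {n : α → ℕ} {t : ∀ a, Fin (n a) → Fin (n a) → ℚ} (hn : Poly n)
    (hb : PB n) (ht : Poly fun p : Σ x : (Σ a, Fin (n a)), Fin (n x.1) => t p.1.1 p.1.2 p.2) :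
    Poly fun a => tableCode (n a) (t a) :=
  hn.natCode.append (map_finRange hn hb
    (map_finRange (by fun_prop) (by fun_prop) ht.ratCode).flatten).flatten

@[fun_prop] theorem graphCode {n : α → ℕ} {G : ∀ a, SimpleGraph (Fin (n a))}
    [∀ a, DecidableRel (G a).Adj] (hn : Poly n) (hb : PB n)
    (hG : Poly fun p : Σ x : (Σ a, Fin (n a)), Fin (n x.1) => decide ((G p.1.1).Adj p.1.2 p.2)) :
    Poly fun a => graphCode (n a) (G a) :=
  hn.natCode.append (map_finRange hn hb (map_finRange (by fun_prop) (by fun_prop) hG)).flatten

/-- The code of a CNF formula from its index form. -/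
theorem cnfCode {n : α → ℕ} {F : ∀ a, Crest.LogicCS.CNF.Formula (n a)} (hn : Poly n)
    (hF : Poly fun a => (F a).map fun c => c.map fun l => (l.1.val, l.2)) :
    Poly fun a => Crest.LogicCS.CNF.code (n a) (F a) := by
  have h : Poly fun p : ℕ × List (List (ℕ × Bool)) => Crest.Enc.natCode p.1 ++
      Crest.Enc.natCode p.2.length ++ (p.2.map fun c => Crest.Enc.natCode c.length ++
        (c.map fun l => Crest.Enc.natCode l.1 ++ [l.2]).flatten).flatten := by fun_prop
  exact (h.comp (hn.pair hF)).congr fun a => by
    simp [Crest.LogicCS.CNF.code, Function.comp_def]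

@[fun_prop] theorem zmodVal_natCast {p m : α → ℕ} (hp : Poly p) (hm : Poly m) :
    Poly fun a => ((m a : ℕ) : ZMod (p a)).val :=
  (hm.mod hp).congr fun _ => (ZMod.val_natCast _ _).symm

/-! ### Parsers -/

@[fun_prop] theorem sfx {w r : α → List Bool} (hw : Poly w) (hr : Poly r) :
    Poly fun a => sfx (w a) (r a) := by
  unfold PolyTime.sfx; fun_prop

@[fun_prop] theorem pBool {w : α → List Bool} (hw : Poly w) : Poly fun a => pBool (w a) := by
  unfold PolyTime.pBool; fun_prop

@[fun_prop] theorem pTake {n : α → ℕ} {w : α → List Bool} (hn : Poly n) (hw : Poly w) :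
    Poly fun a => pTake (n a) (w a) := by
  unfold PolyTime.pTake; fun_prop

@[fun_prop] theorem pUn {w : α → List Bool} (hw : Poly w) : Poly fun a => pUn (w a) := by
  unfold PolyTime.pUn; fun_prop

@[fun_prop] theorem pSeq {p : α → Parser β} {q : α → Parser γ} {w : α → List Bool}
    (hp : Poly fun x : α × List Bool => p x.1 x.2) (hq : Poly fun x : α × List Bool => q x.1 x.2)
    (hw : Poly w) : Poly fun a => pSeq (p a) (q a) (w a) := by
  unfold PolyTime.pSeq; fun_prop

theorem iterate_shrink {h : α → List Bool → List Bool} {w : α → List Bool} {n : α → ℕ}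
    (hh : Poly fun x : α × List Bool => h x.1 x.2) (hw : Poly w) (hn : Poly n) (hb : PB n)
    (hs : ∀ a w, (h a w).length ≤ w.length) : Poly fun a => (h a)^[n a] (w a) :=
  iterate_inv hn hb hw hh (fun a s => s.length ≤ (w a).length) (fun _ => le_rfl)
    (fun a s h => (hs a s).trans h) (B := fun a => 4 * (w a).length + 1) (by fun_prop)
    fun a s h => (sz_listBool_le s).trans (by omega)

@[fun_prop] theorem pRepAux {p : α → Parser β} {n : α → ℕ} {w : α → List Bool}
    (hp : Poly fun x : α × List Bool => p x.1 x.2) (hn : Poly n) (hb : PB n) (hw : Poly w) :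
    Poly fun a => pRepAux (p a) (n a) (w a) := by
  have key : ∀ (p : Parser β) (n : ℕ) (w : List Bool), PolyTime.pRepAux p n w =
      ((List.range n).map fun i => (p ((fun w => PolyTime.sfx w (p w).2)^[i] w)).1,
        (fun w => PolyTime.sfx w (p w).2)^[n] w) := by
    intro p n
    induction n with
    | zero => intro w; rfl
    | succ n ih => intro w; simp [PolyTime.pRepAux, ih, List.range_succ_eq_map, Function.comp_def]
  simp only [key]
  refine pair (map_range hn hb (fst (hp.comp (g := fun x : α × Un => (x.1, _))
    (pair (by fun_prop) ?_)))) ?_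
  · exact iterate_shrink (h := fun (x : α × Un) w => PolyTime.sfx w (p x.1 w).2) (by fun_prop)
      (by fun_prop) (by fun_prop) (by fun_prop) fun _ _ => length_sfx_le _ _
  · exact iterate_shrink (by fun_prop) hw hn hb fun _ _ => length_sfx_le _ _

@[fun_prop] theorem pRep {p : α → Parser β} {n : α → ℕ} {w : α → List Bool}
    (hp : Poly fun x : α × List Bool => p x.1 x.2) (hn : Poly n) (hw : Poly w) :
    Poly fun a => pRep (p a) (n a) (w a) := by
  unfold PolyTime.pRep; fun_prop

@[fun_prop] theorem pMarked {p : α → Parser β} {w : α → List Bool}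
    (hp : Poly fun x : α × List Bool => p x.1 x.2) (hw : Poly w) :
    Poly fun a => pMarked (p a) (w a) := by
  let nxt : Parser β → List Bool → List Bool := fun p w =>
    if w.headD false then PolyTime.sfx w (p w.tail).2 else w
  have key : ∀ (p : Parser β) (n : ℕ) (w : List Bool), PolyTime.pMarkedAux p n w =
      ((((List.range n).map fun i => (nxt p)^[i] w).takeWhile fun u => u.headD false).map
        fun u => (p u.tail).1, ((nxt p)^[n] w).tail) := by
    intro p n
    induction n with
    | zero => intro w; rfl
    | succ n ih =>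
      intro w
      rw [PolyTime.pMarkedAux, List.range_succ_eq_map, List.map_cons, List.map_map]
      split_ifs with h
      · have e : nxt p w = PolyTime.sfx w (p w.tail).2 := if_pos h
        rw [List.takeWhile_cons_of_pos (by exact h), ih]
        simp [Function.comp_def, e]
      · have e : nxt p w = w := if_neg h
        rw [List.takeWhile_cons_of_neg (by exact h), Function.iterate_fixed e]; rfl
  have hs : ∀ p w, (nxt p w).length ≤ w.length := fun p w => by
    simp only [nxt]; split_ifs
    · exact length_sfx_le _ _
    · exact le_rfl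
  have hn : Poly fun x : α × List Bool => nxt (p x.1) x.2 := by simp only [nxt]; fun_prop
  simp only [PolyTime.pMarked, key]
  refine pair (map (takeWhile (map_range hw.length (by fun_prop) ?_) (by fun_prop))
    (by fun_prop)) (tail ?_)
  · exact iterate_shrink (h := fun (x : α × Un) w => nxt (p x.1) w)
      (hn.comp (g := fun x : (α × Un) × List Bool => (x.1.1, x.2)) (by fun_prop))
      (by fun_prop) (by fun_prop) (by fun_prop) fun _ _ => hs _ _
  · exact iterate_shrink hn hw hw.length (by fun_prop) fun _ _ => hs _ _

@[fun_prop] theorem pNat₁ {w : α → List Bool} (hw : Poly w) : Poly fun a => pNat₁ (w a) := by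
  unfold PolyTime.pNat₁; fun_prop

@[fun_prop] theorem pNat {w : α → List Bool} (hw : Poly w) : Poly fun a => pNat (w a) := by
  unfold PolyTime.pNat; fun_prop

@[fun_prop] theorem pInt {w : α → List Bool} (hw : Poly w) : Poly fun a => pInt (w a) := by
  unfold PolyTime.pInt; fun_prop

@[fun_prop] theorem pRat {w : α → List Bool} (hw : Poly w) : Poly fun a => pRat (w a) := by
  unfold PolyTime.pRat; fun_prop

@[fun_prop] theorem pList {p : α → Parser β} {w : α → List Bool}
    (hp : Poly fun x : α × List Bool => p x.1 x.2) (hw : Poly w) :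
    Poly fun a => pList (p a) (w a) := by
  unfold PolyTime.pList; fun_prop

@[fun_prop] theorem pSquare {p : α → Parser β} {w : α → List Bool}
    (hp : Poly fun x : α × List Bool => p x.1 x.2) (hw : Poly w) :
    Poly fun a => pSquare (p a) (w a) := by
  unfold PolyTime.pSquare; fun_prop

@[fun_prop] theorem pCNF {w : α → List Bool} (hw : Poly w) : Poly fun a => pCNF (w a) := by
  unfold PolyTime.pCNF; fun_prop

end Poly

/-- Example: input `natCode p ++ 1ⁿ 0 1ˢ`. -/
def pNatUnUn (w : List Bool) : ℕ × Un × Un :=
  ((pNat w).1, (pUn (pNat w).2).1, (pUn (pUn (pNat w).2).2).1)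

theorem poly_pNatUnUn : Poly pNatUnUn := by unfold pNatUnUn; fun_prop

theorem pNatUnUn_code (p n s : ℕ) :
    pNatUnUn (natCode p ++ List.replicate n true ++ false :: List.replicate s true) =
      (p, ⟨n⟩, ⟨s⟩) := by
  simp [pNatUnUn]

/-- Example: input `1ⁿ 0 1ˢ`. -/
def pUnUn (w : List Bool) : Un × Un := ((pUn w).1, (pUn (pUn w).2).1)

theorem poly_pUnUn : Poly pUnUn := by unfold pUnUn; fun_prop

theorem pUnUn_code (n s : ℕ) :
    pUnUn (List.replicate n true ++ false :: List.replicate s true) = (⟨n⟩, ⟨s⟩) := by
  simp [pUnUn]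

/-- Template: a construction indexed by two unary numbers. -/
theorem exists_polyTime_unUn {g : ℕ → ℕ → List Bool} (h : Poly fun a : Un × Un => g a.1.n a.2.n) :
    ∃ f : List Bool → List Bool, Crest.Complexity.PolyTime f ∧ ∀ n s : ℕ,
      f (List.replicate n true ++ false :: List.replicate s true) = g n s :=
  ⟨_, (h.comp poly_pUnUn).polyTime, fun n s => by rw [pUnUn_code]⟩

/-- Template: a construction indexed by a binary and two unary numbers. -/
theorem exists_polyTime_natUnUn {g : ℕ → ℕ → ℕ → List Bool}
    (h : Poly fun a : ℕ × Un × Un => g a.1 a.2.1.n a.2.2.n) :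
    ∃ f : List Bool → List Bool, Crest.Complexity.PolyTime f ∧ ∀ p n s : ℕ,
      f (natCode p ++ List.replicate n true ++ false :: List.replicate s true) = g p n s :=
  ⟨_, (h.comp poly_pNatUnUn).polyTime, fun p n s => by rw [pNatUnUn_code]⟩

/-- Template: a construction indexed by one unary number. -/
theorem exists_polyTime_un {g : ℕ → List Bool} (h : Poly fun a : Un => g a.n) :
    ∃ f : List Bool → List Bool, Crest.Complexity.PolyTime f ∧ ∀ n : ℕ,
      f (List.replicate n true) = g n :=
  ⟨_, (h.comp (Poly.id'.pUn.fst)).polyTime, fun n => by rw [pUn_replicate]⟩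

end Crest.Agent.Lib.PolyTime
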