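import Crest.Agent.Lib.PolyTime.Nat

/-!
# `Poly`: propositional logic under `decide`, integers and rationals
-/

namespace Crest.Agent.Lib.PolyTime

namespace Poly
variable {α β γ : Type*} [PEnc α] [PEnc β] [PEnc γ]

/-! ### Logic -/

@[fun_prop] theorem decide_true {f : α → Bool} (hf : Poly f)
    [inst : ∀ a, Decidable (f a = true)] : Poly fun a => decide (f a = true) :=
  hf.congr fun a => by simp

@[fun_prop] theorem decide_and {p q : α → Prop} [DecidablePred p] [DecidablePred q]
    (hp : Poly fun a => decide (p a)) (hq : Poly fun a => decide (q a))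
    [inst : ∀ a, Decidable (p a ∧ q a)] : Poly fun a => decide (p a ∧ q a) :=
  (hp.and hq).congr fun a => by by_cases h : p a <;> by_cases h' : q a <;> simp [h, h']

@[fun_prop] theorem decide_or {p q : α → Prop} [DecidablePred p] [DecidablePred q]
    (hp : Poly fun a => decide (p a)) (hq : Poly fun a => decide (q a))
    [inst : ∀ a, Decidable (p a ∨ q a)] : Poly fun a => decide (p a ∨ q a) :=
  (hp.or hq).congr fun a => by by_cases h : p a <;> by_cases h' : q a <;> simp [h, h']

@[fun_prop] theorem decide_not {p : α → Prop} [DecidablePred p]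
    (hp : Poly fun a => decide (p a)) [inst : ∀ a, Decidable (¬ p a)] :
    Poly fun a => decide (¬ p a) :=
  hp.not.congr fun a => by by_cases h : p a <;> simp [h]

theorem decide_imp {p q : α → Prop} [DecidablePred p] [DecidablePred q]
    (hp : Poly fun a => decide (p a)) (hq : Poly fun a => decide (q a))
    [inst : ∀ a, Decidable (p a → q a)] : Poly fun a => decide (p a → q a) :=
  (hp.not.or hq).congr fun a => by by_cases h : p a <;> by_cases h' : q a <;> simp [h, h']

@[fun_prop] theorem decide_iff {p q : α → Prop} [DecidablePred p] [DecidablePred q]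
    (hp : Poly fun a => decide (p a)) (hq : Poly fun a => decide (q a))
    [inst : ∀ a, Decidable (p a ↔ q a)] : Poly fun a => decide (p a ↔ q a) :=
  (hp.xor hq).not.congr fun a => by by_cases h : p a <;> by_cases h' : q a <;> simp [h, h']

@[fun_prop] theorem decide_ne {f g : α → β} (hf : Poly f) (hg : Poly g)
    [inst : ∀ a, Decidable (f a ≠ g a)] : Poly fun a => decide (f a ≠ g a) := by
  classical
  exact (decide_eq hf hg).not.congr fun a => by by_cases h : f a = g a <;> simp [h]

@[fun_prop] theorem decide_gt {m n : α → ℕ} (hm : Poly m) (hn : Poly n)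
    [inst : ∀ a, Decidable (m a > n a)] : Poly fun a => decide (m a > n a) := decide_lt hn hm

@[fun_prop] theorem decide_ge {m n : α → ℕ} (hm : Poly m) (hn : Poly n)
    [inst : ∀ a, Decidable (m a ≥ n a)] : Poly fun a => decide (m a ≥ n a) := decide_le hn hm

theorem decide_forall_mem {l : α → List β} {p : α → β → Prop} [∀ a x, Decidable (p a x)]
    (hl : Poly l) (hp : Poly fun x : α × β => decide (p x.1 x.2))
    [inst : ∀ a, Decidable (∀ x ∈ l a, p a x)] : Poly fun a => decide (∀ x ∈ l a, p a x) :=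
  (hl.all (f := fun a x => decide (p a x)) hp).congr fun a => by
    rw [Bool.eq_iff_iff]; simp

@[fun_prop] theorem decide_exists_mem {l : α → List β} {p : α → β → Prop}
    [∀ a x, Decidable (p a x)] (hl : Poly l) (hp : Poly fun x : α × β => decide (p x.1 x.2))
    [inst : ∀ a, Decidable (∃ x ∈ l a, p a x)] : Poly fun a => decide (∃ x ∈ l a, p a x) :=
  (hl.any (f := fun a x => decide (p a x)) hp).congr fun a => by
    rw [Bool.eq_iff_iff]; simp

theorem decide_forall_lt {n : α → ℕ} {p : α → ℕ → Prop} [∀ a x, Decidable (p a x)]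
    (hn : Poly n) (hb : PB n) (hp : Poly fun x : α × ℕ => decide (p x.1 x.2))
    [inst : ∀ a, Decidable (∀ x < n a, p a x)] : Poly fun a => decide (∀ x < n a, p a x) :=
  (decide_forall_mem (range hn hb) hp).congr fun a => by simp

@[fun_prop] theorem decide_exists_lt {n : α → ℕ} {p : α → ℕ → Prop} [∀ a x, Decidable (p a x)]
    (hn : Poly n) (hb : PB n) (hp : Poly fun x : α × ℕ => decide (p x.1 x.2))
    [inst : ∀ a, Decidable (∃ x < n a, p a x)] : Poly fun a => decide (∃ x < n a, p a x) :=
  (decide_exists_mem (range hn hb) hp).congr fun a => by simp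

/-- Replace the decided proposition by an equivalent one. -/
theorem decide_congr {p q : α → Prop} [DecidablePred p] [DecidablePred q]
    (hp : Poly fun a => decide (p a)) (h : ∀ a, p a ↔ q a) : Poly fun a => decide (q a) :=
  hp.congr fun a => by simp [h a]

/-- A Boolean test decides a proposition. -/
theorem decide_of_iff {f : α → Bool} {q : α → Prop} [DecidablePred q] (hf : Poly f)
    (h : ∀ a, f a = true ↔ q a) : Poly fun a => decide (q a) :=
  hf.congr fun a => by rw [Bool.eq_iff_iff]; simp [h a]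

@[fun_prop] theorem decide_even {n : α → ℕ} (hn : Poly n) [inst : ∀ a, Decidable (Even (n a))] :
    Poly fun a => decide (Even (n a)) :=
  decide_congr (p := fun a => n a % 2 = 0) (by fun_prop) fun _ => Nat.even_iff.symm

@[fun_prop] theorem decide_odd {n : α → ℕ} (hn : Poly n) [inst : ∀ a, Decidable (Odd (n a))] :
    Poly fun a => decide (Odd (n a)) :=
  decide_congr (p := fun a => n a % 2 = 1) (by fun_prop) fun _ => Nat.odd_iff.symm

@[fun_prop] theorem decide_coprime {m n : α → ℕ} (hm : Poly m) (hn : Poly n)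
    [inst : ∀ a, Decidable (Nat.Coprime (m a) (n a))] :
    Poly fun a => decide (Nat.Coprime (m a) (n a)) :=
  decide_congr (p := fun a => Nat.gcd (m a) (n a) = 1) (by fun_prop) fun _ => Iff.rfl

/-! ### Integers -/

@[fun_prop] theorem natAbs {z : α → ℤ} (hz : Poly z) : Poly fun a => (z a).natAbs :=
  (hz.of_enc (f := fun a => (decide (z a < 0), (z a).natAbs)) fun _ => rfl).snd

theorem intNeg? {z : α → ℤ} (hz : Poly z) : Poly fun a => decide (z a < 0) :=
  (hz.of_enc (f := fun a => (decide (z a < 0), (z a).natAbs)) fun _ => rfl).fst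

@[fun_prop] theorem natCastInt {n : α → ℕ} (hn : Poly n) : Poly fun a => (n a : ℤ) :=
  ((const false).pair hn).of_enc fun a => by
    have : ¬ (n a : ℤ) < 0 := by omega
    simp [enc_int, this]

@[fun_prop] theorem intOfNat {n : α → ℕ} (hn : Poly n) : Poly fun a => Int.ofNat (n a) :=
  hn.natCastInt

@[fun_prop] theorem intNeg {z : α → ℤ} (hz : Poly z) : Poly fun a => -z a := by
  refine (((hz.intNeg?.not.and (decide_ne hz.natAbs (const 0))).pair hz.natAbs)).of_enc fun a => ?_
  rw [enc_int, Int.natAbs_neg]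
  congr 2
  rw [Bool.eq_iff_iff]
  simp; omega

@[fun_prop] theorem negSucc {n : α → ℕ} (hn : Poly n) : Poly fun a => Int.negSucc (n a) :=
  (hn.add (const 1)).natCastInt.intNeg.congr fun a => by simp [Int.negSucc_eq]

@[fun_prop] theorem toNat {z : α → ℤ} (hz : Poly z) : Poly fun a => (z a).toNat :=
  (ite hz.intNeg? (const 0) hz.natAbs).congr fun a => by split_ifs <;> omega

@[fun_prop] theorem intAdd {x y : α → ℤ} (hx : Poly x) (hy : Poly y) : Poly fun a => x a + y a := by
  have h₁ := hx.toNat.add hy.toNat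
  have h₂ := hx.intNeg.toNat.add hy.intNeg.toNat
  exact (ite (decide_le h₂ h₁) (h₁.sub h₂).natCastInt (h₂.sub h₁).natCastInt.intNeg).congr
    fun a => by split_ifs <;> omega

@[fun_prop] theorem intSub {x y : α → ℤ} (hx : Poly x) (hy : Poly y) : Poly fun a => x a - y a :=
  (hx.intAdd hy.intNeg).congr fun _ => (sub_eq_add_neg _ _).symm

@[fun_prop] theorem intAbs {x : α → ℤ} (hx : Poly x) : Poly fun a => |x a| :=
  hx.natAbs.natCastInt.congr fun a => by simp

@[fun_prop] theorem intMul {x y : α → ℤ} (hx : Poly x) (hy : Poly y) : Poly fun a => x a * y a := by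
  have h := (hx.natAbs.mul hy.natAbs).natCastInt
  refine (ite (decide_iff hx.intNeg? hy.intNeg?) h h.intNeg).congr fun a => ?_
  push_cast
  rcases lt_or_ge (x a) 0 with h₁ | h₁ <;> rcases lt_or_ge (y a) 0 with h₂ | h₂ <;>
    simp [h₁, h₂, h₁.not_gt, h₂.not_gt, abs_of_neg, abs_of_nonneg]

@[fun_prop] theorem decide_intLt {x y : α → ℤ} (hx : Poly x) (hy : Poly y)
    [inst : ∀ a, Decidable (x a < y a)] : Poly fun a => decide (x a < y a) :=
  decide_congr (hx.intSub hy).intNeg? fun _ => sub_neg

@[fun_prop] theorem decide_intLe {x y : α → ℤ} (hx : Poly x) (hy : Poly y)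
    [inst : ∀ a, Decidable (x a ≤ y a)] : Poly fun a => decide (x a ≤ y a) :=
  decide_congr (decide_not (decide_intLt hy hx)) fun _ => not_lt

@[fun_prop] theorem decide_intGt {x y : α → ℤ} (hx : Poly x) (hy : Poly y)
    [inst : ∀ a, Decidable (x a > y a)] : Poly fun a => decide (x a > y a) := decide_intLt hy hx

@[fun_prop] theorem decide_intGe {x y : α → ℤ} (hx : Poly x) (hy : Poly y)
    [inst : ∀ a, Decidable (x a ≥ y a)] : Poly fun a => decide (x a ≥ y a) := decide_intLe hy hx

@[fun_prop] theorem intMin {x y : α → ℤ} (hx : Poly x) (hy : Poly y) :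
    Poly fun a => min (x a) (y a) :=
  (ite (decide_intLe hx hy) hx hy).congr fun a => by split_ifs <;> omega

@[fun_prop] theorem intMax {x y : α → ℤ} (hx : Poly x) (hy : Poly y) :
    Poly fun a => max (x a) (y a) :=
  (ite (decide_intLe hx hy) hy hx).congr fun a => by split_ifs <;> omega

@[fun_prop] theorem intSign {x : α → ℤ} (hx : Poly x) : Poly fun a => (x a).sign :=
  (ite hx.intNeg? (const (-1)) (ite (decide_eq hx (const 0)) (const 0) (const 1))).congr
    fun a => by
      split_ifs with h₁ h₂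
      · exact (Int.sign_eq_neg_one_of_neg h₁).symm
      · simp [h₂]
      · exact (Int.sign_eq_one_of_pos (by omega)).symm

theorem intDivNat {x : α → ℤ} {n : α → ℕ} (hx : Poly x) (hn : Poly n) :
    Poly fun a => x a / (n a : ℤ) := by
  refine (ite (decide_eq hn (const 0)) (const 0) (ite hx.intNeg?
    (((hx.natAbs.sub (const 1)).div hn).negSucc) (hx.natAbs.div hn).natCastInt)).congr fun a => ?_
  split_ifs with h₁ h₂
  · simp [h₁]
  · obtain ⟨m, hm⟩ := Int.eq_negSucc_of_lt_zero h₂
    rw [hm, Int.negSucc_ediv _ (by omega)]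
    rw [Int.natAbs_negSucc, Int.negSucc_eq]
    rfl
  · obtain ⟨m, hm⟩ := Int.eq_ofNat_of_zero_le (not_lt.1 h₂)
    simp [hm]

@[fun_prop] theorem intDiv {x y : α → ℤ} (hx : Poly x) (hy : Poly y) :
    Poly fun a => x a / y a := by
  have h := intDivNat hx hy.natAbs
  refine (ite hy.intNeg? h.intNeg h).congr fun a => ?_
  split_ifs with h₁
  · rw [Int.natCast_natAbs, abs_of_neg h₁, Int.ediv_neg, neg_neg]
  · rw [Int.natCast_natAbs, abs_of_nonneg (not_lt.1 h₁)]

@[fun_prop] theorem intMod {x y : α → ℤ} (hx : Poly x) (hy : Poly y) :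
    Poly fun a => x a % y a :=
  (hx.intSub (hy.intMul (hx.intDiv hy))).congr fun _ => (Int.emod_def _ _).symm

@[fun_prop] theorem decide_intDvd {x y : α → ℤ} (hx : Poly x) (hy : Poly y)
    [inst : ∀ a, Decidable (x a ∣ y a)] : Poly fun a => decide (x a ∣ y a) :=
  decide_congr (decide_dvd hx.natAbs hy.natAbs) fun _ => Int.natAbs_dvd_natAbs

@[fun_prop] theorem intGcd {x y : α → ℤ} (hx : Poly x) (hy : Poly y) :
    Poly fun a => Int.gcd (x a) (y a) := hx.natAbs.gcd hy.natAbs

/-! ### Rationals -/

@[fun_prop] theorem num {q : α → ℚ} (hq : Poly q) : Poly fun a => (q a).num :=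
  (hq.of_enc (f := fun a => ((q a).num, (q a).den)) fun _ => rfl).fst

@[fun_prop] theorem den {q : α → ℚ} (hq : Poly q) : Poly fun a => (q a).den :=
  (hq.of_enc (f := fun a => ((q a).num, (q a).den)) fun _ => rfl).snd

theorem rat_of {q : α → ℚ} (h₁ : Poly fun a => (q a).num) (h₂ : Poly fun a => (q a).den) :
    Poly q := (h₁.pair h₂).of_enc fun _ => rfl

@[fun_prop] theorem mkRat {x : α → ℤ} {n : α → ℕ} (hx : Poly x) (hn : Poly n) :
    Poly fun a => mkRat (x a) (n a) := by
  refine rat_of ?_ ?_
  · simp only [Rat.num_mkRat]; fun_prop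
  · simp only [Rat.den_mkRat]; fun_prop

@[fun_prop] theorem intCastRat {x : α → ℤ} (hx : Poly x) : Poly fun a => (x a : ℚ) :=
  rat_of hx (const 1)

@[fun_prop] theorem natCastRat {n : α → ℕ} (hn : Poly n) : Poly fun a => (n a : ℚ) :=
  hn.natCastInt.intCastRat.congr fun _ => by simp

@[fun_prop] theorem ratNeg {q : α → ℚ} (hq : Poly q) : Poly fun a => -q a :=
  rat_of hq.num.intNeg hq.den

@[fun_prop] theorem ratAdd {p q : α → ℚ} (hp : Poly p) (hq : Poly q) :
    Poly fun a => p a + q a := by
  simp only [Rat.add_def']; fun_prop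

@[fun_prop] theorem ratSub {p q : α → ℚ} (hp : Poly p) (hq : Poly q) :
    Poly fun a => p a - q a := (hp.ratAdd hq.ratNeg).congr fun _ => (sub_eq_add_neg _ _).symm

@[fun_prop] theorem ratMul {p q : α → ℚ} (hp : Poly p) (hq : Poly q) :
    Poly fun a => p a * q a := by
  simp only [Rat.mul_def']; fun_prop

@[fun_prop] theorem ratInv {q : α → ℚ} (hq : Poly q) : Poly fun a => (q a)⁻¹ := by
  refine rat_of ?_ ?_
  · simp only [Rat.num_inv]; fun_prop
  · simp only [Rat.den_inv]; fun_prop

@[fun_prop] theorem ratDiv {p q : α → ℚ} (hp : Poly p) (hq : Poly q) :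
    Poly fun a => p a / q a := (hp.ratMul hq.ratInv).congr fun _ => (div_eq_mul_inv _ _).symm

@[fun_prop] theorem divInt {x y : α → ℤ} (hx : Poly x) (hy : Poly y) :
    Poly fun a => Rat.divInt (x a) (y a) :=
  (hx.intCastRat.ratDiv hy.intCastRat).congr fun _ => (Rat.divInt_eq_div _ _).symm

@[fun_prop] theorem decide_ratLt {p q : α → ℚ} (hp : Poly p) (hq : Poly q)
    [inst : ∀ a, Decidable (p a < q a)] : Poly fun a => decide (p a < q a) :=
  decide_congr (hp.ratSub hq).num.intNeg? fun _ => by rw [Rat.num_neg, sub_neg]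

@[fun_prop] theorem decide_ratLe {p q : α → ℚ} (hp : Poly p) (hq : Poly q)
    [inst : ∀ a, Decidable (p a ≤ q a)] : Poly fun a => decide (p a ≤ q a) :=
  decide_congr (decide_not (decide_ratLt hq hp)) fun _ => not_lt

@[fun_prop] theorem decide_ratGt {p q : α → ℚ} (hp : Poly p) (hq : Poly q)
    [inst : ∀ a, Decidable (p a > q a)] : Poly fun a => decide (p a > q a) := decide_ratLt hq hp

@[fun_prop] theorem decide_ratGe {p q : α → ℚ} (hp : Poly p) (hq : Poly q)
    [inst : ∀ a, Decidable (p a ≥ q a)] : Poly fun a => decide (p a ≥ q a) := decide_ratLe hq hp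

@[fun_prop] theorem ratMin {p q : α → ℚ} (hp : Poly p) (hq : Poly q) :
    Poly fun a => min (p a) (q a) :=
  (ite (decide_ratLe hp hq) hp hq).congr fun _ => (min_def _ _).symm

@[fun_prop] theorem ratMax {p q : α → ℚ} (hp : Poly p) (hq : Poly q) :
    Poly fun a => max (p a) (q a) :=
  (ite (decide_ratLe hp hq) hq hp).congr fun _ => (max_def _ _).symm

@[fun_prop] theorem ratAbs {q : α → ℚ} (hq : Poly q) : Poly fun a => |q a| :=
  (hq.ratMax hq.ratNeg).congr fun _ => (abs_eq_max_neg).symm

@[fun_prop] theorem ratFloor {q : α → ℚ} (hq : Poly q) : Poly fun a => ⌊q a⌋ :=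
  (hq.num.intDiv hq.den.natCastInt).congr fun _ => Rat.floor_def'.symm

@[fun_prop] theorem ratCeil {q : α → ℚ} (hq : Poly q) : Poly fun a => ⌈q a⌉ :=
  hq.ratNeg.ratFloor.intNeg.congr fun _ => by rw [Int.floor_neg, neg_neg]

@[fun_prop] theorem ratNatFloor {q : α → ℚ} (hq : Poly q) : Poly fun a => ⌊q a⌋₊ :=
  hq.ratFloor.toNat.congr fun _ => (Int.floor_toNat _)

@[fun_prop] theorem ratNatCeil {q : α → ℚ} (hq : Poly q) : Poly fun a => ⌈q a⌉₊ :=
  hq.ratCeil.toNat.congr fun _ => (Int.ceil_toNat _)

@[fun_prop] theorem ratRound {q : α → ℚ} (hq : Poly q) : Poly fun a => round (q a) :=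
  (hq.ratAdd (const (1 / 2))).ratFloor.congr fun _ => (round_eq _).symm

end Poly

end Crest.Agent.Lib.PolyTime
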