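import Crest.Agent.Lib.PolyTime.Enc

/-!
# `Poly`: more list operations, and general recursion with an explicit call stack
-/

namespace Crest.Agent.Lib.PolyTime

namespace Poly
variable {α β γ δ : Type*} [PEnc α] [PEnc β] [PEnc γ] [PEnc δ]

@[fun_prop] theorem range' {s n : α → ℕ} (hs : Poly s) (hn : Poly n) (hb : PB n) :
    Poly fun a => List.range' (s a) (n a) :=
  (map_range (f := fun a i => s a + i) hn hb (by fun_prop)).congr fun _ =>
    List.range'_eq_map_range.symm

@[fun_prop] theorem product {l₁ : α → List β} {l₂ : α → List γ} (h₁ : Poly l₁) (h₂ : Poly l₂) :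
    Poly fun a => l₁ a ×ˢ l₂ a :=
  flatMap (f := fun a x => (l₂ a).map (Prod.mk x)) h₁ (by fun_prop)

@[fun_prop] theorem product' {l₁ : α → List β} {l₂ : α → List γ} (h₁ : Poly l₁) (h₂ : Poly l₂) :
    Poly fun a => (l₁ a).product (l₂ a) := h₁.product h₂

@[fun_prop] theorem lookup [BEq β] [LawfulBEq β] {x : α → β} {l : α → List (β × γ)}
    (hx : Poly x) (hl : Poly l) : Poly fun a => (l a).lookup (x a) :=
  ((hl.find? (f := fun a p => x a == p.1) (by fun_prop)).optionMap (g := fun _ p => p.2)
    (by fun_prop)).congr fun a => by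
      induction l a with
      | nil => rfl
      | cons p ps ih => cases h : x a == p.1 <;> simp [List.lookup, h, ← ih]

@[fun_prop] theorem getLastD {l : α → List β} {d : α → β} (hl : Poly l) (hd : Poly d) :
    Poly fun a => (l a).getLastD (d a) := (hl.getLast?.getD hd).congr fun _ => by simp

@[fun_prop] theorem tails {l : α → List β} (hl : Poly l) : Poly fun a => (l a).tails :=
  (map_range (f := fun a i => (l a).drop i) (n := fun a => (l a).length + 1) (by fun_prop)
    (by fun_prop) (by fun_prop)).congr fun a => by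
      apply List.ext_getElem <;> simp

@[fun_prop] theorem inits {l : α → List β} (hl : Poly l) : Poly fun a => (l a).inits :=
  (map_range (f := fun a i => (l a).take i) (n := fun a => (l a).length + 1) (by fun_prop)
    (by fun_prop) (by fun_prop)).congr fun a => by
      apply List.ext_getElem <;> simp

@[fun_prop] theorem eraseIdx {l : α → List β} {n : α → ℕ} (hl : Poly l) (hn : Poly n) :
    Poly fun a => (l a).eraseIdx (n a) :=
  ((hn.take hl).append ((hn.add (const 1)).drop hl)).congr fun _ =>
    (List.eraseIdx_eq_take_drop_succ _ _).symm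

@[fun_prop] theorem erase [BEq β] [LawfulBEq β] {l : α → List β} {x : α → β} (hl : Poly l)
    (hx : Poly x) : Poly fun a => (l a).erase (x a) :=
  (hl.eraseIdx (hx.idxOf hl)).congr fun _ => List.eraseIdx_idxOf_eq_erase _ _

@[fun_prop] theorem eraseP {l : α → List β} {f : α → β → Bool} (hl : Poly l)
    (hf : Poly fun p : α × β => f p.1 p.2) : Poly fun a => (l a).eraseP (f a) :=
  (hl.eraseIdx (hl.findIdx hf)).congr fun a => by
    induction l a with
    | nil => rfl
    | cons x xs ih => cases h : f a x <;> simp [List.findIdx_cons, h, ih]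

@[fun_prop] theorem rotate {l : α → List β} {n : α → ℕ} (hl : Poly l) (hn : Poly n) :
    Poly fun a => (l a).rotate (n a) :=
  (((hn.mod hl.length).drop hl).append ((hn.mod hl.length).take hl)).congr fun _ =>
    List.rotate_eq_drop_append_take_mod.symm

@[fun_prop] theorem modify {l : α → List β} {n : α → ℕ} {f : α → β → β} (hl : Poly l)
    (hn : Poly n) (hf : Poly fun p : α × β => f p.1 p.2) :
    Poly fun a => (l a).modify (n a) (f a) :=
  (hl.zipIdx.map (f := fun a p => if n a = p.2 then f a p.1 else p.1) (by fun_prop)).congr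
    fun a => by apply List.ext_getElem <;> simp [List.getElem_modify]

@[fun_prop] theorem mapIdx {l : α → List β} {f : α → ℕ → β → γ} (hl : Poly l)
    (hf : Poly fun p : α × ℕ × β => f p.1 p.2.1 p.2.2) : Poly fun a => (l a).mapIdx (f a) :=
  (hl.zipIdx.map (f := fun a p => f a p.2 p.1) (by fun_prop)).congr fun a => by
    apply List.ext_getElem <;> simp

@[fun_prop] theorem unzip {l : α → List (β × γ)} (hl : Poly l) : Poly fun a => (l a).unzip :=
  ((hl.map (f := fun _ => Prod.fst) (by fun_prop)).pair
    (hl.map (f := fun _ => Prod.snd) (by fun_prop))).congr fun _ => List.unzip_eq_map.symm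

@[fun_prop] theorem decide_subset {l₁ l₂ : α → List β} (h₁ : Poly l₁) (h₂ : Poly l₂)
    [inst : ∀ a, Decidable (l₁ a ⊆ l₂ a)] : Poly fun a => decide (l₁ a ⊆ l₂ a) := by
  classical
  exact decide_congr (decide_forall_mem (p := fun a x => x ∈ l₂ a) h₁ (by fun_prop))
    fun _ => Iff.rfl

theorem decide_pairwise {l : α → List β} {r : α → β → β → Prop} [∀ a x y, Decidable (r a x y)]
    (hl : Poly l) (hr : Poly fun p : α × β × β => decide (r p.1 p.2.1 p.2.2))
    [inst : ∀ a, Decidable ((l a).Pairwise (r a))] :
    Poly fun a => decide ((l a).Pairwise (r a)) := by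
  classical
  refine (listRec (f := fun a l => decide (l.Pairwise (r a))) (g := fun _ => true)
    (h := fun a x xs b => (xs.all fun y => decide (r a x y)) && b) hl (const _) ?_
    (fun _ => by simp) (fun a x xs => by rw [Bool.eq_iff_iff]; simp) (PB.const 3)
    fun _ _ _ => sz_bool_le _).congr fun _ => by simp
  refine and (all (by fun_prop) ?_) (by fun_prop)
  exact hr.comp (g := fun p : (α × β × List β × Bool) × β => (p.1.1, p.1.2.1, p.2)) (by fun_prop)

@[fun_prop] theorem decide_nodup {l : α → List β} (hl : Poly l)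
    [inst : ∀ a, Decidable (l a).Nodup] : Poly fun a => decide (l a).Nodup := by
  classical
  exact decide_congr (decide_pairwise (r := fun _ x y => x ≠ y) hl (by fun_prop)) fun _ => Iff.rfl

@[fun_prop] theorem decide_perm {l₁ l₂ : α → List β} (h₁ : Poly l₁) (h₂ : Poly l₂)
    [inst : ∀ a, Decidable ((l₁ a).Perm (l₂ a))] : Poly fun a => decide ((l₁ a).Perm (l₂ a)) := by
  classical
  refine decide_congr (decide_forall_mem (p := fun a x => (l₁ a).count x = (l₂ a).count x)
    (h₁.append h₂) (by fun_prop)) fun a => ?_
  rw [List.perm_iff_count]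
  refine ⟨fun h x => ?_, fun h x _ => h x⟩
  by_cases hx : x ∈ l₁ a ++ l₂ a
  · exact h x hx
  · rw [List.mem_append, not_or] at hx
    rw [List.count_eq_zero_of_not_mem hx.1, List.count_eq_zero_of_not_mem hx.2]

@[fun_prop] theorem dedup [DecidableEq β] {l : α → List β} (hl : Poly l) :
    Poly fun a => (l a).dedup :=
  listRec (f := fun _ l => l.dedup) (g := fun _ => [])
    (h := fun _ x xs r => if x ∈ xs then r else x :: r) hl (const _) (by fun_prop) (fun _ => rfl)
    (fun _ x xs => by split_ifs with h <;> simp [h]) hl.pb_sz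
    fun _ l h => sz_le_of_sublist ((List.dedup_sublist l).trans h.sublist)

@[fun_prop] theorem listInsert [DecidableEq β] {l : α → List β} {x : α → β} (hx : Poly x)
    (hl : Poly l) : Poly fun a => List.insert (x a) (l a) :=
  (ite (decide_mem hx hl) hl (hx.cons hl)).congr fun a => by split_ifs with h <;> simp [h]

@[fun_prop] theorem listInter [DecidableEq β] {l₁ l₂ : α → List β} (h₁ : Poly l₁)
    (h₂ : Poly l₂) : Poly fun a => l₁ a ∩ l₂ a :=
  (h₁.filter (f := fun a x => (l₂ a).contains x) (by fun_prop)).congr fun _ => rfl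

@[fun_prop] theorem listUnion [DecidableEq β] {l₁ l₂ : α → List β} (h₁ : Poly l₁)
    (h₂ : Poly l₂) : Poly fun a => l₁ a ∪ l₂ a :=
  foldr_add (h := fun _ x s => List.insert x s) h₁ h₂ (by fun_prop) (fun _ x => sz x + 1)
    (by fun_prop) fun _ x s => by by_cases h : x ∈ s <;> simp [h]; omega

@[fun_prop] theorem listDiff [BEq β] [LawfulBEq β] {l₁ l₂ : α → List β} (h₁ : Poly l₁)
    (h₂ : Poly l₂) : Poly fun a => (l₁ a).diff (l₂ a) :=
  (foldl_add (h := fun _ s x => s.erase x) h₂ h₁ (by fun_prop) (fun _ _ => 0) (by fun_prop)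
    fun _ s x => sz_le_of_sublist List.erase_sublist).congr fun _ => (List.diff_eq_foldl _ _).symm

theorem sz_perm {l₁ l₂ : List β} (h : l₁.Perm l₂) : sz l₁ = sz l₂ := by
  rw [sz_list, sz_list, (h.map _).sum_eq]

theorem orderedInsert {r : α → β → β → Prop} [∀ a, DecidableRel (r a)] {x : α → β}
    {l : α → List β} (hr : Poly fun p : α × β × β => decide (r p.1 p.2.1 p.2.2)) (hx : Poly x)
    (hl : Poly l) : Poly fun a => (l a).orderedInsert (r a) (x a) := by
  have h : Poly fun p : α × β => !decide (r p.1 (x p.1) p.2) :=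
    (hr.comp (g := fun p : α × β => (p.1, x p.1, p.2)) (by fun_prop)).not
  refine ((hl.takeWhile (f := fun a y => !decide (r a (x a) y)) h).append
    (hx.cons (hl.dropWhile (f := fun a y => !decide (r a (x a) y)) h))).congr fun a => ?_
  induction l a with
  | nil => rfl
  | cons y ys ih => by_cases h : r a (x a) y <;> simp [h, ih]

theorem insertionSort {r : α → β → β → Prop} [∀ a, DecidableRel (r a)] {l : α → List β}
    (hr : Poly fun p : α × β × β => decide (r p.1 p.2.1 p.2.2)) (hl : Poly l) :
    Poly fun a => (l a).insertionSort (r a) :=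
  foldr_add (h := fun a x s => s.orderedInsert (r a) x) hl (const [])
    (orderedInsert (r := fun p : α × β × List β => r p.1)
      (hr.comp (g := fun p : (α × β × List β) × β × β => (p.1.1, p.2)) (by fun_prop))
      (by fun_prop) (by fun_prop)) (fun _ x => sz x + 1) (by fun_prop) fun a x s => by
        rw [sz_perm (List.perm_orderedInsert (r a) x s)]; simp; omega

/-- A fold whose state is always one of the two arguments (maximum, minimum, best-so-far). -/
theorem foldl_select {l : α → List β} {g : α → β} {h : α → β → β → β} (hl : Poly l) (hg : Poly g)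
    (hh : Poly fun p : α × β × β => h p.1 p.2.1 p.2.2)
    (hs : ∀ a s x, h a s x = s ∨ h a s x = x) : Poly fun a => (l a).foldl (h a) (g a) :=
  foldl_add hl hg hh (fun _ x => sz x) (by fun_prop) fun a s x => by
    rcases hs a s x with e | e <;> rw [e] <;> omega

theorem foldr_select {l : α → List β} {g : α → β} {h : α → β → β → β} (hl : Poly l) (hg : Poly g)
    (hh : Poly fun p : α × β × β => h p.1 p.2.1 p.2.2)
    (hs : ∀ a x s, h a x s = s ∨ h a x s = x) : Poly fun a => (l a).foldr (h a) (g a) :=
  foldr_add hl hg hh (fun _ x => sz x) (by fun_prop) fun a x s => by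
    rcases hs a x s with e | e <;> rw [e] <;> omega

theorem max? [LinearOrder β] {l : α → List β} (hl : Poly l)
    (hm : Poly fun p : β × β => max p.1 p.2) : Poly fun a => (l a).max? :=
  (listCasesOn (g := fun _ x xs => Option.some (xs.foldl max x)) hl (const none)
    (some (foldl_select (h := fun _ => max) (by fun_prop) (by fun_prop) (hm.comp id'.snd)
      fun _ s x => max_choice s x))).congr fun a => by cases l a <;> rfl

theorem min? [LinearOrder β] {l : α → List β} (hl : Poly l)
    (hm : Poly fun p : β × β => min p.1 p.2) : Poly fun a => (l a).min? :=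
  (listCasesOn (g := fun _ x xs => Option.some (xs.foldl min x)) hl (const none)
    (some (foldl_select (h := fun _ => min) (by fun_prop) (by fun_prop) (hm.comp id'.snd)
      fun _ s x => min_choice s x))).congr fun a => by cases l a <;> rfl

@[fun_prop] theorem sup_fin {n : α → ℕ} {f : ∀ a, Fin (n a) → ℕ} (hn : Poly n) (hb : PB n)
    (hf : Poly fun p : Σ a, Fin (n a) => f p.1 p.2) : Poly fun a => Finset.univ.sup (f a) :=
  (foldr_select (h := fun _ => max) (ofFn hn hb hf) (const 0) (by fun_prop)
    fun _ x s => (max_choice x s).symm).congr fun a => by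
      refine le_antisymm ?_ (Finset.sup_le fun i _ => List.le_max_of_le ?_ le_rfl)
      · exact List.max_le_of_forall_le _ _ (by
          simpa [List.mem_ofFn'] using fun i => Finset.le_sup (f := f a) (Finset.mem_univ i))
      · simp [List.mem_ofFn']

/-- All bit strings of length `k`, when `2 ^ k` is polynomially bounded. -/
def allBits : ℕ → List (List Bool)
  | 0 => [[]]
  | k + 1 => (allBits k).flatMap fun w => [false :: w, true :: w]

theorem mem_allBits {k : ℕ} {w : List Bool} : w ∈ allBits k ↔ w.length = k := by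
  induction k generalizing w with
  | zero => simp [allBits]
  | succ k ih => rcases w with _ | ⟨_ | _, w⟩ <;> simp [allBits, ih]

theorem length_allBits (k : ℕ) : (allBits k).length = 2 ^ k := by
  induction k with
  | zero => rfl
  | succ k ih => simp [allBits, List.length_flatMap, ih, pow_succ]

theorem nodup_allBits (k : ℕ) : (allBits k).Nodup := by
  induction k with
  | zero => simp [allBits]
  | succ k ih =>
    rw [allBits, List.nodup_flatMap]
    refine ⟨by simp, ih.imp fun h => ?_⟩
    simp [Function.onFun, h.symm]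

theorem allBits' {k : α → ℕ} (hk : Poly k) (hb : PB fun a => 2 ^ k a) :
    Poly fun a => allBits (k a) := by
  have hb' : PB k := hb.mono fun _ => Nat.lt_two_pow_self.le
  refine natRec' (f := fun _ => allBits) (g := fun _ => [[]])
    (h := fun _ _ r => r.flatMap fun w => [false :: w, true :: w]) hk hb' (const _) (by fun_prop)
    (fun _ => rfl) (fun _ _ _ => rfl) (B := fun a => 2 ^ k a * (4 * k a + 1 + 1) + 1)
    (by fun_prop) fun a i hi => ?_
  refine (sz_list_le (B := 4 * k a + 1) fun w hw => ?_).trans ?_
  · have := sz_listBool_le w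
    rw [mem_allBits.1 hw] at this; omega
  · rw [length_allBits]; gcongr; norm_num

end Poly

/-! ### General recursion -/

/-- `RecRuns step resume B s b N D`: the frame `s` returns `b`.  A frame either returns or calls a
fresh frame and is resumed with its result.  `N` bounds the number of `step` calls, `D` the
nesting depth and `B` the size of all frames. -/
inductive RecRuns {σ β : Type*} [PEnc σ] (step : σ → β ⊕ σ) (resume : σ → β → σ) (B : ℕ) :
    σ → β → ℕ → ℕ → Prop
  | ret {s : σ} {b : β} (N D : ℕ) : sz s ≤ B → step s = .inl b → RecRuns step resume B s b (N + 1) D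
  | call {s s' : σ} {b b' : β} {N M D : ℕ} : sz s ≤ B → step s = .inr s' →
      RecRuns step resume B s' b' N D → RecRuns step resume B (resume s b') b M (D + 1) →
      RecRuns step resume B s b (N + M + 1) (D + 1)

theorem RecRuns.mono {σ β : Type*} [PEnc σ] {step : σ → β ⊕ σ} {resume : σ → β → σ} {B B' : ℕ}
    {s : σ} {b : β} {N N' D D' : ℕ} (h : RecRuns step resume B s b N D) (hB : B ≤ B')
    (hN : N ≤ N') (hD : D ≤ D') : RecRuns step resume B' s b N' D' := by
  induction h generalizing N' D' with
  | ret N D h₁ h₂ =>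
    obtain ⟨M, rfl⟩ : ∃ M, N' = M + 1 := ⟨N' - 1, by omega⟩
    exact .ret M _ (h₁.trans hB) h₂
  | @call s s' b b' N M D h₁ h₂ _ _ ih₁ ih₂ =>
    obtain ⟨K, rfl⟩ : ∃ K, N' = N + K + 1 := ⟨N' - N - 1, by omega⟩
    obtain ⟨E, rfl⟩ : ∃ E, D' = E + 1 := ⟨D' - 1, by omega⟩
    exact .call (h₁.trans hB) h₂ (ih₁ le_rfl (by omega)) (ih₂ (by omega) hD)

/-- One move of the stack machine that runs a recursion. -/
def stackStep {σ β : Type*} (step : σ → β ⊕ σ) (resume : σ → β → σ) (x : σ × List σ) :
    β ⊕ (σ × List σ) :=
  Sum.elim (fun b => List.casesOn x.2 (Sum.inl b) fun t st => Sum.inr (resume t b, st))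
    (fun s' => Sum.inr (s', x.1 :: x.2)) (step x.1)

theorem RecRuns.runs_aux {σ β : Type*} [PEnc σ] {step : σ → β ⊕ σ} {resume : σ → β → σ} {B : ℕ}
    {s : σ} {b : β} {N D : ℕ} (h : RecRuns step resume B s b N D) (Z : ℕ) (st : List σ) (r : β)
    (K : ℕ) (hZ : sz st + (D + 1) * (B + 1) ≤ Z)
    (hk : List.casesOn (motive := fun _ => Prop) st (b = r)
      fun t st' => Runs (stackStep step resume) Z (resume t b, st') r K) :
    Runs (stackStep step resume) Z (s, st) r (N + K) := by
  induction h generalizing st K with
  | @ret s b N D h₁ h₂ =>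
    have hs : sz (s, st) ≤ Z := by rw [sz_pair]; nlinarith
    cases st with
    | nil =>
      obtain rfl : b = r := hk
      exact (Runs.stop 0 hs (by simp [stackStep, h₂])).mono le_rfl (by omega)
    | cons t st' =>
      exact (Runs.next hs (by simp [stackStep, h₂]) hk).mono le_rfl (by omega)
  | @call s s' b b' N M D h₁ h₂ _ _ ih₁ ih₂ =>
    have hs : sz (s, st) ≤ Z := by rw [sz_pair]; nlinarith
    have := ih₁ (s :: st) (M + K) (by rw [sz_cons]; nlinarith) (ih₂ st K hZ hk)
    exact (Runs.next hs (by simp [stackStep, h₂]) this).mono le_rfl (by omega)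

theorem RecRuns.runs {σ β : Type*} [PEnc σ] {step : σ → β ⊕ σ} {resume : σ → β → σ} {B : ℕ}
    {s : σ} {b : β} {N D : ℕ} (h : RecRuns step resume B s b N D) :
    Runs (stackStep step resume) ((D + 1) * (B + 1) + 1) (s, []) b N :=
  h.runs_aux _ [] b 0 (by simp; omega) rfl

namespace Poly
variable {α β γ σ : Type*} [PEnc α] [PEnc β] [PEnc γ] [PEnc σ]

theorem stackStep {step : σ → β ⊕ σ} {resume : σ → β → σ} (hs : Poly step)
    (hr : Poly fun p : σ × β => resume p.1 p.2) : Poly (stackStep step resume) := by
  unfold PolyTime.stackStep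
  exact sumElim (by fun_prop) (listCasesOn (by fun_prop) (by fun_prop) (by fun_prop)) (by fun_prop)

/-- General recursion with explicit cost: `N` frames steps, depth `D`, frame size `B`. -/
theorem recursion_cmp {ini : α → σ} {step : σ → β ⊕ σ} {resume : σ → β → σ} (hi : Poly ini)
    (hs : Poly step) (hr : Poly fun p : σ × β => resume p.1 p.2) :
    ∃ p q : Polynomial ℕ, ∀ {f : α → β} {N D B : α → ℕ},
      (∀ a, RecRuns step resume (B a) (ini a) (f a) (N a) (D a)) →
        Cmp f fun a => p.eval (sz a) + N a * q.eval ((D a + 1) * (B a + 1) + 1) := by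
  obtain ⟨p, q, h⟩ := loop_cmp (ini := fun a => (ini a, ([] : List σ))) (by fun_prop)
    (stackStep hs hr)
  exact ⟨p, q, fun hf => h fun a => (hf a).runs⟩

theorem recursion {ini : α → σ} {step : σ → β ⊕ σ} {resume : σ → β → σ} {f : α → β}
    {N D B : α → ℕ} (hi : Poly ini) (hs : Poly step) (hr : Poly fun p : σ × β => resume p.1 p.2)
    (hN : PB N) (hD : PB D) (hB : PB B)
    (h : ∀ a, RecRuns step resume (B a) (ini a) (f a) (N a) (D a)) : Poly f := by
  obtain ⟨p, q, h'⟩ := recursion_cmp hi hs hr
  exact ⟨_, by have := PB.sz_id (α := α); fun_prop, h' h⟩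

/-- Divide and conquer: `f a = comb a ((sub a).map f)`.  `N` bounds the size of the recursion
tree, `D` its depth, and `B` (monotone along the tree) all sizes that occur at a node. -/
theorem treeRec_cmp {sub : α → List α} {comb : α → List β → β} (hs : Poly sub)
    (hc : Poly fun p : α × List β => comb p.1 p.2) :
    ∃ p q : Polynomial ℕ, ∀ {f : α → β} {N D B : α → ℕ}, (∀ a, f a = comb a ((sub a).map f)) →
      (∀ a, ((sub a).map fun x => N x + 1).sum < N a) → (∀ a, ∀ x ∈ sub a, D x < D a) →
      (∀ a, ∀ x ∈ sub a, B x ≤ B a) → (∀ a, sz a + sz (sub a) + sz ((sub a).map f) + 2 ≤ B a) →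
        Cmp f fun a => p.eval (sz a) + N a * q.eval ((D a + 1) * (B a + 1) + 1) := by
  let step : α × List α × List β → β ⊕ (α × List α × List β) := fun s =>
    List.casesOn s.2.1 (Sum.inl (comb s.1 s.2.2.reverse)) fun x _ => Sum.inr (x, sub x, [])
  let resume : α × List α × List β → β → α × List α × List β := fun s b =>
    (s.1, s.2.1.tail, b :: s.2.2)
  obtain ⟨p, q, h⟩ := recursion_cmp (ini := fun a => (a, sub a, ([] : List β))) (step := step)
    (resume := resume) (by fun_prop) (listCasesOn (by fun_prop) (by fun_prop) (by fun_prop))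
    (by simp only [resume]; fun_prop)
  refine ⟨p, q, fun {f N D B} hf hN hD hB hsz => h fun a => ?_⟩
  induction hd : D a using Nat.strong_induction_on generalizing a with
  | _ d ih =>
    have key : ∀ todo done : List α, done ++ todo = sub a →
        RecRuns step resume (B a) (a, todo, (done.map f).reverse) (f a)
          ((todo.map fun x => N x + 1).sum + 1) d := by
      intro todo
      have hb : ∀ todo done : List α, done ++ todo = sub a →
          sz (a, todo, (done.map f).reverse) ≤ B a := fun todo done e => by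
        have h1 := sz_le_of_sublist (e ▸ List.sublist_append_right done todo)
        have h2 := sz_le_of_sublist ((e ▸ List.sublist_append_left done todo).map f)
        have := hsz a
        simp only [sz_pair, sz_reverse]; omega
      induction todo with
      | nil =>
        intro done e
        refine .ret _ _ (hb _ _ e) ?_
        rw [List.append_nil] at e
        simp only [step, List.reverse_reverse, e, ← hf]
      | cons x xs ihx =>
        intro done e
        have hx : x ∈ sub a := by rw [← e]; simp
        have h1 := hD a x hx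
        obtain ⟨d, rfl⟩ : ∃ c, d = c + 1 := ⟨d - 1, by omega⟩
        have h2 := (ih (D x) (by omega) x rfl).mono (hB a x hx) le_rfl (show D x ≤ d by omega)
        have h3 := ihx (done ++ [x]) (by simpa using e)
        rw [List.map_append, List.map_singleton, List.reverse_concat] at h3
        refine (RecRuns.call (step := step) (hb _ _ e) rfl h2 h3).mono le_rfl ?_ le_rfl
        simp; omega
    exact (key (sub a) [] rfl).mono le_rfl (hN a) le_rfl

theorem treeRec {sub : α → List α} {comb : α → List β → β} {f : α → β} {N D B : α → ℕ}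
    (hs : Poly sub) (hc : Poly fun p : α × List β => comb p.1 p.2)
    (hf : ∀ a, f a = comb a ((sub a).map f)) (hN : ∀ a, ((sub a).map fun x => N x + 1).sum < N a)
    (hD : ∀ a, ∀ x ∈ sub a, D x < D a) (hB : ∀ a, ∀ x ∈ sub a, B x ≤ B a)
    (hsz : ∀ a, sz a + sz (sub a) + sz ((sub a).map f) + 2 ≤ B a) (hN' : PB N) (hD' : PB D)
    (hB' : PB B) : Poly f := by
  obtain ⟨p, q, h'⟩ := treeRec_cmp hs hc
  exact ⟨_, by have := PB.sz_id (α := α); fun_prop, h' hf hN hD hB hsz⟩

end Poly

end Crest.Agent.Lib.PolyTime
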