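import Crest.Agent.R290.Unary

/-!
# Machine polynomial time implies `Poly`

The converse of `Bridge.lean`, through the table machines of row 290.
-/

set_option autoImplicit false

namespace Crest.Agent.Lib.PolyTime

open Crest.Agent.R290 Crest.Agent.R290.TMAux Crest.Agent.R290.UnaryAux

namespace OfTM

/-- After halting the stacks do not change. -/
theorem stay {K : Type} {Γ : K → Type} {Λ σ : Type} {d : Dat Γ Λ σ} {N : Tbl} (h : d.Real N)
    (S : ∀ k, List (Γ k)) (n : ℕ) : ∀ (a : St Γ Λ σ) (t : List (List ℕ)),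
      a = .fin ∨ a = .acc ∨ a = .rej → d.Rel t S → d.Rel (N.step^[n] (d.cq a, t)).2 S := by
  induction n with
  | zero => exact fun _ _ _ hr => hr
  | succ n ih =>
    intro a t ha hr
    obtain ⟨t', h1, h2⟩ := h.step0 (a := a) (by rcases ha with rfl | rfl | rfl <;> simp [Dat.Q])
      (by rcases ha with rfl | rfl | rfl <;> rfl) hr
    rw [Function.iterate_succ_apply, h2]
    refine ih _ t' ?_ h1
    rcases ha with rfl | rfl | rfl
    · simp only [Dat.nxtA]
      split_ifs <;> simp
    · simp [Dat.nxtA]
    · simp [Dat.nxtA]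

theorem exists_tbl_out {A B : Type} [Finite A] [Inhabited B] (M : Turing.TM2ComputableAux A B) :
    ∃ (N : Tbl) (D j : ℕ) (ci : A → ℕ) (co : B → ℕ), ∀ (w : List A) (out : List B) (T : ℕ),
      Nonempty (Turing.TM2OutputsInTime M.tm (w.map M.inputAlphabet.invFun)
        (some (out.map M.outputAlphabet.invFun)) T) →
      (N.step^[D * T + 1] (2, w.map ci :: List.replicate (N.nS - 1) [])).2.getD j [] = out.map co ∧
        ∀ b ∈ out, ∀ b', co b = co b' → b = b' := by
  classical
  obtain ⟨tm, ia, oa⟩ := M
  let _ := tm.kFin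
  let _ := tm.ΛFin
  let _ := tm.σFin
  let _ := Fintype.ofFinite A
  let P : List (Turing.TM2.Stmt tm.Γ tm.Λ tm.σ) :=
    (Finset.univ : Finset tm.Λ).toList.flatMap fun l => sub (tm.m l)
  have hP : ∀ q, q ∈ P ↔ ∃ l, q ∈ sub (tm.m l) := fun q => by simp [P]
  let LQ : List (St tm.Γ tm.Λ tm.σ) :=
    P.flatMap fun q => (Finset.univ : Finset tm.σ).toList.map fun v => St.run q v
  have hLQ : ∀ q v, St.run q v ∈ LQ ↔ q ∈ P := fun q v => by simp [LQ]
  let pu : St tm.Γ tm.Λ tm.σ → Option (Σ k, tm.Γ k) := fun a => match a with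
    | .run (.push k f _) v => some ⟨k, f v⟩
    | _ => none
  let d : Dat tm.Γ tm.Λ tm.σ :=
    { k₀ := tm.k₀, k₁ := tm.k₁, m := tm.m, main := tm.main, v₀ := tm.initialState
      yes := oa.symm default
      LK := Finset.univ.toList
      LG := (Finset.univ.toList.map fun a : A => ⟨tm.k₀, ia.symm a⟩) ++ LQ.filterMap pu
      LQ := LQ
      hK := fun k => by simp
      hm := fun l v => (hLQ _ _).2 ((hP _).2 ⟨l, sub_self _⟩)
      hkids := fun q v hq c hc v' => by
        obtain ⟨l, hl⟩ := (hP _).1 ((hLQ _ _).1 hq)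
        exact (hLQ _ _).2 ((hP _).2 ⟨l, sub_kids hl hc⟩)
      hpush := fun k f q v hq => List.mem_append_right _ (List.mem_filterMap.2 ⟨_, hq, rfl⟩) }
  obtain ⟨N, hN⟩ := d.exists_real
  refine ⟨N, ∑ l, (sub (tm.m l)).length, d.ck tm.k₁, fun a => d.cg tm.k₀ (ia.symm a),
    fun b => d.cg tm.k₁ (oa.symm b), ?_⟩
  rintro w out T ⟨⟨⟨n, hn⟩, hT⟩⟩
  have hr : d.Rel ((w.map fun a => d.cg tm.k₀ (ia.symm a)) :: List.replicate (N.nS - 1) [])
      (Turing.initList tm (w.map ia.invFun)).stk := by
    refine ⟨by simp [hN.nS], fun k => ?_, fun k x hx => ?_⟩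
    · by_cases hk : k = tm.k₀
      · subst hk
        have h0 : d.ck tm.k₀ = 0 := d.ck_zero
        have h1 : (Turing.initList tm (w.map ia.invFun)).stk tm.k₀ = w.map ia.invFun :=
          dif_pos rfl
        rw [h0, h1, List.map_map]
        rfl
      · have h0 : d.ck k ≠ 0 := fun e => hk (d.ck_inj (e.trans d.ck_zero.symm))
        have h1 : (Turing.initList tm (w.map ia.invFun)).stk k = [] := dif_neg hk
        obtain ⟨j, hj⟩ := Nat.exists_eq_succ_of_ne_zero h0
        rw [h1, hj, List.getD_cons_succ, List.getD_eq_getElem?_getD, List.getElem?_replicate]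
        split_ifs <;> rfl
    · by_cases hk : k = tm.k₀
      · subst hk
        have h1 : (Turing.initList tm (w.map ia.invFun)).stk tm.k₀ = w.map ia.invFun :=
          dif_pos rfl
        rw [h1] at hx
        obtain ⟨b, -, rfl⟩ := List.mem_map.1 hx
        exact List.mem_append_left _ (List.mem_map.2 ⟨b, by simp, rfl⟩)
      · have h1 : (Turing.initList tm (w.map ia.invFun)).stk k = [] := dif_neg hk
        rw [h1] at hx
        exact absurd hx List.not_mem_nil
  obtain ⟨t₁, hr₁, h1⟩ := hN.step0 (a := .start) (by simp [Dat.Q]) rfl hr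
  obtain ⟨n', hn', t₂, hr₂, h2⟩ := hN.iter (D := ∑ l, (sub (tm.m l)).length)
    (fun l => Finset.single_le_sum (f := fun l => (sub (tm.m l)).length)
      (fun _ _ => Nat.zero_le _) (Finset.mem_univ l)) n _ _ t₁ hn hr₁
  have h4 : (Turing.haltList tm (out.map oa.invFun)).stk tm.k₁ = out.map oa.invFun := dif_pos rfl
  obtain ⟨r, hr'⟩ : ∃ r, (∑ l, (sub (tm.m l)).length) * T + 1 = r + (n' + 1) :=
    ⟨_, (Nat.sub_add_cancel (Nat.succ_le_succ (hn'.trans (Nat.mul_le_mul_left _ hT)))).symm⟩
  refine ⟨?_, fun b hb b' e => oa.symm.injective (d.cg_inj (hr₂.mem tm.k₁ _ ?_) e)⟩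
  · rw [hr', Function.iterate_add_apply, Function.iterate_add_apply, ← d.cq_start,
      Function.iterate_one, h1]
    erw [h2]
    refine ((stay hN _ r .fin t₂ (Or.inl rfl) hr₂).get tm.k₁).trans ?_
    rw [h4, List.map_map]
    rfl
  · rw [h4]
    exact List.mem_map_of_mem hb

end OfTM

/-- A machine with a polynomial clock is simulated by a total `Poly` function. -/
theorem exists_poly_of_tm {A B : Type} [Finite A] [Finite B] [Inhabited B] [PEnc A] [PEnc B]
    (M : Turing.TM2ComputableAux A B) (p : Polynomial ℕ) :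
    ∃ F : List A → List B, Poly F ∧ ∀ (w : List A) (out : List B),
      Nonempty (Turing.TM2OutputsInTime M.tm (w.map M.inputAlphabet.invFun)
        (some (out.map M.outputAlphabet.invFun)) (p.eval w.length)) → F w = out := by
  classical
  obtain ⟨N, D, j, ci, co, h⟩ := OfTM.exists_tbl_out M
  let _ := Fintype.ofFinite B
  have hci := Poly.of_finite ci
  have hco := Poly.of_finite co
  have h1 : Poly fun w : List A => N.step^[D * p.eval w.length + 1]
      (2, w.map ci :: List.replicate (N.nS - 1) []) :=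
    Poly.iterate_add (h := fun _ => N.step) (by fun_prop) (by fun_prop) (by fun_prop)
      (poly_step.comp (g := fun q : List A × (ℕ × List (List ℕ)) => (N, q.2)) (by fun_prop))
      (fun _ => 5 * sz (N : List ℕ) + 1) (by fun_prop) fun _ s => sz_step_le N s
  refine ⟨fun w => ((N.step^[D * p.eval w.length + 1]
    (2, w.map ci :: List.replicate (N.nS - 1) [])).2.getD j []).filterMap
      fun n => Finset.univ.toList.find? fun b => decide (n = co b), by fun_prop, fun w out ho => ?_⟩
  obtain ⟨h2, h3⟩ := h w out _ ho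
  simp only [h2, List.filterMap_map]
  refine (List.filterMap_congr (g := some) fun b hb => ?_).trans List.filterMap_some
  obtain ⟨b', hb'⟩ := Option.isSome_iff_exists.1 (List.find?_isSome.2
    ⟨b, (by simp : b ∈ Finset.univ.toList), (by simp : decide (co b = co b) = true)⟩ :
      (Finset.univ.toList.find? fun b' => decide (co b = co b')).isSome)
  rw [Function.comp_apply, hb', h3 b hb b' (by simpa using List.find?_some hb')]

/-- General form of the converse of `Poly.polyTimeComputable`. -/
theorem Poly.of_polyTimeComputable {α β A B : Type} [Finite A] [Finite B] [Inhabited B] [PEnc A]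
    [PEnc B] [PEnc α] {ea : α → List A} {eb : β → List B} {f : α → β}
    (h : Crest.Complexity.PolyTimeComputable ea eb f) (hea : Poly ea) : Poly fun a => eb (f a) := by
  obtain ⟨M⟩ := h
  obtain ⟨F, hF, h⟩ := exists_poly_of_tm M.toTM2ComputableAux M.time
  exact (hF.comp hea).congr fun a => h _ _ ⟨M.outputsFun a⟩

theorem Poly.of_polyTime {f : List Bool → List Bool} (h : Crest.Complexity.PolyTime f) : Poly f :=
  (Poly.of_polyTimeComputable h Poly.id').congr fun _ => rfl

theorem Poly.of_polyTimePred {f : List Bool → Bool} (h : Crest.Complexity.PolyTimePred f) :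
    Poly f :=
  ((Poly.of_polyTimeComputable h Poly.id').headD (Poly.const false)).congr fun _ => rfl

theorem poly_pairEnc : Poly Crest.Complexity.pairEnc :=
  Poly.congr (f := fun p : List Bool × List Bool => p.1.map Sum.inl ++ p.2.map Sum.inr)
    (by fun_prop) fun _ => rfl

theorem Poly.of_polyTime₂ {f : List Bool × List Bool → List Bool}
    (h : Crest.Complexity.PolyTimeComputable Crest.Complexity.pairEnc
      (Computability.encodingList Bool).encode f) : Poly f :=
  (Poly.of_polyTimeComputable h poly_pairEnc).congr fun _ => rfl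

theorem Poly.of_polyTimePred₂ {f : List Bool × List Bool → Bool}
    (h : Crest.Complexity.PolyTimePred₂ f) : Poly f :=
  ((Poly.of_polyTimeComputable h poly_pairEnc).headD (Poly.const false)).congr fun _ => rfl

end Crest.Agent.Lib.PolyTime
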